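import Vale.Agent.P277Z.Lift.FDefs
import Vale.Agent.P277Z.Val.Man
import Vale.Agent.P277Z.Lo.Base

/-!
# P277Z, lifting: local integrability and changes of coordinates
-/

set_option linter.unusedSectionVars false

open scoped Manifold ContDiff Topology ENNReal
open Set Filter MeasureTheory
open Vale.Agent.P272.K (Cm Chart At cHess)
open Vale.Agent.P277Z.Val (LocIso Crd AnM crd_chart)

noncomputable section

namespace Vale.Agent.P277Z.Lift

variable {n : ℕ}

theorem LI.iso {φ : Cm n → Cm n} {w : Cm n} (h : LocIso φ w) {f : Cm n → ℝ≥0∞}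
    (hf : LI (fun z => f (φ z)) w) : LI f (φ w) := by
  obtain ⟨θ, h1, h2, h3, h4⟩ := h.exists_inv
  have h5 : ContinuousAt (fun z => |(fderiv ℝ φ z).det|) w :=
    (ContinuousLinearMap.continuous_det.continuousAt.comp
      (((h.1.contDiffAt (n := 1)).restrict_scalars ℝ).continuousAt_fderiv one_ne_zero)).abs
  obtain ⟨V, hV, hf⟩ := (hf.mono (f := fun z => ENNReal.ofReal |(fderiv ℝ φ z).det| * f (φ z))
    (C := ENNReal.ofReal (|(fderiv ℝ φ w).det| + 1)) ENNReal.ofReal_ne_top (by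
      filter_upwards [h5.eventually (Iio_mem_nhds (lt_add_one _))] with z hz
      exact mul_le_mul_left (ENNReal.ofReal_le_ofReal (le_of_lt hz)) _))
  obtain ⟨O, hO, hOo, hw⟩ := _root_.mem_nhds_iff.1
    (inter_mem hV (h3.and h.1.eventually_analyticAt))
  have h6 : Tendsto θ (𝓝 (φ w)) (𝓝 w) := by
    have := h1.1.continuousAt
    rwa [ContinuousAt, h2] at this
  refine ⟨φ '' O, ?_, ?_⟩
  · filter_upwards [h6.eventually (hOo.mem_nhds hw), h4] with s e1 e2 using ⟨θ s, e1, e2⟩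
  · rw [lintegral_image_eq_lintegral_abs_det_fderiv_mul volume hOo.measurableSet
      (f' := fun z => fderiv ℝ φ z) (fun z hz => ((hO hz).2.2.differentiableAt.restrictScalars
        ℝ).hasFDerivAt.hasFDerivWithinAt)
      (fun z hz z' hz' e => by rw [← (hO hz).2.1, e, (hO hz').2.1])]
    exact ne_top_of_le_ne_top hf (lintegral_mono_set fun z hz => (hO hz).1)

variable {W : Type} [TopologicalSpace W] [ChartedSpace (Cm n) W] {c c' : W → Cm n}
  {ξ ξ' : Cm n → W} {y : W} {f g : W → ℝ≥0∞}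

theorem crd_li (h : Crd c ξ y) (h' : Crd c' ξ' y) (hf : LI (fun z => f (ξ z)) (c y)) :
    LI (fun z => f (ξ' z)) (c' y) := by
  have h1 := LI.iso (h.chg h') (f := fun z => f (ξ' z)) (hf.congr
    ((h.tend.eventually h'.left).mono fun z hz => by rw [hz]))
  rwa [h.inv] at h1

theorem crd_congr (h : Crd c ξ y) (e : ∀ᶠ z in 𝓝 y, c z = c' z) : Crd c' ξ y where
  hol i := Hol.congr (n := n) (a := fun y => c y i) (b := fun y => c' y i) (h.hol i)
    (e.mono fun z hz => by rw [hz])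
  an := e.self_of_nhds ▸ h.an
  left := by filter_upwards [h.left, e] with z e1 e2 using e2 ▸ e1
  right := by
    rw [← e.self_of_nhds]
    filter_upwards [h.right, h.tend.eventually e] with z e1 e2 using e2 ▸ e1

theorem crd_an (h : Crd c ξ y) {a : W → ℂ} (ha : Hol n a y) :
    AnalyticAt ℂ (fun z => a (ξ z)) (c y) := h.an.hol (by rw [h.inv]; exact ha)

theorem LIM.mono (h : LIM n g y) {C : ℝ≥0∞} (hC : C ≠ ⊤) (hle : ∀ᶠ z in 𝓝 y, f z ≤ C * g z) :
    LIM n f y :=
  LI.mono h hC ((Lo.tendsto_symm (Lo.at_chartAt y)).eventually hle)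

theorem LIM.congr (h : LIM n g y) (he : ∀ᶠ z in 𝓝 y, f z = g z) : LIM n f y :=
  h.mono ENNReal.one_ne_top (he.mono fun z hz => by rw [hz, one_mul])

variable [IsManifold 𝓘(ℂ, Cm n) ω W]

theorem lim_iff (h : Crd c ξ y) : LIM n f y ↔ LI (fun z => f (ξ z)) (c y) :=
  ⟨crd_li (crd_chart (Lo.at_chartAt y)) h, crd_li h (crd_chart (Lo.at_chartAt y))⟩

theorem lim_iff_chart {e : Chart n W} (he : At e y) :
    LIM n f y ↔ LI (fun z => f (e.symm z)) (e y) := lim_iff (crd_chart he)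

theorem LIM.ev (h : LIM n f y) : ∀ᶠ z in 𝓝 y, LIM n f z := by
  have h1 := crd_chart (Lo.at_chartAt (n := n) y)
  filter_upwards [h1.eventually, h1.cont.eventually (LI.ev h)] with z e1 e2
    using (lim_iff e1).2 e2

theorem crd_of_jd {t : Fin n → W → ℂ} (ht : ∀ i, Hol n (t i) y) {e : Chart n W} (he : At e y)
    (h : jd t e y ≠ 0) : ∃ ξ, Crd (fun z i => t i z) ξ y := by
  have h1 : LocIso (fun z i => t i (e.symm z)) (e y) :=
    ⟨analyticAt_pi_iff.2 fun i => ht i e he, h⟩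
  obtain ⟨θ, h2, -, h3, h4⟩ := h1.exists_inv
  refine ⟨_, crd_congr ((crd_chart he).comp h1.1 h2.1 h3 h4) ?_⟩
  filter_upwards [e.eventually_left_inverse he.2] with z hz
  rw [hz]

/-- a coordinate function has a non zero differential -/
theorem crd_fderiv (h : Crd c ξ y) (i : Fin n) {e : Chart n W} (he : At e y) :
    fderiv ℂ (fun z => c (e.symm z) i) (e y) ≠ 0 := fun h0 => by
  have h1 := (crd_chart he).chg h
  have h2 := (LinearMap.equivOfDetNeZero
    (fderiv ℂ (fun w => c (e.symm w)) (e y) : Cm n →ₗ[ℂ] Cm n) h1.2).surjective (Pi.single i 1)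
  obtain ⟨v, hv⟩ := h2
  have h3 : fderiv ℂ (fun w => c (e.symm w)) (e y) v = Pi.single i 1 := hv
  have h4 := (hasFDerivAt_pi'.1 h1.1.differentiableAt.hasFDerivAt i).fderiv
  rw [h0] at h4
  have h5 := congrArg (fun A : Cm n →L[ℂ] ℂ => A v) h4
  simp [h3] at h5

theorem coord_crd {N : ℕ} {K : Type} [Field K] [Algebra ℂ K] {M : Mdl n N K} {x : M.F}
    {t : Fin n → K} (h : M.Coord x t) : ∃ ξ, Crd (fun z i => M.val (t i) z) ξ (x : M.W) :=
  crd_of_jd (fun i => (h.1 i).1) (Lo.at_chartAt _) (h.2 _ (Lo.at_chartAt _))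

end Vale.Agent.P277Z.Lift
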