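import Vale.Agent.P277Z.Lift.Crd
import Vale.Agent.P277Z.Ps.Opn
import Vale.Agent.P277Z.Van.Sing

/-!
# P277Z, lifting: the extension theorem near the fibre
-/

set_option linter.unusedSectionVars false

open scoped Manifold ContDiff Topology ENNReal ComplexOrder
open Set Filter
open Vale.Agent.P272.K Vale.Agent.P301.H599 Vale.Agent.P285Z
open Vale.Agent.P285.H281.FD (Bd)
open Vale.Agent.P301.H98 (IsSection)
open TopologicalSpace (Opens)

noncomputable section

namespace Vale.Agent.P277Z.Lift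

open Van Ps

namespace XF

variable {d : ℕ} {X : Type} [TopologicalSpace X] [ChartedSpace (Cm d) X] {κ : Type}

theorem flat_g (L : LineBundle d X κ) {i j : κ} {x : X} (hi : x ∈ L.U i) (hj : x ∈ L.U j) :
    Pos.FlatAt d (fun y => Real.log (‖L.g i j y‖ ^ 2)) x :=
  flatAt_log (fun e he => L.holo i j e x he hi hj) (L.ne_zero i j x hi hj)

theorem log_mul {a b : ℂ} (ha : a ≠ 0) (hb : b ≠ 0) :
    Real.log (‖a * b‖ ^ 2) = Real.log (‖a‖ ^ 2) + Real.log (‖b‖ ^ 2) := by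
  rw [norm_mul, mul_pow, Real.log_mul (by positivity) (by positivity)]

variable [IsManifold 𝓘(ℂ, Cm d) ω X]

theorem met_of {m : ℕ} {B : LineBundle d X κ} {ι : Fin m → Type} {E : ∀ j, LineBundle d X (ι j)}
    {ρ : ∀ j, ι j → X → ℝ} (hρ : ∀ j, IsMetric (E j) (ρ j)) {c : Fin m → ℝ}
    {Λ : κ → (∀ j, ι j) → X → ℝ}
    (pos : ∀ z, ∃ i k, z ∈ B.U i ∧ (∀ j, z ∈ (E j).U (k j)) ∧ Spsh d (Λ i k) z)
    (chg : ∀ z i i' k k', z ∈ B.U i → z ∈ B.U i' → (∀ j, z ∈ (E j).U (k j)) →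
      (∀ j, z ∈ (E j).U (k' j)) → Λ i k z = Λ i' k' z + Real.log (‖B.g i i' z‖ ^ 2) -
        ∑ j, c j * Real.log (‖(E j).g (k j) (k' j) z‖ ^ 2)) :
    ∃ τ, IsMetric B τ ∧ ∀ e x, At e x →
      (curvature B τ e (e x) - ∑ j, (c j : ℂ) • curvature (E j) (ρ j) e (e x)).PosDef := by
  choose k₀ hk₀ using fun z j => (E j).cover z
  obtain ⟨τ, key⟩ : ∃ τ : κ → X → ℝ, ∀ z i i' k, z ∈ B.U i → z ∈ B.U i' →
      (∀ j, z ∈ (E j).U (k j)) →
      τ i z = Λ i' k z + ∑ j, c j * ρ j (k j) z + Real.log (‖B.g i i' z‖ ^ 2) := by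
    refine ⟨fun i z => Λ i (k₀ z) z + ∑ j, c j * ρ j (k₀ z j) z, fun z i i' k hi hi' hk => ?_⟩
    beta_reduce
    rw [chg z i i' (k₀ z) k hi hi' (hk₀ z) hk, Finset.sum_congr rfl fun j _ =>
      congrArg (c j * ·) ((hρ j).change _ _ z (hk₀ z j) (hk j))]
    simp only [mul_add, Finset.sum_add_distrib]
    ring
  have ev : ∀ {e : Chart d X} {x i i' k}, At e x → x ∈ B.U i → x ∈ B.U i' →
      (∀ j, x ∈ (E j).U (k j)) → (fun z => τ i (e.symm z)) =ᶠ[𝓝 (e x)] fun z =>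
        (fun y => Λ i' k y + ∑ j, c j * ρ j (k j) y + Real.log (‖B.g i i' y‖ ^ 2)) (e.symm z) :=
    fun {e x i i' k} he hi hi' hk => ev_sym he (P := fun y => τ i y =
        Λ i' k y + ∑ j, c j * ρ j (k j) y + Real.log (‖B.g i i' y‖ ^ 2)) (by
      filter_upwards [(B.isOpen _).mem_nhds hi, (B.isOpen _).mem_nhds hi',
        eventually_all.2 fun j => ((E j).isOpen _).mem_nhds (hk j)] with y a1 a2 a3
        using key y _ _ _ a1 a2 a3)
  have s2 : ∀ {x} {k : ∀ j, ι j} j, (∀ j, x ∈ (E j).U (k j)) → SmOn (d := d) {x} (ρ j (k j)) :=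
    fun j hk e y hy h => (hρ j).smooth _ e y hy (h ▸ hk j)
  have s3 : ∀ {x} {k : ∀ j, ι j}, (∀ j, x ∈ (E j).U (k j)) → ∀ j ∈ Finset.univ,
      SmOn (d := d) {x} fun y => c j * ρ j (k j) y := fun hk j _ => (smOn_const _ _).mul (s2 j hk)
  have hτ : IsMetric B τ := by
    refine ⟨fun i e x he hi => ?_, fun i j x hi hj => ?_⟩
    · obtain ⟨i', k, h1, h2, h3⟩ := pos x
      exact (((h3 e he).1.add (smOn_sum _ (s3 h2) e x he rfl)).add
        (flat_g B hi h1 e he).1).congr_of_eventuallyEq (ev he hi h1 h2)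
    · rw [key x i j _ hi hj (hk₀ x), key x j j _ hj hj (hk₀ x), mul_left_cancel₀
        (B.ne_zero j j x hj hj) ((B.cocycle j j j x hj hj hj).trans (mul_one _).symm)]
      simp
  refine ⟨τ, hτ, fun e x he => ?_⟩
  obtain ⟨i, k, h1, h2, h3⟩ := pos x
  have s1 : SmOn (d := d) {x} (Λ i k) := fun e y hy h => by
    rw [h]
    exact (h3 e (h ▸ hy)).1
  have s4 : SmOn (d := d) {x} fun y => Real.log (‖B.g i i y‖ ^ 2) := fun e y hy h => by
    rw [h]
    exact (flat_g B h1 h1 e (h ▸ hy)).1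
  have e1 : ddc (τ i) e (e x) = ddc (fun y => Λ i k y + ∑ j, c j * ρ j (k j) y +
      Real.log (‖B.g i i y‖ ^ 2)) e (e x) := C2.cHess_congr (ev he h1 h1 h2)
  rw [curvature_eq hτ he h1, e1, ddc_add_on (s1.add (smOn_sum _ (s3 h2))) s4 he rfl,
    ddc_add_on s1 (smOn_sum _ (s3 h2)) he rfl, ddc_sum_on _ (s3 h2) he rfl,
    show ddc (fun y => Real.log (‖B.g i i y‖ ^ 2)) e (e x) = 0 from (flat_g B h1 h1 e he).2,
    Finset.sum_congr rfl fun j _ => (ddc_mul_on (c j) (s2 j h2) he rfl).trans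
      (congrArg _ (curvature_eq (hρ j) he (h2 j)).symm), add_zero, add_sub_cancel_right]
  exact (h3 e he).2

theorem jac_res {O : Opens X} {a b x : O} (ha : At (chartAt (Cm d) a) x) :
    jacM (chartAt (Cm d) a) (chartAt (Cm d) b) x =
      jacM (chartAt (Cm d) a.1) (chartAt (Cm d) b.1) x.1 := by
  ext p i
  refine C2.dz_congr i ?_
  filter_upwards [ha.nhds_target] with z hz
  exact congrArg (fun y => chartAt (Cm d) b.1 y p)
    ((chartAt (Cm d) a.1).subtypeRestr_symm_apply ⟨a⟩ hz)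

theorem at_res {O : Opens X} {a x : O} (ha : At (chartAt (Cm d) a) x) :
    At (chartAt (Cm d) a.1) x.1 := ⟨chart_mem_atlas _ _, ha.2.2⟩

variable {N : ℕ} {G : Geo d N}

theorem lb_can (G : Geo d N) : G.LB (Bd.can d G.W) :=
  ⟨(canB d G.W).isOpen, fun x _ => (canB d G.W).cover x,
    fun i j x hi hj e he => (canB d G.W).holo i j e x he hi hj, (canB d G.W).ne_zero,
    (canB d G.W).cocycle⟩

/-- the metric on the restricted canonical bundle -/
theorem can_met (hK : G.LB (Bd.can d G.W)) (O : Opens G.W) (hO : ∀ y ∈ O, ∃ i,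
    y ∈ (Bd.can d G.W).U i) {h : Fm d O} (hh : IsHermitian h) :
    ∃ ρ, IsMetric (resL hK O hO) ρ ∧ FEq (curvature (resL hK O hO) ρ) (kc h) := by
  have at1 : ∀ x : O, At (chartAt (Cm d) x) x := fun x => atChart x
  obtain ⟨ρ, key⟩ : ∃ ρ : Chart d G.W → O → ℝ, ∀ e (a z : O), At e z.1 →
      At (chartAt (Cm d) a) z → ρ e z = kM h (chartAt (Cm d) a) z +
        Real.log (‖(resL hK O hO).g e (chartAt (Cm d) a.1) z‖ ^ 2) := by
    refine ⟨fun e z => kM h (chartAt (Cm d) z) z +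
      Real.log (‖(resL hK O hO).g e (chartAt (Cm d) z.1) z‖ ^ 2), fun e a z he ha => ?_⟩
    beta_reduce
    rw [(isMetric_canB hh).change _ _ z (at1 z) ha, ← (resL hK O hO).cocycle e
      (chartAt (Cm d) z.1) (chartAt (Cm d) a.1) z he (at_res (at1 z)) (at_res ha),
      log_mul ((resL hK O hO).ne_zero _ _ z he (at_res (at1 z)))
        ((resL hK O hO).ne_zero _ _ z (at_res (at1 z)) (at_res ha)),
      show (canB d O).g (chartAt (Cm d) z) (chartAt (Cm d) a) z = (resL hK O hO).g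
        (chartAt (Cm d) z.1) (chartAt (Cm d) a.1) z from congrArg Matrix.det (jac_res (at1 z))]
    ring
  have ev : ∀ {e : Chart d G.W} {f : Chart d O} {x : O}, At e x.1 → At f x →
      (fun z => ρ e (f.symm z)) =ᶠ[𝓝 (f x)] fun z => kM h (chartAt (Cm d) x) (f.symm z) +
        Real.log (‖(resL hK O hO).g e (chartAt (Cm d) x.1) (f.symm z)‖ ^ 2) :=
    fun {e f x} he hf => ev_sym hf (P := fun y => ρ e y = kM h (chartAt (Cm d) x) y +
      Real.log (‖(resL hK O hO).g e (chartAt (Cm d) x.1) y‖ ^ 2)) (by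
        filter_upwards [((resL hK O hO).isOpen e).mem_nhds he,
          ((canB d O).isOpen _).mem_nhds (at1 x)] with y a1 a2 using key e x y a1 a2)
  have s1 := fun (x : O) f hf => (isMetric_canB hh).smooth _ f x hf (at1 x)
  have s2 := fun (x : O) e (he : At e x.1) => flat_g (resL hK O hO) he (at_res (at1 x))
  have hρ : IsMetric (resL hK O hO) ρ := by
    refine ⟨fun e f x hf he => ((s1 x f hf).add (s2 x e he f hf).1).congr_of_eventuallyEq
      (ev he hf), fun e e' x he he' => ?_⟩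
    rw [key e x x he (at1 x), key e' x x he' (at1 x), ← (resL hK O hO).cocycle e e' _ x he he'
      (at_res (at1 x)), log_mul ((resL hK O hO).ne_zero _ _ x he he')
        ((resL hK O hO).ne_zero _ _ x he' (at_res (at1 x)))]
    ring
  refine ⟨ρ, hρ, fun f x hf => ?_⟩
  have he := at_res (at1 x)
  rw [curvature_eq hρ hf (i := chartAt (Cm d) x.1) he, ← curvature_canB hh f x hf,
    curvature_eq (isMetric_canB hh) hf (at1 x)]
  refine (C2.cHess_congr (ev he hf)).trans ?_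
  rw [C2.cHess_add (two (s1 x f hf)) (two (s2 x _ he f hf).1), (s2 x _ he f hf).2, add_zero]
  rfl

theorem sec_res {L : Bd G.W} (hL : G.LB L) {O : Opens G.W} (hO : ∀ y ∈ O, ∃ i, y ∈ L.U i)
    {s : L.ι → G.W → ℂ} (hs : ∀ y ∈ O, ∀ i, y ∈ L.U i → Hol d (s i) y ∧
      ∀ j, y ∈ L.U j → s i y = L.g i j y * s j y) : IsSection (resL hL O hO) fun i y => s i y.1 :=
  ⟨fun i e x he hi => hol_res (hs x.1 x.2 i hi).1 e he, fun i j x hi hj => (hs x.1 x.2 i hi).2 j hj⟩

end XF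

open XF

theorem extf_of (H : ExtStmt) : EXTF := by
  intro d N G ⟨A, ψ, hA, hψ, hc⟩ C L m E c r σ w Λ u hC hL hE hc0 hσ hw hP hX
  have hF : ∀ j, G.LB (fam d L E j) := Fin.cases (lb_can G) (Fin.cases hL hE)
  obtain ⟨O, b, hFO, hO, h0, h1, h2, h3⟩ := exists_nb G ((LB_near hA).and ((LB_near hC).and
    ((eventually_all.2 fun j => LB_near (hF j)).and (hσ.and
      ((eventually_all.2 fun j => eventually_all.2 (hw j)).and (hP.and hX))))))
  have := sigmaCompact O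
  obtain ⟨h, hh⟩ := exists_isHermitian (d := d) (X := O)
  set A' := resL hA O fun y hy => (hO hy).1
  set C' := resL hC O fun y hy => (hO hy).2.1
  set E' := fun j => resL (hF j) O fun y hy => (hO hy).2.2.1 j
  have hA' : IsMetric A' fun i y => ψ i y.1 :=
    ⟨fun i e x he hi => (spsh_res (hψ i x.1 hi) e he).1, fun i j x hi hj => hc i j x.1 hi hj⟩
  choose ρ hρ hρ0 using show ∀ j, ∃ ρ, IsMetric (E' j) ρ ∧
      (j = 0 → FEq (curvature (E' j) ρ) (kc h)) from
    Fin.cases ((can_met _ O _ hh).imp fun _ a => ⟨a.1, fun _ => a.2⟩) fun j =>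
      (exists_isMetric _).imp fun _ a => ⟨a, fun b => (j.succ_ne_zero b).elim⟩
  obtain ⟨τ, hτ, hpos⟩ := met_of (B := C') hρ (c := cf c) (Λ := fun i k y => Λ i k y.1)
    (fun z => let ⟨i, k, a1, a2, a3⟩ := (hO z.2).2.2.2.2.2.1.pos
      ⟨i, k, a1, a2, spsh_res a3.self_of_nhds⟩) fun z => (hO z.2).2.2.2.2.2.1.chg
  have s0 := fun y hy => (hO (a := y) hy).2.2.2.1
  have s1 : IsSection (E' (Fin.succ 0)) fun i y => σ i y.1 := sec_res (hF (Fin.succ 0)) _ s0
  let S : Fin m → Sys d O := fun j => ⟨_, E' j.succ.succ, ρ _, r j, fun a i y => w j a i y.1, hρ _,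
    fun a => sec_res (hF j.succ.succ) _ fun y hy => (hO hy).2.2.2.2.1 j a⟩
  have hE' := Pos.JoAux.exh_sub (d := d) (t := fun y : O => ∑ i, ‖G.π y i‖ ^ 2) (c := b) isOpen_univ
    (fun y _ => psdAt_sq fun i => hol_res (h1 y y.2 i)) (by simpa using h3)
  obtain ⟨F, k1, k2⟩ := H d O h hh _ _ ⟨h3, fun y hy => le_of_lt hy.2, _, _, A', _, hE', hA',
    fun e x he _ => by
      obtain ⟨i, hi⟩ := A'.cover x
      rw [curvature_eq hA' he hi]
      exact (spsh_res (hψ i x.1 hi) e he).2⟩ _ C' τ hτ _ _ _ _ (hρ (Fin.succ 0)) s1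
    (fun i e x he hi _ hz h4 => by
      obtain ⟨l, a1, a2⟩ := (hO x.2).2.2.2.2.2.2
      have a3 := (s0 x.1 x.2 i hi).2 l a1
      have a4 : σ l x.1 = 0 := (mul_eq_zero.1 (a3.symm.trans hz)).resolve_left
        (hL.ne_zero i l x.1 hi a1)
      obtain ⟨e', b1, b2, b3⟩ := chart_fn he
      refine (a2 a4).1 e' b1 ?_
      have b4 : (fun z => σ l (e'.symm z)) =ᶠ[𝓝 (e' x.1)]
          fun z => L.g l i (e'.symm z) * σ i (e'.symm z) :=
        ev_sym b1 (P := fun y => σ l y = L.g l i y * σ i y) (by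
        filter_upwards [(hL.isOpen l).mem_nhds a1, (hL.isOpen i).mem_nhds hi,
          O.isOpen.mem_nhds x.2] with y c1 c2 c3 using (s0 y c3 l c1).2 i c2)
      rw [b4.fderiv_eq, fderiv_fun_mul (hL.holo l i x.1 a1 hi e' b1).differentiableAt
        ((s0 x.1 x.2 i hi).1 e' b1).differentiableAt, (b3 _ (σ i)).fderiv_eq, ← b2, h4, b2,
        b1.left_inv, show σ i x.1 = 0 from hz]
      ext v
      show _ * (0 : ℂ) + 0 * _ = 0
      ring) m S c hc0
    (fun e x he _ => by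
      have a1 := hpos e x he
      rw [Fin.sum_univ_succ, Fin.sum_univ_succ, hρ0 0 rfl e x he] at a1
      simp only [cf, Fin.cons_zero, Fin.cons_succ, Complex.ofReal_one, one_smul, ← sub_sub] at a1
      exact a1) (fun i y => u i y.1) fun δ d0 _ k x _ hk hz => by
      obtain ⟨l, a1, a2⟩ := (hO x.2).2.2.2.2.2.2
      have a4 : σ l x.1 = 0 := (mul_eq_zero.1 (((s0 x.1 x.2 k hk).2 l a1).symm.trans
        hz)).resolve_left (hL.ne_zero k l x.1 hk a1)
      obtain ⟨i, κ, U, b1, b2, b3, b4, b5⟩ := (a2 a4).2 (1 - δ) (sub_lt_self _ d0)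
      obtain ⟨W, c1, c2, c3⟩ := _root_.mem_nhds_iff.1 (continuous_subtype_val.continuousAt.eventually
        (b3.near.and (b4.and ((hC.isOpen i).eventually_mem b1 |>.and
          ((hL.isOpen l).eventually_mem a1)))))
      refine ⟨W, fun p y => C.g p i y.1 * U y.1, c2, c3, ⟨fun p e y he hp hy =>
        (C'.holo p i e y he hp (c1 hy).2.2.1).mul (hol_res (c1 hy).1 e he), fun p q y hp hq hy => by
          rw [← hC.cocycle p q i y.1 hp hq (c1 hy).2.2.1, mul_assoc]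
          rfl⟩, fun p q y hp hq hy e1 => ((c1 hy).2.1 ?_ p hp).symm, _, i, Fin.cons l κ,
        fr_cons ⟨atChart x, b1, b2⟩ a1, ex_one.2 ?_⟩
      · rw [(s0 y.1 y.2 l (c1 hy).2.2.2).2 q hq, show σ q y.1 = 0 from e1, mul_zero]
      · obtain ⟨e', e1, e2, e3⟩ := chart_fn (atChart (d := d) x)
        rw [e2]
        refine ((lim_iff_chart e1).1 b5).congr ?_
        filter_upwards [e3 _ id, ev_sym e1 ((hC.isOpen i).mem_nhds b1)] with z e4 e5
        have e6 := mul_left_cancel₀ (hC.ne_zero i i _ e5 e5)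
          ((hC.cocycle i i i _ e5 e5 e5).trans (mul_one _).symm)
        simp only [id] at e4
        simp only [S, ← e4, e6, one_mul, mul_assoc, wt]
  have h4 : G.F ⊆ Subtype.val '' {y : O | y ∈ univ ∧ ∑ i, ‖G.π y i‖ ^ 2 < b} := fun y hy =>
    ⟨⟨y, hFO hy⟩, by simp [(h2 y (hFO hy)).2 hy, h0], rfl⟩
  refine ⟨fun i => ext (F i), sec_ext (M := C') (fun _ _ => Iff.rfl) (fun _ _ _ => rfl) hE'.isOpen
    h4 k1, ?_⟩
  filter_upwards [(O.isOpen.isOpenMap_subtype_val _ hE'.isOpen).mem_nhdsSet.2 h4]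
  rintro _ ⟨y, hy, rfl⟩ i l hi hl hz
  rw [ext_val]
  exact k2 i l y hi hl hy hz

/-- **EXTF** -/
theorem extf : EXTF := extf_of Van.ext

end Vale.Agent.P277Z.Lift
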