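import Vale.Agent.P277Z.Lift.Crd
import Vale.Agent.P277Z.Luf.Hol

/-!
# P277Z, lifting: local extension from a smooth hypersurface of a manifold
-/

set_option linter.unusedSectionVars false

open scoped Manifold ContDiff Topology ENNReal
open Set Filter MeasureTheory
open Vale.Agent.P272.K (Cm Chart At cHess)
open Vale.Agent.P277Z.Val (LocIso Crd AnM crd_chart)

noncomputable section

namespace Vale.Agent.P277Z.Lift

variable {n : ℕ} {W : Type} [TopologicalSpace W]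

theorem nq_cont {v : W → ℂ} {y : W} (h : ContinuousAt v y) (t : ℝ) :
    ContinuousAt (fun z => ENNReal.ofReal (‖v z‖ ^ 2) ^ t) y :=
  ENNReal.continuous_rpow_const.continuousAt.comp
    (ENNReal.continuous_ofReal.continuousAt.comp (h.norm.pow 2))

theorem nq_ne_top {a : ℂ} (h : a ≠ 0) (t : ℝ) : ENNReal.ofReal (‖a‖ ^ 2) ^ t ≠ ⊤ :=
  ENNReal.rpow_ne_top_of_ne_zero (by simpa using h) ENNReal.ofReal_ne_top

theorem wt_unit {Z J : Type*} [Fintype J] {r : J → ℕ} (v : J → ℂ) (b : ∀ j, Fin (r j) → Z → ℂ)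
    (c : J → ℝ) (z : Z) {b' : ∀ j, Fin (r j) → Z → ℂ} (h : ∀ j a, b' j a z = v j * b j a z) :
    wt b' c z = (∏ j, ENNReal.ofReal (‖v j‖ ^ 2) ^ (-c j)) * wt b c z := by
  rw [wt, wt, ← Finset.prod_mul_distrib]
  refine Finset.prod_congr rfl fun j _ => ?_
  rw [← ENNReal.mul_rpow_of_ne_top ENNReal.ofReal_ne_top ENNReal.ofReal_ne_top,
    ← ENNReal.ofReal_mul (sq_nonneg _), Finset.mul_sum]
  simp only [h, norm_mul, mul_pow]

theorem LIM.cmul [ChartedSpace (Cm n) W] {f g : W → ℝ≥0∞} {y : W} (h : LIM n f y)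
    (hg : ContinuousAt g y) (h0 : g y ≠ ⊤) : LIM n (fun z => g z * f z) y :=
  h.mono (C := g y + 1) (ENNReal.add_ne_top.2 ⟨h0, ENNReal.one_ne_top⟩) (by
    filter_upwards [hg.eventually (Iio_mem_nhds (ENNReal.lt_add_right h0 one_ne_zero))] with z hz
    exact mul_le_mul_left (le_of_lt hz) _)

theorem crd_perm [ChartedSpace (Cm n) W] [IsManifold 𝓘(ℂ, Cm n) ω W] {c : W → Cm n} {ξ : Cm n → W}
    {y : W} (h : Crd c ξ y) (e : Equiv.Perm (Fin n)) :
    Crd (fun z i => c z (e i)) (fun w => ξ fun i => w (e.symm i)) y :=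
  h.comp (Ψ := fun w i => w (e i)) (θ := fun w i => w (e.symm i))
    (analyticAt_pi_iff.2 fun _ => an_coord _ _) (analyticAt_pi_iff.2 fun _ => an_coord _ _)
    (.of_forall fun w => by simp) (.of_forall fun w => by simp)

variable [ChartedSpace (Cm (n + 1)) W] [IsManifold 𝓘(ℂ, Cm (n + 1)) ω W] {Z : Type}
  [TopologicalSpace Z] [ChartedSpace (Cm n) Z] [IsManifold 𝓘(ℂ, Cm n) ω Z]

theorem loc_ext {ι : Z → W} {y : Z} (hι : ContinuousAt ι y) {c : W → Cm (n + 1)}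
    {ξ : Cm (n + 1) → W} (h : Crd c ξ (ι y)) {c' : Z → Cm n} {χ : Cm n → Z} (h' : Crd c' χ y)
    (h0 : ∀ᶠ z in 𝓝 y, c (ι z) = Fin.cons 0 (c' z)) {a : Z → ℂ} (ha : Hol n a y) {J : Type}
    [Fintype J] {r : J → ℕ} {b : ∀ j, Fin (r j) → W → ℂ} (hb : ∀ j k, Hol (n + 1) (b j k) (ι y))
    {γ : J → ℝ} (hγ : ∀ j, 0 ≤ γ j)
    (hi : LIM n (fun z => ENNReal.ofReal (‖a z‖ ^ 2) * wt b γ (ι z)) y) {p : Z → Prop}
    (hp : ∀ᶠ z in 𝓝 y, p z) :
    ∀ᶠ z in 𝓝 (ι y), c z 0 = 0 → ∀ t : ℝ, t < 1 → ∃ U : W → ℂ, Hol (n + 1) U z ∧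
      (∀ᶠ z' in 𝓝 z, c z' 0 = 0 → ∃ y', ι y' = z' ∧ p y' ∧ U z' = a y') ∧
      LIM (n + 1) (fun z => ENNReal.ofReal (‖U z‖ ^ 2) * ENNReal.ofReal (‖c z 0‖ ^ 2) ^ (-t) *
        wt b γ z) z := by
  have h1 : ∀ᶠ ζ in 𝓝 (c' y), ξ (Fin.cons 0 ζ) = ι (χ ζ) := by
    filter_upwards [h'.tend.eventually (h0.and (hι.eventually h.left)), h'.right] with ζ e1 e2
    rw [← e1.2, e1.1, e2]
  have h2 : LI (fun ζ => ENNReal.ofReal (‖a (χ ζ)‖ ^ 2) *
      wt (fun j k w => b j k (ξ w)) γ (Fin.cons 0 ζ)) (c' y) :=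
    ((lim_iff h').1 hi).congr (h1.mono fun ζ e => by simp only [wt, e])
  have h3 : Tendsto (fun z => Fin.tail (c z)) (𝓝 (ι y)) (𝓝 (c' y)) := by
    have := (continuous_tail.tendsto _).comp h.cont
    rwa [h0.self_of_nhds, Fin.tail_cons] at this
  filter_upwards [h3.eventually ((crd_an h' ha).eventually_analyticAt.and h2.ev), h.eventually,
    eventually_all.2 fun j => eventually_all.2 fun k => (hb j k).near,
    ((h3.eventually (h1.and (h'.tend.eventually hp))).and h.left).eventually_nhds]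
    with z e1 e2 e3 e4 e5 t ht
  obtain ⟨U, k1, k2, k3⟩ := lot hγ e5 (fun j k => crd_an e2 (e3 j k)) e1.1 e1.2 ht
  refine ⟨fun z => U (c z), e2.holF k1, ?_, (lim_iff e2).2 (k3.congr ?_)⟩
  · filter_upwards [e2.cont.eventually k2, e4] with z' f1 f2 f3
    exact ⟨_, by rw [← f2.1.1, cons_tail0 f3, f2.2], f2.1.2, f1 f3⟩
  · filter_upwards [e2.right] with w hw
    rw [hw]
    rfl

end Vale.Agent.P277Z.Lift
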