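import Vale.Agent.P277Z.Lift.Lot
import Vale.Agent.P281.H511.Gen.Local

/-!
# P277Z, Lift: INT (integrability of `|z i|^(-2t) |τ|^(-2ε)`)
-/

open MeasureTheory Filter Topology Metric Set Function
open scoped ENNReal NNReal

noncomputable section

namespace Vale.Agent.P277Z.Lift

open Vale.Agent.P281.H511.Gen

variable {n : ℕ}

theorem an_coord (i : Fin n) (p : Fin n → ℂ) : AnalyticAt ℂ (fun z : Fin n → ℂ => z i) p :=
  (ContinuousLinearMap.proj (R := ℂ) (φ := fun _ : Fin n => ℂ) i).analyticAt p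

theorem nq_le {E : Type*} [TopologicalSpace E] {g : E → ℂ} {p : E} (hg : ContinuousAt g p) {t : ℝ}
    (h : 0 ≤ t ∨ g p ≠ 0) :
    ∃ C : ℝ≥0∞, C ≠ ⊤ ∧ ∀ᶠ z in 𝓝 p, ENNReal.ofReal (‖g z‖ ^ 2) ^ t ≤ C := by
  have h1 : ContinuousAt (fun z => ENNReal.ofReal (‖g z‖ ^ 2) ^ t) p :=
    ENNReal.continuous_rpow_const.continuousAt.comp
      (ENNReal.continuous_ofReal.continuousAt.comp (hg.norm.pow 2))
  have h2 : ENNReal.ofReal (‖g p‖ ^ 2) ^ t ≠ ⊤ := by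
    rcases h with h | h
    · exact ENNReal.rpow_ne_top_of_nonneg h ENNReal.ofReal_ne_top
    · exact ENNReal.rpow_ne_top_of_ne_zero (ENNReal.ofReal_pos.2 (by positivity)).ne'
        ENNReal.ofReal_ne_top
  exact ⟨_ + 1, ENNReal.add_ne_top.2 ⟨h2, ENNReal.one_ne_top⟩,
    h1.eventually (Iic_mem_nhds (ENNReal.lt_add_right h2 one_ne_zero))⟩

/-- from the hyperplane to the space -/
theorem int1 {τ : (Fin (n + 1) → ℂ) → ℂ} {p : Fin (n + 1) → ℂ} (hp : p 0 = 0)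
    (hτ : AnalyticAt ℂ τ p) {ε : ℝ} (hε : 0 ≤ ε)
    (h : LI (fun x => ENNReal.ofReal (‖τ (Fin.cons 0 x)‖ ^ 2) ^ (-ε)) (Fin.tail p)) {t : ℝ}
    (ht : t < 1) :
    LI (fun z => ENNReal.ofReal (‖z 0‖ ^ 2) ^ (-t) * ENNReal.ofReal (‖τ z‖ ^ 2) ^ (-ε)) p := by
  obtain ⟨U, hU, hU0, hUi⟩ := lot (J := Unit) (r := fun _ => 1) (σ := fun _ _ => τ)
    (c := fun _ => ε) (fun _ => hε) hp (fun _ _ => hτ) (u := fun _ => 1) analyticAt_const
    (by simpa [wt] using h) ht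
  have h1 : U p ≠ 0 := by
    rw [hU0.self_of_nhds hp]
    exact one_ne_zero
  obtain ⟨C, hC, h2⟩ := nq_le hU.continuousAt (t := -1) (Or.inr h1)
  refine hUi.mono hC ?_
  filter_upwards [h2, hU.continuousAt.eventually_ne h1] with z h3 h4
  have h5 : ENNReal.ofReal (‖U z‖ ^ 2) ≠ 0 := (ENNReal.ofReal_pos.2 (by positivity)).ne'
  have h6 : 1 ≤ C * ENNReal.ofReal (‖U z‖ ^ 2) := by
    rw [← ENNReal.inv_mul_cancel h5 ENNReal.ofReal_ne_top, ← ENNReal.rpow_neg_one]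
    gcongr
  simp only [wt, Finset.univ_unique, Finset.prod_singleton, Finset.sum_singleton]
  calc _ = 1 * (_ * _) := (one_mul _).symm
    _ ≤ C * ENNReal.ofReal (‖U z‖ ^ 2) * (_ * _) := by gcongr
    _ = _ := by ring

/-- the order along a coordinate hyperplane -/
theorem exists_pow_coord {τ : (Fin n → ℂ) → ℂ} {p : Fin n → ℂ} {i : Fin n} (hp : p i = 0)
    (hτ : AnalyticAt ℂ τ p) (h0 : ¬ ∀ᶠ z in 𝓝 p, τ z = 0) :
    ∃ (m : ℕ) (w : (Fin n → ℂ) → ℂ), AnalyticAt ℂ w p ∧ (∀ᶠ z in 𝓝 p, τ z = z i ^ m * w z) ∧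
      ¬ ∀ᶠ z in 𝓝 p, z i = 0 → w z = 0 := by
  classical
  obtain ⟨M, hM⟩ := pow_bound hτ h0 (e := fun z => z i) (an_coord i p) hp
  set P : ℕ → Prop := fun m => ∃ w : (Fin n → ℂ) → ℂ, AnalyticAt ℂ w p ∧
    ∀ᶠ z in 𝓝 p, τ z = z i ^ m * w z with hP
  have h1 : P (Nat.findGreatest P M) :=
    Nat.findGreatest_spec (Nat.zero_le M) ⟨τ, hτ, Eventually.of_forall fun z => by simp⟩
  obtain ⟨w, hw, he⟩ := h1
  refine ⟨_, w, hw, he, fun h2 => ?_⟩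
  obtain ⟨w', hw', he'⟩ := div_coord hp hw h2
  have h3 : ∀ᶠ z in 𝓝 p, τ z = z i ^ (Nat.findGreatest P M + 1) * w' z := by
    filter_upwards [he, he'] with z h4 h5
    rw [h4, h5]
    ring
  exact Nat.findGreatest_is_greatest (Nat.lt_succ_self _) (hM _ w' hw' h3) ⟨w', hw', h3⟩

theorem analyticAt_cons0 (x : Fin n → ℂ) :
    AnalyticAt ℂ (fun x : Fin n → ℂ => (Fin.cons 0 x : Fin (n + 1) → ℂ)) x :=
  analyticAt_pi_iff.2 fun i => Fin.cases analyticAt_const (fun i => an_coord i x) i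

theorem continuous_tail : Continuous fun z : Fin (n + 1) → ℂ => Fin.tail z :=
  continuous_pi fun i => continuous_apply i.succ

theorem cons_tail0 {p : Fin (n + 1) → ℂ} (hp : p 0 = 0) : Fin.cons 0 (Fin.tail p) = p := by
  rw [← hp]
  exact Fin.cons_self_tail p

theorem slice_ne {w : (Fin (n + 1) → ℂ) → ℂ} {p : Fin (n + 1) → ℂ}
    (h : ¬ ∀ᶠ z in 𝓝 p, z 0 = 0 → w z = 0) : ¬ ∀ᶠ x in 𝓝 (Fin.tail p), w (Fin.cons 0 x) = 0 := by
  intro h1
  apply h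
  filter_upwards [(continuous_tail.tendsto p).eventually h1] with z hz hz0
  rwa [cons_tail0 hz0] at hz

theorem nq_mul (a b : ℂ) (t : ℝ) : ENNReal.ofReal (‖a * b‖ ^ 2) ^ (-t) =
    ENNReal.ofReal (‖a‖ ^ 2) ^ (-t) * ENNReal.ofReal (‖b‖ ^ 2) ^ (-t) := by
  rw [norm_mul, mul_pow, ENNReal.ofReal_mul (sq_nonneg _),
    ENNReal.mul_rpow_of_ne_top ENNReal.ofReal_ne_top ENNReal.ofReal_ne_top]

theorem nq_pow (a : ℂ) (m : ℕ) (t : ℝ) :
    ENNReal.ofReal (‖a ^ m‖ ^ 2) ^ (-t) = ENNReal.ofReal (‖a‖ ^ 2) ^ (-(m * t)) := by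
  rw [norm_pow, ← pow_mul, mul_comm m 2, pow_mul, ENNReal.ofReal_pow (sq_nonneg _),
    ← ENNReal.rpow_natCast, ← ENNReal.rpow_mul, mul_neg]

theorem LI.anti {E : Type*} [TopologicalSpace E] [MeasureSpace E] [OpensMeasurableSpace E]
    {g : E → ℂ} {f : E → ℝ≥0∞} {p : E} (hg : ContinuousAt g p) {s t : ℝ} (hst : s ≤ t)
    (h : LI (fun z => f z * ENNReal.ofReal (‖g z‖ ^ 2) ^ (-t)) p) :
    LI (fun z => f z * ENNReal.ofReal (‖g z‖ ^ 2) ^ (-s)) p := by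
  obtain ⟨C, hC, h2⟩ := nq_le hg (t := t - s) (Or.inl (sub_nonneg.2 hst))
  refine h.mono (C := C + 1) (ENNReal.add_ne_top.2 ⟨hC, ENNReal.one_ne_top⟩) ?_
  filter_upwards [h2] with z hz
  rw [mul_left_comm]
  refine mul_le_mul_right ?_ _
  by_cases h0 : ENNReal.ofReal (‖g z‖ ^ 2) = 0
  · refine le_trans ?_ (le_mul_of_one_le_left' le_add_self)
    exact ENNReal.rpow_le_rpow_of_exponent_ge (h0 ▸ zero_le_one) (neg_le_neg hst)
  · rw [show -s = t - s + -t by ring, ENNReal.rpow_add _ _ h0 ENNReal.ofReal_ne_top]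
    exact mul_le_mul_left (hz.trans le_self_add) _

/-- a small negative power of a holomorphic function is integrable -/
theorem int0 : ∀ {n : ℕ} {τ : (Fin n → ℂ) → ℂ} {p : Fin n → ℂ}, AnalyticAt ℂ τ p →
    (¬ ∀ᶠ z in 𝓝 p, τ z = 0) →
    ∃ ε : ℝ, 0 < ε ∧ LI (fun z => ENNReal.ofReal (‖τ z‖ ^ 2) ^ (-ε)) p
  | 0, τ, p, hτ, h => by
    have h1 : τ p ≠ 0 := fun h1 => h (Eventually.of_forall fun z => by
      rwa [Subsingleton.elim z p])
    obtain ⟨C, hC, h2⟩ := nq_le hτ.continuousAt (t := -1) (Or.inr h1)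
    exact ⟨1, one_pos, (li_one p).mono hC (by simpa only [mul_one] using h2)⟩
  | n + 1, τ, p, hτ, h => by
    have ht : Tendsto (fun z => z + p) (𝓝 0) (𝓝 p) := by
      simpa using (continuous_add_const p).tendsto 0
    have ht' : Tendsto (fun z => z + -p) (𝓝 p) (𝓝 0) := by
      simpa using (continuous_add_const (-p)).tendsto p
    obtain ⟨m, w, hw, he, hne⟩ := exists_pow_coord (τ := fun z => τ (z + p)) (p := 0) (i := 0) rfl
      (AnalyticAt.fun_comp_of_eq hτ (by fun_prop) (zero_add p))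
      fun h1 => h (by simpa using ht'.eventually h1)
    obtain ⟨ε, hε, h1⟩ := int0 (τ := fun x => w (Fin.cons 0 x))
      (AnalyticAt.fun_comp_of_eq hw (analyticAt_cons0 _) (cons_tail0 rfl)) (slice_ne hne)
    have hm : (0 : ℝ) < 1 / ((m : ℝ) + 1) := by positivity
    have h2 : (m : ℝ) * min ε (1 / ((m : ℝ) + 1)) < 1 :=
      (mul_le_mul_of_nonneg_left (min_le_right _ _) m.cast_nonneg).trans_lt (by
        rw [mul_one_div, div_lt_one (by positivity)]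
        exact lt_add_one _)
    have h3 := (int1 rfl hw hε.le h1 h2).anti hw.continuousAt (min_le_left ε (1 / ((m : ℝ) + 1)))
    refine ⟨_, lt_min hε hm, ?_⟩
    have h4 := LI.shift (p := -p) (q := p) (by rw [add_neg_cancel]; exact h3)
    refine h4.congr ?_
    filter_upwards [ht'.eventually he] with z hz
    rw [neg_add_cancel_right] at hz
    rw [hz, nq_mul, nq_pow]

theorem int2_zero {τ : (Fin (n + 1) → ℂ) → ℂ} {p : Fin (n + 1) → ℂ} (hτ : AnalyticAt ℂ τ p)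
    (h0 : ¬ ∀ᶠ z in 𝓝 p, τ z = 0) (h : p 0 = 0 → ¬ ∀ᶠ z in 𝓝 p, z 0 = 0 → τ z = 0) :
    ∃ ε : ℝ, 0 < ε ∧ ∀ᶠ q in 𝓝 p, ∀ t : ℝ, t < 1 →
      LI (fun z => ENNReal.ofReal (‖z 0‖ ^ 2) ^ (-t) * ENNReal.ofReal (‖τ z‖ ^ 2) ^ (-ε)) q := by
  obtain ⟨ε₀, hε₀, h1⟩ := int0 hτ h0
  have key : ∀ {ε : ℝ}, ε ≤ ε₀ → ∀ᶠ q in 𝓝 p, q 0 ≠ 0 → ∀ t : ℝ,
      LI (fun z => ENNReal.ofReal (‖z 0‖ ^ 2) ^ (-t) * ENNReal.ofReal (‖τ z‖ ^ 2) ^ (-ε)) q := by
    intro ε hle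
    filter_upwards [h1.ev, hτ.eventually_analyticAt] with q h2 h3 hq t
    obtain ⟨C, hC, h4⟩ := nq_le (g := fun z : Fin (n + 1) → ℂ => z 0)
      (continuous_apply 0).continuousAt (t := -t) (Or.inr hq)
    refine (LI.anti (f := fun _ => 1) h3.continuousAt hle (by simpa only [one_mul] using h2)
      ).mono hC (h4.mono fun z hz => ?_)
    rw [one_mul]
    gcongr
  by_cases hp : p 0 = 0
  · obtain ⟨ε₁, hε₁, h2⟩ := int0 (τ := fun x => τ (Fin.cons 0 x))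
      (AnalyticAt.fun_comp_of_eq hτ (analyticAt_cons0 _) (cons_tail0 hp)) (slice_ne (h hp))
    refine ⟨min ε₀ ε₁, lt_min hε₀ hε₁, ?_⟩
    filter_upwards [key (min_le_left _ ε₁), hτ.eventually_analyticAt,
      (continuous_tail.tendsto p).eventually h2.ev] with q h3 h4 h5 t ht
    by_cases hq : q 0 = 0
    · exact (int1 hq h4 hε₁.le h5 ht).anti h4.continuousAt (min_le_right _ _)
    · exact h3 hq t
  · refine ⟨ε₀, hε₀, ?_⟩
    filter_upwards [key le_rfl, (continuous_apply 0).continuousAt.eventually_ne hp]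
      with q h3 h4 t _ using h3 h4 t

/-- **INT** -/
theorem int2 {τ : (Fin n → ℂ) → ℂ} {p : Fin n → ℂ} (i : Fin n) (hτ : AnalyticAt ℂ τ p)
    (h0 : ¬ ∀ᶠ z in 𝓝 p, τ z = 0) (h : p i = 0 → ¬ ∀ᶠ z in 𝓝 p, z i = 0 → τ z = 0) :
    ∃ ε : ℝ, 0 < ε ∧ ∀ᶠ q in 𝓝 p, ∀ t : ℝ, t < 1 →
      LI (fun z => ENNReal.ofReal (‖z i‖ ^ 2) ^ (-t) * ENNReal.ofReal (‖τ z‖ ^ 2) ^ (-ε)) q := by
  obtain _ | n := n
  · exact i.elim0
  set e := Equiv.swap (0 : Fin (n + 1)) i with he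
  have hee : ∀ z : Fin (n + 1) → ℂ, (z ∘ e) ∘ e = z := fun z => by
    funext j
    simp [he]
  have hc : Continuous fun z : Fin (n + 1) → ℂ => z ∘ e :=
    continuous_pi fun j => continuous_apply _
  have h0e : ∀ z : Fin (n + 1) → ℂ, (z ∘ e) 0 = z i := fun z => by simp [he]
  obtain ⟨ε, hε, h1⟩ := int2_zero (τ := fun z => τ (z ∘ e)) (p := p ∘ e)
    (AnalyticAt.fun_comp_of_eq hτ (analyticAt_pi_iff.2 fun j => an_coord (e j) _) (hee p))
    (fun h2 => h0 (by simpa only [hee] using (hc.tendsto p).eventually h2))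
    fun h2 h3 => h (h0e p ▸ h2) (by simpa only [hee, h0e] using (hc.tendsto p).eventually h3)
  refine ⟨ε, hε, ?_⟩
  filter_upwards [(hc.tendsto p).eventually h1] with q h2 t ht
  simpa only [hee, h0e] using (h2 t ht).perm e

end Vale.Agent.P277Z.Lift
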