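import Vale.Agent.P277Z.Spec2
import Vale.Agent.P277Z.Lift.Int

/-!
# P277Z, lifting: the extension theorem near the fibre. Statements.
-/

set_option linter.all false

open scoped Manifold ContDiff Topology ENNReal
open Set Filter
open Vale.Agent.P272.K (Cm Chart At cHess)
open Vale.Agent.P297 (Place)
open Vale.Agent.P285.H281.FD (Bd)

noncomputable section

namespace Vale.Agent.P277Z.Lift

section defs

variable (d : ℕ) {W : Type} [TopologicalSpace W] [ChartedSpace (Cm d) W] {m : ℕ}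

/-- `f` is integrable near the point `y` of a manifold -/
def LIM (f : W → ℝ≥0∞) (y : W) : Prop :=
  LI (fun z => f ((chartAt (Cm d) y).symm z)) (chartAt (Cm d) y y)

/-- the family `K, L, E 0, E 1, …` -/
def fam (L : Bd W) (E : Fin m → Bd W) : Fin (m + 2) → Bd W := Fin.cons (Bd.can d W) (Fin.cons L E)

/-- the coefficients `1, 1, c 0, c 1, …` -/
def cf (c : Fin m → ℝ) : Fin (m + 2) → ℝ := Fin.cons 1 (Fin.cons 1 c)

/-- `Λ` is the weight of a metric of positive curvature on `B - ∑ c j • E j` near `z` -/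
structure PosAt (B : Bd W) (E : Fin m → Bd W) (c : Fin m → ℝ) (Λ : B.ι → (∀ j, (E j).ι) → W → ℝ)
    (z : W) : Prop where
  pos : ∃ i k, z ∈ B.U i ∧ (∀ j, z ∈ (E j).U (k j)) ∧ ∀ᶠ y in 𝓝 z, Spsh d (Λ i k) y
  chg : ∀ i i' k k', z ∈ B.U i → z ∈ B.U i' → (∀ j, z ∈ (E j).U (k j)) →
    (∀ j, z ∈ (E j).U (k' j)) → Λ i k z = Λ i' k' z + Real.log (‖B.g i i' z‖ ^ 2) -
      ∑ j, c j * Real.log (‖(E j).g (k j) (k' j) z‖ ^ 2)

/-- the zero set of `σ` is smooth at `z` and `u` has local extensions with estimates -/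
def ExtAt (C L : Bd W) (E : Fin m → Bd W) (c : Fin m → ℝ) {r : Fin m → ℕ} (σ : L.ι → W → ℂ)
    (w : ∀ j, Fin (r j) → (E j).ι → W → ℂ) (u : C.ι → W → ℂ) (z : W) : Prop :=
  ∃ l, z ∈ L.U l ∧ (σ l z = 0 →
    (∀ e : Chart d W, At e z → fderiv ℂ (fun y => σ l (e.symm y)) (e z) ≠ 0) ∧
    ∀ t : ℝ, t < 1 → ∃ (i : C.ι) (k : ∀ j, (E j).ι) (U : W → ℂ), z ∈ C.U i ∧
      (∀ j, z ∈ (E j).U (k j)) ∧ Hol d U z ∧
      (∀ᶠ y in 𝓝 z, σ l y = 0 → ∀ i', y ∈ C.U i' → u i' y = C.g i' i y * U y) ∧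
      LIM d (fun y => ENNReal.ofReal (‖U y‖ ^ 2) * ENNReal.ofReal (‖σ l y‖ ^ 2) ^ (-t) *
        wt (fun j a => w j a (k j)) c y) z)

end defs

/-- **EXTF**: the extension theorem near the fibre; `C - K - L - ∑ c j • E j` is positive -/
def EXTF : Prop := ∀ (d N : ℕ) (G : Geo d N), G.Proj → ∀ (C L : Bd G.W) (m : ℕ)
  (E : Fin m → Bd G.W) (c : Fin m → ℝ) (r : Fin m → ℕ) (σ : L.ι → G.W → ℂ)
  (w : ∀ j, Fin (r j) → (E j).ι → G.W → ℂ) (Λ : C.ι → (∀ j, (fam d L E j).ι) → G.W → ℝ)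
  (u : C.ι → G.W → ℂ), G.LB C → G.LB L → (∀ j, G.LB (E j)) → (∀ j, 0 ≤ c j) →
  G.Sec L σ → (∀ j a, G.Sec (E j) (w j a)) →
  (∀ᶠ z in 𝓝ˢ G.F, PosAt d C (fam d L E) (cf c) Λ z) →
  (∀ᶠ z in 𝓝ˢ G.F, ExtAt d C L E c σ w u z) →
  ∃ f, G.Sec C f ∧ ∀ᶠ z in 𝓝ˢ G.F, ∀ i l, z ∈ C.U i → z ∈ L.U l → σ l z = 0 → f i z = u i z

/-- **MET**: ample classes have metrics of positive curvature -/
def MET (n : ℕ) : Prop := ∀ (N : ℕ) (K : Type) [Field K] [Algebra ℂ K] (M : Mdl n N K), Loc M →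
  ∀ (B : Bd M.W) (D : Div K) (s : B.ι → M.W → ℂ) (m : ℕ) (E : Fin m → Bd M.W) (D' : Fin m → Div K)
  (s' : ∀ j, (E j).ι → M.W → ℂ) (c : Fin m → ℝ), M.Rep B D s → (∀ j, M.Rep (E j) (D' j) (s' j)) →
  M.Amp (D - ∑ j, c j • D' j) → ∃ Λ, ∀ᶠ z in 𝓝ˢ M.F, PosAt n B E c Λ z

end Vale.Agent.P277Z.Lift
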