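import Mathlib

/-!
# P277Z, lifting: the abstract frame of the tower of extensions

`GX`, `GS`: degrees of line bundles on `X` and on `S`; `R`: representatives of sections on `S`
(a commutative monoid); `P`: points of `S`; `Z`: the local coordinates; `ev x s`: the local
expression of `s` near `x`.
-/

open scoped ENNReal
open Filter

noncomputable section

namespace Vale.Agent.P277Z.Lift

/-- The frame. -/
structure Fr (GX GS V R P Z I J : Type) [AddCommGroup GX] [AddCommGroup GS] [AddCommGroup V]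
    [Module ℝ V] [CommMonoid R] where
  /-- restriction of degrees -/
  ρ : GX →+ GS
  /-- the real class -/
  cl : GX →+ V
  /-- positive classes -/
  Pos : V → Prop
  /-- sections on `S` -/
  Sec : GS → R → Prop
  /-- sections on `S` that extend to `X` -/
  Ext : GX → R → Prop
  /-- local expressions -/
  ev : P → R →* (Z → ℂ)
  /-- neighbourhoods -/
  l : P → Filter Z
  /-- local integrability -/
  LI : P → (Z → ℝ≥0∞) → Prop
  /-- the degree `K + S` -/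
  κ : GX
  /-- the ample degree -/
  α : GX
  /-- the degrees of the `S i` -/
  σ : I → GX
  /-- the degrees of the components `Y` of the `S i ∩ S` -/
  η : J → GS
  /-- `Y` is a component of `S (par Y) ∩ S` -/
  par : J → I
  /-- the sections that define the components -/
  y : J → R
  /-- the point lies on the component -/
  On : P → J → Prop

namespace Fr

variable {GX GS V R P Z I J : Type} [AddCommGroup GX] [AddCommGroup GS] [AddCommGroup V]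
  [Module ℝ V] [CommMonoid R] [Fintype I] [Fintype J] [DecidableEq I]
  (F : Fr GX GS V R P Z I J)

/-- the square of the modulus -/
def nq (x : P) (s : R) (z : Z) : ℝ≥0∞ := ENNReal.ofReal (‖F.ev x s z‖ ^ 2)

/-- `s` does not vanish at `x` -/
def Un (x : P) (s : R) : Prop := ∃ c : ℝ, 0 < c ∧ ∀ᶠ z in F.l x, c ≤ ‖F.ev x s z‖

/-- the degree is generated by sections -/
def Gen (g : GS) : Prop := ∃ W : Finset R, (∀ w ∈ W, F.Sec g w) ∧ ∀ x, ∃ w ∈ W, F.Un x w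

/-- the weight `∏ |y Y|^(-2 γ Y)` -/
def wt (x : P) (γ : J → ℝ) (z : Z) : ℝ≥0∞ := ∏ Y, F.nq x (F.y Y) z ^ (-γ Y)

/-- `τ` vanishes identically neither near a point nor on a component -/
def Good (τ : R) : Prop :=
  ∃ ε : ℝ, 0 < ε ∧ ∀ x (γ : J → ℝ), (∀ Y, γ Y < 1) → {Y | ε < γ Y}.Subsingleton →
    F.LI x fun z => F.nq x τ z ^ (-ε) * F.wt x γ z

/-- `k m B` is a sum of `k m` reduced divisors with disjoint components on `S` -/
def Disj (m : ℕ) (b : I → ℕ) : Prop :=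
  ∃ (k : ℕ) (T : ℕ → Finset I), 1 ≤ k ∧
    (∀ i, ∑ t ∈ Finset.range (k * m), (if i ∈ T t then 1 else 0) = k * b i) ∧
    ∀ t x, {Y | F.par Y ∈ T t ∧ F.On x Y}.Subsingleton

/-- The facts that are used. -/
structure Ok : Prop where
  pos_add : ∀ v w, F.Pos v → F.Pos w → F.Pos (v + w)
  pos_smul : ∀ (t : ℝ) v, 0 < t → F.Pos v → F.Pos (t • v)
  /-- `α` is ample on `X` -/
  amp : ∀ g, ∃ n : ℕ, F.Pos (F.cl g + (n : ℝ) • F.cl F.α)
  pos_α : F.Pos (F.cl F.α)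
  /-- `α` is ample on `S` -/
  gg : ∀ g, ∃ n₀ : ℕ, ∀ n, n₀ ≤ n → F.Gen (g + n • F.ρ F.α)
  sec_one : F.Sec 0 1
  sec_mul : ∀ g g' s s', F.Sec g s → F.Sec g' s' → F.Sec (g + g') (s * s')
  sec_y : ∀ Y, F.Sec (F.η Y) (F.y Y)
  ext_one : F.Ext 0 1
  ext_mul : ∀ g g' s s', F.Ext g s → F.Ext g' s' → F.Ext (g + g') (s * s')
  ext_σ : ∀ i, F.Ext (F.σ i) (∏ Y with F.par Y = i, F.y Y)
  bdd : ∀ g s x, F.Sec g s → ∃ C : ℝ, ∀ᶠ z in F.l x, ‖F.ev x s z‖ ≤ C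
  off : ∀ x Y, ¬ F.On x Y → F.Un x (F.y Y)
  li : ∀ x (f g : Z → ℝ≥0∞) (C : ℝ), (∀ᶠ z in F.l x, f z ≤ ENNReal.ofReal C * g z) → F.LI x g →
    F.LI x f
  snc : ∀ x (γ : J → ℝ), (∀ Y, γ Y < 1) → F.LI x (F.wt x γ)
  /-- the extension theorem -/
  ext : ∀ (N M₁ M₂ M₃ : GX) (c₁ c₂ c₃ : ℝ) (W : Finset R) (s₂ s₃ u : R), 0 ≤ c₁ → 0 ≤ c₂ →
    0 ≤ c₃ → (∀ s ∈ W, F.Ext M₁ s) → F.Ext M₂ s₂ → F.Ext M₃ s₃ →
    F.Pos (F.cl N - F.cl F.κ - c₁ • F.cl M₁ - c₂ • F.cl M₂ - c₃ • F.cl M₃) → F.Sec (F.ρ N) u →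
    (∀ x, F.LI x fun z => F.nq x u z * (∑ s ∈ W, F.nq x s z) ^ (-c₁) * F.nq x s₂ z ^ (-c₂) *
      F.nq x s₃ z ^ (-c₃)) → F.Ext N u

/-- the degree `m (K + S) + α + ∑ b i • S i` -/
def deg (m : ℕ) (b : I → ℕ) : GX := m • F.κ + F.α + ∑ i, b i • F.σ i

/-- **T34**: the lifting theorem. The section `t * ∏ y Y ^ e Y` extends. -/
def T34 : Prop :=
  ∀ (m : ℕ) (b : I → ℕ) (e : J → ℕ) (t : R), 1 ≤ m → F.Disj m b →
    F.Sec (F.ρ (F.deg m b) - ∑ Y, e Y • F.η Y) t →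
    (∀ ζ : ℝ, 0 < ζ → ∃ (q : ℕ) (v : J → ℕ) (τ : R) (g : GS), 1 ≤ q ∧ F.Sec g τ ∧ F.Good τ ∧
      F.Ext (q • (m • F.deg m b + F.α)) (τ * ∏ Y, F.y Y ^ v Y) ∧
      ∀ Y, ((min (q * m * b (F.par Y)) (v Y) : ℕ) : ℝ) ≤ q * m * (e Y + ζ)) →
    F.Ext (F.deg m b) (t * ∏ Y, F.y Y ^ e Y)

end Fr

end Vale.Agent.P277Z.Lift
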