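import Vale.Agent.P277Z.Lift.Tower

/-!
# P277Z, lifting: the lifting theorem in the abstract frame
-/

open scoped ENNReal
open Filter

set_option linter.unusedSectionVars false

noncomputable section

namespace Vale.Agent.P277Z.Lift.Fr

variable {GX GS V R P Z I J : Type} [AddCommGroup GX] [AddCommGroup GS] [AddCommGroup V]
  [Module ℝ V] [CommMonoid R] [Fintype I] [Fintype J] [DecidableEq I]
  {F : Fr GX GS V R P Z I J}

theorem sum_per (f : ℕ → ℕ) (p n : ℕ) :
    ∑ r ∈ Finset.range (n * p), f (r % p) = n * ∑ r ∈ Finset.range p, f r := by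
  induction n with
  | zero => simp
  | succ n ih =>
    rw [Nat.succ_mul, Finset.sum_range_add, ih, Nat.succ_mul]
    congr 1
    exact Finset.sum_congr rfl fun r hr => by
      rw [Nat.mul_add_mod_self_right, Nat.mod_eq_of_lt (Finset.mem_range.1 hr)]

theorem Tw.final [DecidableEq J] {D : Tw R I J} (H : F.Ok) {m l : ℕ} {b : I → ℕ} (hm : 1 ≤ m)
    (hb : ∀ i, b i ≤ m) (ht : F.Sec (F.ρ (F.deg m b) - ∑ Y, D.e Y • F.η Y) D.t)
    (hq : D.q = D.Q * m) (hl : 2 * m ^ 2 * D.h < D.q * l)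
    (hg : F.Gen (D.dS F 0 + (l * D.Q + D.a 0) • F.ρ F.α)) (h : D.Cl F (F.deg m b) l 0) :
    F.Ext (F.deg m b) (D.t * ∏ Y, F.y Y ^ D.e Y) := by
  classical
  obtain ⟨W, w1, w2⟩ := hg
  obtain ⟨n, hn⟩ := H.amp (∑ i, b i • F.σ i)
  have m1 : (1 : ℝ) ≤ m := by exact_mod_cast hm
  have n0 : (0 : ℝ) ≤ n := Nat.cast_nonneg _
  have h0 : (0 : ℝ) ≤ D.h := Nat.cast_nonneg _
  have l1 : (2 * m ^ 2 * D.h : ℝ) < D.q * l := by exact_mod_cast hl
  have l2 : (0 : ℝ) < D.q * l := lt_of_le_of_lt (by positivity) l1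
  obtain ⟨ε, e0, e1⟩ : ∃ ε : ℝ, 0 < ε ∧ ε * (2 * m * (n + 1)) = 1 :=
    ⟨1 / (2 * m * (n + 1)), by positivity, by field_simp⟩
  obtain ⟨μ, u0, u1⟩ : ∃ μ : ℝ, 0 < μ ∧ μ * m = 1 := ⟨1 / m, by positivity, by field_simp⟩
  obtain ⟨c, c0, c1⟩ : ∃ c : ℝ, 0 < c ∧ c * (D.q * l) = 1 :=
    ⟨1 / (D.q * l), by positivity, one_div_mul_cancel l2.ne'⟩
  have u2 : μ ≤ 1 := by nlinarith
  have e2 : ε ≤ 1 / 2 := by
    nlinarith [mul_nonneg e0.le n0, mul_nonneg e0.le (sub_nonneg.2 m1),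
      mul_nonneg (mul_nonneg e0.le n0) (sub_nonneg.2 m1)]
  have hs : F.Sec (F.ρ (F.deg m b)) (D.t ^ 1 * (∏ Y, F.y Y ^ D.e Y) * 1) := by
    simpa using H.sec_mul _ _ _ _ ht (H.sec_ym D.e)
  have c2 : 0 ≤ (1 - μ) * c := mul_nonneg (sub_nonneg.2 u2) c0.le
  refine Eq.mp (by simp) (H.ext _ (D.dX F (F.deg m b) l 0) 0 (∑ i, b i • F.σ i) ((1 - μ) * c) 0 ((1 - ε) * μ)
    (W.image (D.mo F l 0)) (1 * ∏ Y, F.y Y ^ 0) _ _ c2 le_rfl (mul_nonneg (by linarith) u0.le)
    (fun s hs => ?_) (by simpa using H.ext_one) (H.ext_ym b) ?_ hs fun x => ?_)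
  · obtain ⟨w', h1, rfl⟩ := Finset.mem_image.1 hs
    exact h w' (w1 w' h1)
  · have h1 : 0 ≤ μ ^ 2 - (1 - μ) * c * D.h - ε * μ * n := by
      have h2 : 2 * (c * D.h) ≤ μ ^ 2 := by
        have h3 := mul_le_mul_of_nonneg_left l1.le (mul_pos c0 (pow_pos u0 2)).le
        have h4 : c * μ ^ 2 * (2 * m ^ 2 * D.h) = 2 * (c * D.h) * (μ * m) ^ 2 := by ring
        have h5 : c * μ ^ 2 * (D.q * l) = μ ^ 2 * (c * (D.q * l)) := by ring
        rw [h4, h5, u1, c1] at h3
        linarith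
      have h3 : 2 * (ε * (n + 1)) = μ := by linear_combination μ * e1 - 2 * ε * (n + 1) * u1
      nlinarith [mul_nonneg (mul_nonneg c0.le h0) u0.le, mul_pos e0 u0]
    refine Eq.mp (congrArg F.Pos ?_) (H.pos_nn (H.pos_smul _ _ (mul_pos e0 u0) hn) h1)
    have h5 : D.E F 0 = 0 := by simp [Tw.E, Tw.cnt]
    have h6 : (D.q : ℝ) = D.Q * m := by exact_mod_cast hq
    have h7 : c * l * D.Q = μ := by linear_combination μ * c1 - c * l * D.Q * u1 - μ * c * l * h6
    simp only [Tw.dX, h5, Tw.a, deg, map_add, map_nsmul, map_zero, Nat.zero_min,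
      ← Nat.cast_smul_eq_nsmul ℝ]
    match_scalars
    · linear_combination (1 - μ) * c1
    · linear_combination (1 - μ) * c1 + (1 - μ) * h7
    · linear_combination (1 - μ) * m * c1 - u1
  · obtain ⟨w₀, h1, h2⟩ := w2 x
    refine H.key x (γ := fun _ => 1 - ε) ht H.sec_one H.sec_one h2 (Finset.mem_image_of_mem _ h1)
      c2 one_pos zero_le_one (fun _ => by linarith) ?_ (by simp) (fun Y _ => ?_)
      (H.li_one x fun _ => by linarith)
    · push_cast
      nlinarith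
    · have h3 : D.Rr F 0 Y = 0 := by simp [Tw.Rr, Tw.cnt]
      have h4 : (b (F.par Y) : ℝ) ≤ m := by exact_mod_cast hb _
      have h5 := mul_le_mul_of_nonneg_left h4 (mul_nonneg (by linarith : 0 ≤ 1 - ε) u0.le)
      have h6 : (1 - μ) * c * (D.q * l * D.e Y) = (1 - μ) * D.e Y := by
        linear_combination (1 - μ) * D.e Y * c1
      have h7 : 0 ≤ μ * D.e Y := by positivity
      rw [h3]
      push_cast
      nlinarith

/-- **The lifting theorem.** -/
theorem Ok.t34 (H : F.Ok) : F.T34 := by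
  classical
  rintro m b e t hm ⟨k, T, hk, hT, hd⟩ ht hζ
  obtain ⟨n, n1, hn⟩ : ∃ n : ℕ, 1 ≤ n ∧ ∀ U : Finset I,
      F.Pos (F.cl (∑ i, (if i ∈ U then 1 else 0 : ℕ) • F.σ i) + (n : ℝ) • F.cl F.α) := by
    obtain ⟨n, h1, h2⟩ := ((eventually_all.2 fun U : Finset I =>
      H.amp_ev (∑ i, (if i ∈ U then 1 else 0 : ℕ) • F.σ i)).and (eventually_ge_atTop 1)).exists
    exact ⟨n, h2, fun U => h1 U n (half_le_self (Nat.cast_nonneg n))⟩
  have n2 : (1 : ℝ) ≤ n := by exact_mod_cast n1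
  have m1 : (1 : ℝ) ≤ m := by exact_mod_cast hm
  obtain ⟨ζ, z0, z1⟩ : ∃ ζ : ℝ, 0 < ζ ∧ ζ * (8 * n * m ^ 2) = 1 :=
    ⟨1 / (8 * n * m ^ 2), by positivity, by field_simp⟩
  obtain ⟨q, v, τ, g, hq, hτ, hG, hθ, hv⟩ := hζ ζ z0
  let D : ℕ → Tw R I J := fun h => ⟨k * q * m, k * q, h, e, t, fun r => T (r % (k * m)),
    Finset.univ.filter fun Y => v Y ≤ q * m * b (F.par Y)⟩
  have g1 : ∀ r : Fin (k * q * m * m + 1), ∀ᶠ h : ℕ in atTop, ∀ j, h ≤ j →
      F.Gen ((D 0).dS F r + j • F.ρ F.α) := fun r => by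
    obtain ⟨j, hj⟩ := H.gg ((D 0).dS F r)
    exact (eventually_ge_atTop j).mono fun h hh i hi => hj i (hh.trans hi)
  obtain ⟨h, ⟨g2, g3⟩, g4, g5⟩ := (((eventually_all.2 g1).and (eventually_all.2
    fun r : Fin (k * q * m * m + 1) => H.amp_ev ((D 0).E F r))).and
    ((H.amp_ev (-F.κ)).and (eventually_ge_atTop 1))).exists
  have h1 : (1 : ℝ) ≤ h := by exact_mod_cast g5
  have q1 : 1 ≤ k * q * m := Nat.mul_pos (Nat.mul_pos hk hq) hm
  have g6 : ∀ l r, r ≤ k * q * m * m →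
      F.Gen ((D h).dS F r + (l * (D h).Q + (D h).a r) • F.ρ F.α) :=
    fun l r hr => g2 ⟨r, Nat.lt_succ_of_le hr⟩ _
      ((Nat.le_add_left _ _).trans (Nat.le_add_left _ _))
  have hb : ∀ i, b i ≤ m := fun i => by
    refine Nat.le_of_mul_le_mul_left ?_ hk
    rw [← hT i]
    refine (Finset.sum_le_card_nsmul _ _ 1 fun r _ => ?_).trans (by simp)
    split_ifs <;> simp
  have hc : ∀ i, (D h).cnt (k * q * m * m) i = k * q * m * b i := fun i => by
    have := sum_per (fun r => if i ∈ T r then 1 else 0) (k * m) (q * m)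
    rw [hT i, show q * m * (k * m) = k * q * m * m by ring] at this
    exact this.trans (by ring)
  have qm : (0 : ℝ) < q * m := by exact_mod_cast Nat.mul_pos hq hm
  have he : ∀ Y ∉ (D h).N, b (F.par Y) ≤ e Y := fun Y hY => by
    have h2 := hv Y
    rw [min_eq_left (not_le.1 fun h => hY (Finset.mem_filter.2 ⟨Finset.mem_univ _, h⟩)).le,
      Nat.cast_mul, Nat.cast_mul] at h2
    have h3 := le_of_mul_le_mul_left h2 qm
    have h4 : ζ < 1 := by
      have : (1 : ℝ) ≤ n * m ^ 2 := one_le_mul_of_one_le_of_one_le n2 (one_le_pow₀ m1)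
      nlinarith
    have h5 : (b (F.par Y) : ℝ) < e Y + 1 := by linarith
    exact Nat.lt_succ_iff.1 (by exact_mod_cast h5)
  have hN : ∀ Y ∈ (D h).N, (k * v Y : ℝ) ≤ (k * q * m : ℕ) * (e Y + ζ) := fun Y hY => by
    have h2 := hv Y
    rw [min_eq_right (Finset.mem_filter.1 hY).2] at h2
    have h3 := mul_le_mul_of_nonneg_left h2 (Nat.cast_nonneg k)
    push_cast
    linarith
  have hD : k • (q • (m • F.deg m b + F.α)) = (k * q * m) • F.deg m b + (k * q) • F.α := by module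
  have main : ∀ l, l ≤ 2 * m ^ 2 * h / (k * q * m) + 1 → (D h).Cl F (F.deg m b) l 0 := by
    intro l
    induction l with
    | zero => exact fun _ => Tw.base H ht (g4 h (by linarith))
    | succ l ih =>
      intro hl
      have l1 : l * (k * q * m) ≤ 2 * m ^ 2 * h :=
        (Nat.le_div_iff_mul_le q1).1 (Nat.le_of_succ_le_succ hl)
      have l2 : (l : ℝ) * (k * q * m : ℕ) * ζ < h / (2 * n) := by
        have l3 : (l : ℝ) * (k * q * m : ℕ) ≤ 2 * m ^ 2 * h := by exact_mod_cast l1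
        rw [lt_div_iff₀ (by positivity)]
        have l4 := mul_le_mul_of_nonneg_right l3 (by positivity : 0 ≤ ζ * (2 * n))
        nlinarith
      have st : ∀ r, r ≤ k * q * m * m → (D h).Cl F (F.deg m b) l r := by
        intro r
        induction r with
        | zero => exact fun _ => ih (Nat.le_of_succ_le hl)
        | succ r ir =>
          intro hr
          refine Tw.step H ht hD hτ hG hθ hN (by positivity) l2 (fun x => hd _ x) ?_
            (g6 l r (Nat.le_of_succ_le hr)) (ir (Nat.le_of_succ_le hr))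
          have p1 := H.pos_add _ _ (g3 ⟨r, Nat.lt_succ_of_lt hr⟩ (h / 2) le_rfl)
            (H.pos_smul (h / (2 * n)) _ (by positivity) (hn (T (r % (k * m)))))
          refine Eq.mp (congrArg F.Pos ?_) p1
          have p2 : (h : ℝ) = h / 2 + h / (2 * n) * n := by field_simp; ring
          change F.cl ((D h).E F r) + _ + _ • (F.cl (∑ i, (D h).χ r i • F.σ i) + _) =
            _ + _ + (h : ℝ) • _
          match_scalars
          · ring
          · linear_combination -p2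
          · ring
      exact Tw.level (D := D h) H (Nat.mul_pos q1 hm) ht hc he (st _ le_rfl)
  refine Tw.final (D := D h) H hm hb ht rfl ?_ (g6 _ 0 (Nat.zero_le _)) (main _ le_rfl)
  exact Nat.lt_mul_div_succ _ q1

end Vale.Agent.P277Z.Lift.Fr
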