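import Vale.Agent.P277Z.Lift.Rs
import Vale.Agent.P277Z.Lift.T34

/-!
# P277Z, lifting: the frame of a smooth prime divisor
-/

set_option linter.all false

open scoped ENNReal Topology Classical
open Filter Set
open Vale.Agent.P297 (Place)
open Vale.Agent.P297Z.Pl

noncomputable section

namespace Vale.Agent.P277Z.Lift

variable {n N : ℕ} {K L : Type} [Field K] [Algebra ℂ K] [Field L] [Algebra ℂ L]

/-- integral divisors -/
def GS (L : Type) [Field L] [Algebra ℂ L] : AddSubgroup (Div L) where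
  carrier := {D | IsInt D}
  zero_mem' := FI.IsInt.zero
  add_mem' := FI.IsInt.add
  neg_mem' := FI.IsInt.neg

/-- integral divisors that do not contain `P` -/
def GX (M : Mdl n N K) (P : Place K) : AddSubgroup (Div K) where
  carrier := {D | M.Dv D ∧ IsInt D ∧ D P = 0}
  zero_mem' := ⟨FI.dv_zero, FI.IsInt.zero, rfl⟩
  add_mem' := fun h k => ⟨FI.dv_add h.1 k.1, FI.IsInt.add h.2.1 k.2.1, by simp [h.2.2, k.2.2]⟩
  neg_mem' := fun h => ⟨by simpa using FI.dv_smul h.1 (-1), FI.IsInt.neg h.2.1, by simp [h.2.2]⟩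

/-- the map from the free commutative monoid -/
def lft {A B : Type} [CommMonoid B] (f : A → B) : Multiplicative (Multiset A) →* B where
  toFun r := (r.toAdd.map f).prod
  map_one' := by simp
  map_mul' := by simp

theorem lft_one {A B : Type} [CommMonoid B] (f : A → B) (a : A) :
    lft f (Multiplicative.ofAdd {a}) = f a := by
  change (Multiset.map f {a}).prod = _
  simp

section words

variable (S : Mdl n N L)

/-- formal products of sections -/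
abbrev Wd := Multiplicative (Multiset {p : L × GS L // p.1 ∈ S.H0 p.2})

variable {S}

/-- one section -/
def ltr (f : L) (g : GS L) (h : f ∈ S.H0 g) : Wd S := Multiplicative.ofAdd {⟨(f, g), h⟩}

/-- the function -/
def fn : Wd S →* L := lft fun p => p.1.1

/-- the degree -/
def dg : Wd S →* Multiplicative (GS L) := lft fun p => Multiplicative.ofAdd p.1.2

/-- the local expression -/
def evw (y : S.F) : Wd S →* (S.W → ℂ) := lft fun p => S.val (p.1.1 * eqD S y p.1.2)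

theorem fn_ltr (f : L) (g : GS L) (h : f ∈ S.H0 g) : fn (ltr f g h) = f := lft_one _ _

theorem dg_ltr (f : L) (g : GS L) (h : f ∈ S.H0 g) : dg (ltr f g h) = Multiplicative.ofAdd g :=
  lft_one _ _

theorem wd (hS : Loc S) (y : S.F) (r : Wd S) : fn r ∈ S.H0 (dg r).toAdd ∧
    ∃ t, LG S y (dg r).toAdd t ∧ ∀ᶠ z in 𝓝 (y : S.W), evw y r z = S.val (fn r * t) z := by
  induction r using Multiplicative.rec with
  | ofAdd r =>
  induction r using Multiset.induction_on with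
  | empty => exact ⟨(FI.fam_H0 S).one, 1, LG.one, by simp [S.val_one]⟩
  | cons p r ih =>
    obtain ⟨h1, t, h2, h3⟩ := ih
    have h4 := lg_eqD (x := y) hS p.1.2.2
    rw [← Multiset.singleton_add, ofAdd_add, map_mul fn, map_mul dg, map_mul (evw y), toAdd_mul,
      AddSubgroup.coe_add]
    have e1 := fn_ltr _ _ p.2
    have e2 := dg_ltr _ _ p.2
    rw [ltr] at e1 e2
    rw [e1, e2]
    refine ⟨(FI.fam_H0 S).mul p.2 h1, _, h4.mul h2, ?_⟩
    filter_upwards [h3, S.nhds_mul (h4.mem hS p.2) (h2.mem hS h1)] with z k1 k2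
    rw [mul_mul_mul_comm, k2, Pi.mul_apply, k1, evw, lft_one]

theorem wd_cp (hS : Loc S) {y : S.F} {r : Wd S} {t : L} (h : LG S y (dg r).toAdd t) :
    Cp (𝓝 (y : S.W)) (fun z => ENNReal.ofReal (‖evw y r z‖ ^ 2)) (nv S (fn r * t)) ∧
    Cp (𝓝 (y : S.W)) (nv S (fn r * t)) fun z => ENNReal.ofReal (‖evw y r z‖ ^ 2) := by
  obtain ⟨h1, t', h2, h3⟩ := wd hS y r
  exact ⟨(Cp.of_le (h3.mono fun z hz => by rw [hz]; rfl)).trans (h2.cp hS h h1),
    (h.cp hS h2 h1).trans (Cp.of_le (h3.mono fun z hz => by rw [hz]; rfl))⟩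

theorem wd_un (hS : Loc S) {y : S.F} {r : Wd S} (h : LG S y (dg r).toAdd (fn r)⁻¹) :
    ∃ c : ℝ, 0 < c ∧ ∀ᶠ z in 𝓝 (y : S.W), c ≤ ‖evw y r z‖ := by
  obtain ⟨-, t, h2, h3⟩ := wd hS y r
  have h0 : fn r ≠ 0 := fun e => h.1 (by rw [e, inv_zero])
  obtain ⟨h4, h5⟩ := LG.val_ne hS (x := y) (t := fn r * t) ⟨mul_ne_zero h0 h2.1, fun R hR => by
    have := h.2 R hR
    rw [ord_inv, ← h2.2 R hR, Int.cast_inj] at this
    rw [ord_mul R h0 h2.1, ← this]
    simp⟩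
  have h6 := half_pos (norm_pos_iff.2 h5)
  refine ⟨_, h6, ?_⟩
  filter_upwards [h3, (Lo.hol_cont h4).norm.eventually (le_mem_nhds (half_lt_self
    (norm_pos_iff.2 h5)))] with z k1 k2
  rwa [k1]

end words

variable {S : Mdl n N L} {M : Mdl (n + 1) N K} {P : Place K}

/-- the hypotheses -/
structure Hy (s : Sub S M P) (T : Finset (Place K)) : Prop where
  lM : Loc M
  lS : Loc S
  pM : Pos M
  pS : Pos S
  rst : Rst s
  snc : M.Snc (insert P (T : Set (Place K)))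
  nP : P ∉ T

/-- the components of the intersections -/
def JJ (s : Sub S M P) (T : Finset (Place K)) : Finset (Place L) :=
  T.biUnion fun R => (s.rs (Finsupp.single R 1)).support

variable {s : Sub S M P} {T : Finset (Place K)}

theorem ex_par (Y : JJ s T) : ∃ R : T, s.rs (Finsupp.single R 1) Y ≠ 0 := by
  simpa [JJ] using Y.2

theorem pr_JJ (Y : JJ s T) : S.Pr Y :=
  FI.dv_rs s _ _ (Finsupp.mem_support_iff.2 (ex_par Y).choose_spec)

namespace Hy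

variable (H : Hy s T) (κ α : GX M P)

/-- the frame -/
def fr : Fr (GX M P) (GS L) (Div K) (Wd S) S.F S.W T (JJ s T) where
  ρ := AddMonoidHom.mk' (fun D => ⟨s.rs D, FI.rs_int H.rst D.2.2.2 D.2.2.1⟩) fun D E =>
    Subtype.ext (FI.rs_add H.rst D.2.2.2 E.2.2.2)
  cl := (GX M P).subtype
  Pos := M.Amp
  Sec g r := dg r = Multiplicative.ofAdd g
  Ext D r := ((dg r).toAdd : Div L) = s.rs D ∧ ∃ f ∈ M.H0 D, s.res f = fn r
  ev := evw
  l y := 𝓝 (y : S.W)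
  LI y := LIm S y
  κ := κ
  α := α
  σ R := ⟨Finsupp.single R 1, FI.dv_single (H.snc.1 R (mem_insert_of_mem _ R.2)) 1,
    FI.IsInt.single _, Finsupp.single_eq_of_ne fun e => H.nP (e ▸ R.2)⟩
  η Y := ⟨Finsupp.single Y 1, FI.IsInt.single _⟩
  par Y := (ex_par Y).choose
  y Y := ltr 1 ⟨Finsupp.single Y 1, FI.IsInt.single _⟩ (one_mem_single _)
  On y Y := S.On y Y

theorem li_iff (y : S.F) (f : S.W → ℝ≥0∞) : (H.fr κ α).LI y f ↔ LIm S y f := Iff.rfl

theorem par_iff (Y : JJ s T) (R : T) :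
    (H.fr κ α).par Y = R ↔ s.rs (Finsupp.single R 1) Y ≠ 0 := by
  refine ⟨fun e => e ▸ (ex_par Y).choose_spec, fun h => ?_⟩
  obtain ⟨y, hy⟩ := pr_JJ Y
  obtain ⟨c, r, h1, h2, h3⟩ := loc_snc H.lM H.lS H.rst H.snc H.nP y
  obtain ⟨-, -, j, j1, j2⟩ := h3 R R.2 Y hy h
  obtain ⟨-, -, i, i1, i2⟩ := h3 _ (ex_par Y).choose.2 Y hy (ex_par Y).choose_spec
  exact Subtype.ext (h2 _ _ j (coord_inj H.lS h1 (i2 Y hy (ex_par Y).choose_spec) (j2 Y hy h) ▸ i1)
    j1)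

theorem rs_single (R : T) : s.rs (Finsupp.single R 1) =
    ∑ Y with (H.fr κ α).par Y = R, Finsupp.single (Y : Place L) (1 : ℝ) := by
  ext Q
  rw [Finsupp.finset_sum_apply]
  by_cases h : s.rs (Finsupp.single R 1) Q = 0
  · rw [h, Finset.sum_eq_zero fun Y hY => Finsupp.single_eq_of_ne ?_]
    rintro rfl
    exact (H.par_iff κ α Y R).1 (Finset.mem_filter.1 hY).2 h
  · have hQ : Q ∈ JJ s T := Finset.mem_biUnion.2 ⟨R, R.2, Finsupp.mem_support_iff.2 h⟩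
    obtain ⟨y, hy⟩ := pr_JJ ⟨Q, hQ⟩
    obtain ⟨c, r, -, -, h3⟩ := loc_snc H.lM H.lS H.rst H.snc H.nP y
    rw [(h3 R R.2 Q hy h).2.1, Finset.sum_eq_single_of_mem ⟨Q, hQ⟩ (Finset.mem_filter.2
      ⟨Finset.mem_univ _, (H.par_iff κ α _ R).2 h⟩) fun Y _ e =>
        Finsupp.single_eq_of_ne fun k => e (Subtype.ext k.symm), Finsupp.single_eq_same]

include H in
theorem snc_JJ : S.Snc (range fun Y : JJ s T => (Y : Place L)) := by
  refine ⟨by rintro _ ⟨Y, rfl⟩; exact pr_JJ Y, fun y => ?_⟩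
  obtain ⟨c, r, h1, -, h3⟩ := loc_snc H.lM H.lS H.rst H.snc H.nP y
  refine ⟨c, h1, ?_⟩
  rintro _ ⟨Y, rfl⟩ hy
  obtain ⟨R, hR⟩ := ex_par Y
  obtain ⟨-, -, j, -, j2⟩ := h3 R R.2 Y hy hR
  exact ⟨j, j2 Y hy hR⟩

theorem on_par {y : S.F} {Y : JJ s T} (hy : S.On y Y) : M.On (pt s y) ((H.fr κ α).par Y) ∧
    ∀ Y' : JJ s T, S.On y Y' → (H.fr κ α).par Y' = (H.fr κ α).par Y → Y' = Y := by
  obtain ⟨c, r, -, -, h3⟩ := loc_snc H.lM H.lS H.rst H.snc H.nP y
  have h4 := (H.par_iff κ α Y _).1 rfl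
  obtain ⟨h1, -, j, -, j2⟩ := h3 _ ((H.fr κ α).par Y).2 Y hy h4
  exact ⟨h1, fun Y' k1 k2 => Subtype.ext
    (FI.gn_unique H.lS (j2 Y' k1 ((H.par_iff κ α Y' _).1 k2)) (j2 Y hy h4))⟩

theorem nq_ltr (y : S.F) (f : L) (g : GS L) (h : f ∈ S.H0 g) :
    (H.fr κ α).nq y (ltr f g h) = nv S (f * eqD S y g) := by
  funext z
  exact congrArg (fun a : S.W → ℂ => ENNReal.ofReal (‖a z‖ ^ 2)) (lft_one _ _)

theorem wt_eq (y : S.F) (γ : JJ s T → ℝ) : (H.fr κ α).wt y γ =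
    fun z => ∏ Y : JJ s T, nv S (eqD S y (Finsupp.single Y 1)) z ^ (-γ Y) := by
  funext z
  refine Finset.prod_congr rfl fun Y _ => ?_
  rw [← one_mul (eqD S y _)]
  exact congrArg (fun f => f z ^ (-γ Y)) (H.nq_ltr κ α y _ _ _)

theorem good_ltr {f : L} {g : GS L} (h : f ∈ S.H0 g) (h0 : f ≠ 0)
    (ho : ∀ Y : JJ s T, ((Y : Place L).ord f : ℝ) + (g : Div L) Y = 0) :
    (H.fr κ α).Good (ltr f g h) := by
  obtain ⟨ε, e0, e1⟩ := good H.lS Subtype.val_injective H.snc_JJ g.2 h h0 ho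
  refine ⟨ε, e0, fun y γ h1 h2 => ?_⟩
  rw [H.nq_ltr, H.wt_eq]
  exact e1 y _ _ γ (lg_eqD H.lS g.2) (fun Y => lg_eqD H.lS (FI.IsInt.single _)) h1 h2

theorem ok {κ₀ : Div K} (hκ : (κ : Div K) = κ₀ + Finsupp.single P 1) (hα : M.Amp α)
    (hE : ∀ (L : Div K) (k : ℕ) (D : Fin k → Div K) (W : Fin k → Finset K) (c : Fin k → ℝ) u,
      M.Dv L → IsInt L → L P = 0 →
      (∀ j, M.Dv (D j) ∧ IsInt (D j) ∧ D j P = 0 ∧ 0 ≤ c j ∧ ∀ w ∈ W j, w ∈ M.H0 (D j)) →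
      M.Amp (L - κ₀ - Finsupp.single P 1 - ∑ j, c j • D j) → u ∈ S.H0 (s.rs L) →
      (∀ (y : S.F) (t₀ : K) (t : Fin k → K), LG M (pt s y) L t₀ →
        (∀ j, LG M (pt s y) (D j) (t j)) → LIm S y fun z => nv S (u * s.res t₀) z *
          ∏ j, (∑ w ∈ W j, nv S (s.res (w * t j)) z) ^ (-c j)) → ∃ f ∈ M.H0 L, s.res f = u) :
    (H.fr κ α).Ok where
  pos_add := H.pM.add
  pos_smul t v ht hv := H.pM.smul v t ht hv
  amp g := by
    obtain ⟨ε, e0, e1⟩ := H.pM.opn α g hα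
    obtain ⟨k, hk⟩ := exists_nat_gt ε⁻¹
    refine ⟨k, Eq.mp (congrArg M.Amp ?_) (H.pM.add _ _ (H.pM.smul _ _ (inv_pos.2 e0) e1)
      (H.pM.smul _ _ (sub_pos.2 hk) hα))⟩
    change _ = (g : Div K) + (k : ℝ) • (α : Div K)
    match_scalars
    · ring
    · field_simp
  pos_α := hα
  gg g := by
    haveI : CompactSpace S.F := isCompact_iff_compactSpace.1 S.cpt
    obtain ⟨k, hk⟩ := H.pS.gg _ g (H.rst.amp α α.2.2.2 hα) ((H.fr κ α).ρ α).2 g.2
    refine ⟨k, fun j hj => ?_⟩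
    have e : ((g + j • (H.fr κ α).ρ α : GS L) : Div L) = g + (j : ℝ) • s.rs α := by
      rw [Nat.cast_smul_eq_nsmul]; rfl
    choose f f1 f2 f3 using hk j hj
    rw [← e] at f1 f3
    obtain ⟨U, hU⟩ := CompactSpace.elim_nhds_subcover
      (fun y => {y' | LG S y' (g + j • (H.fr κ α).ρ α : GS L) (f y)⁻¹}) fun y =>
        LG.near H.lS ⟨inv_ne_zero (f2 y), fun R hR => by
          rw [ord_inv, Int.cast_neg]; linarith [f3 y R hR]⟩
    refine ⟨U.image fun y => ltr (f y) _ (f1 y), fun w hw => ?_, fun y => ?_⟩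
    · obtain ⟨y, -, rfl⟩ := Finset.mem_image.1 hw
      exact dg_ltr _ _ _
    · obtain ⟨y', h1, h2⟩ := mem_iUnion₂.1 (hU.ge (mem_univ y))
      exact ⟨_, Finset.mem_image_of_mem _ h1, wd_un H.lS (by rwa [dg_ltr, fn_ltr])⟩
  sec_one := map_one _
  sec_mul g g' r r' h h' := (map_mul dg r r').trans (congrArg₂ _ h h')
  sec_y Y := dg_ltr _ _ _
  ext_one := ⟨(congrArg (fun g => ((g.toAdd : GS L) : Div L)) (map_one dg)).trans
    (congrArg Subtype.val (map_zero (H.fr κ α).ρ)).symm, 1,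
    (FI.fam_H0 M).one, (FI.res_one s).trans (map_one fn).symm⟩
  ext_mul := by
    rintro g g' r r' ⟨h1, f, f1, f2⟩ ⟨h2, f', f3, f4⟩
    refine ⟨?_, f * f', (FI.fam_H0 M).mul f1 f3, ?_⟩
    · rw [map_mul, toAdd_mul, AddSubgroup.coe_add, h1, h2]
      exact (FI.rs_add H.rst g.2.2.2 g'.2.2.2).symm
    · rw [s.res_mul _ (FI.mem_ring_of_H0 f1 (pr_sub s) g.2.2.2) _
        (FI.mem_ring_of_H0 f3 (pr_sub s) g'.2.2.2), f2, f4, map_mul]
  ext_σ R := by
    refine ⟨?_, 1, one_mem_single _, ?_⟩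
    · refine Eq.trans ?_ (H.rs_single κ α R).symm
      rw [map_prod, toAdd_prod, AddSubgroup.val_finset_sum]
      exact Finset.sum_congr rfl fun Y _ => congrArg (fun g => ((g.toAdd : GS L) : Div L))
        (dg_ltr _ _ _)
    · rw [FI.res_one, map_prod]
      exact (Finset.prod_eq_one fun Y _ => fn_ltr _ _ _).symm
  bdd g r y _ := by
    obtain ⟨h1, t, h2, h3⟩ := wd H.lS y r
    refine ⟨‖S.val (fn r * t) y‖ + 1, ?_⟩
    filter_upwards [h3, (Lo.hol_cont (h2.mem H.lS h1)).norm.eventually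
      (ge_mem_nhds (lt_add_one _))] with z k1 k2
    exact (congrArg norm k1).trans_le k2
  off y Y h := wd_un H.lS (r := ltr _ _ _) (by rw [dg_ltr, fn_ltr, inv_one]; exact lg_off h)
  li y f g C h h' := LIm.cp h' ⟨_, ENNReal.ofReal_ne_top, h⟩
  snc y γ h := by
    rw [H.wt_eq]
    exact lim_snc H.lS Subtype.val_injective H.snc_JJ
      (fun Y => lg_eqD H.lS (FI.IsInt.single _)) h
  ext := by
    rintro A M₁ M₂ M₃ c₁ c₂ c₃ W s₂ s₃ u h1 h2 h3 h4 ⟨a2, f₂, b2, d2⟩ ⟨a3, f₃, b3, d3⟩ hp hu hI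
    choose! f f1 f2 using fun r hr => (h4 r hr).2
    have hu' : ((dg u).toAdd : Div L) = s.rs A := congrArg (fun g => ((g.toAdd : GS L) : Div L)) hu
    obtain ⟨y₀, hy₀⟩ := S.conn.nonempty
    refine ⟨hu', hE A 3 ![M₁, M₂, M₃] ![W.image f, {f₂}, {f₃}] ![c₁, c₂, c₃] _ A.2.1 A.2.2.1 A.2.2.2
      (fun j => ?_) ?_ (hu' ▸ (wd H.lS ⟨y₀, hy₀⟩ u).1) fun y t₀ t k1 k2 => ?_⟩
    · fin_cases j
      · exact ⟨M₁.2.1, M₁.2.2.1, M₁.2.2.2, h1, fun w hw =>
          let ⟨r, hr, e⟩ := Finset.mem_image.1 hw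
          e ▸ f1 r hr⟩
      · exact ⟨M₂.2.1, M₂.2.2.1, M₂.2.2.2, h2, fun w hw => Finset.mem_singleton.1 hw ▸ b2⟩
      · exact ⟨M₃.2.1, M₃.2.2.1, M₃.2.2.2, h3, fun w hw => Finset.mem_singleton.1 hw ▸ b3⟩
    · refine Eq.mp (congrArg M.Amp ?_) hp
      change (A : Div K) - κ - c₁ • (M₁ : Div K) - c₂ • (M₂ : Div K) - c₃ • (M₃ : Div K) = _
      rw [hκ, Fin.sum_univ_three]
      simp only [Matrix.cons_val]
      abel
    · have key : ∀ (B : GX M P) (r : Wd S) (g t : K), ((dg r).toAdd : Div L) = s.rs B →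
          g ∈ M.H0 B → s.res g = fn r → LG M (pt s y) B t →
          Cp (𝓝 (y : S.W)) ((H.fr κ α).nq y r) (nv S (s.res (g * t))) := fun B r g t q1 q2 q3 q4 => by
        rw [s.res_mul _ (FI.mem_ring_of_H0 q2 (pr_sub s) B.2.2.2) _ (q4.ring B.2.2.2), q3]
        exact (wd_cp H.lS (q1 ▸ q4.res H.lM H.lS H.rst B.2.2.2)).1
      have e1 : Cp _ _ ((H.fr κ α).nq y u) :=
        (wd_cp H.lS (hu' ▸ k1.res H.lM H.lS H.rst A.2.2.2)).2
      have e2 := (Cp.sum W fun r hr => (key M₁ r _ _ (h4 r hr).1 (f1 r hr) (f2 r hr) (k2 0)).trans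
        (Cp.of_le (.of_forall fun z => Finset.single_le_sum (f := fun w => nv S (s.res (w * t 0)) z)
          (fun _ _ => zero_le) (Finset.mem_image_of_mem f hr)))).neg h1
      have e3 := ((e1.mul e2).mul ((key M₂ _ _ _ a2 b2 d2 (k2 1)).neg h2)).mul
        ((key M₃ _ _ _ a3 b3 d3 (k2 2)).neg h3)
      refine ((H.li_iff κ α y _).1 (hI y)).cp ?_
      simpa only [Fin.prod_univ_three, Matrix.cons_val, Finset.sum_singleton, mul_assoc] using e3

end Hy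

end Vale.Agent.P277Z.Lift
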