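import Vale.Agent.P277Z.Lift.Inst

/-!
# P277Z, lifting: the lifting theorem for models
-/

set_option linter.all false

open scoped ENNReal Topology Classical
open Filter Set
open Vale.Agent.P297 (Place)
open Vale.Agent.P297Z.Pl

noncomputable section

namespace Vale.Agent.P277Z.Lift

/-- `b` is a sum of `m` good subsets -/
def Dec {I : Type} [DecidableEq I] (G : Finset I → Prop) (m : ℕ) (b : I → ℕ) : Prop :=
  ∃ T : ℕ → Finset I, (∀ i, ∑ t ∈ Finset.range m, (if i ∈ T t then 1 else 0) = b i) ∧ ∀ t, G (T t)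

theorem Dec.add {I : Type} [DecidableEq I] {G : Finset I → Prop} {m m' : ℕ} {b b' : I → ℕ}
    (h : Dec G m b) (h' : Dec G m' b') : Dec G (m + m') (b + b') := by
  obtain ⟨T, h1, h2⟩ := h
  obtain ⟨T', h3, h4⟩ := h'
  refine ⟨fun t => if t < m then T t else T' (t - m), fun i => ?_, fun t => ?_⟩
  · rw [Finset.sum_range_add, Pi.add_apply, ← h1, ← h3]
    congr 1
    · exact Finset.sum_congr rfl fun t ht => by simp [Finset.mem_range.1 ht]
    · exact Finset.sum_congr rfl fun t _ => by simp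
  · beta_reduce
    split_ifs
    exacts [h2 _, h4 _]

theorem dec {I : Type} [DecidableEq I] [Fintype I] {G : Finset I → Prop} (B : I → Prop)
    [DecidablePred B] (h1 : ∀ i, G {i})
    (h2 : ∀ U : Finset I, (∀ i ∈ U, B i) → G U) {m : ℕ} {b : I → ℕ}
    (h3 : ∑ i with ¬ B i, b i ≤ m) (h4 : ∀ i, B i → b i + ∑ i with ¬ B i, b i ≤ m) : Dec G m b := by
  have a1 : ∀ U : Finset I, Dec G (∑ i ∈ U, b i) fun i => if i ∈ U then b i else 0 := fun U => by
    induction U using Finset.induction_on with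
    | empty => exact ⟨fun _ => ∅, by simp, fun _ => h2 _ (by simp)⟩
    | insert j U hj ih =>
      have a2 : Dec G (b j) fun i => if i = j then b i else 0 :=
        ⟨fun _ => {j}, fun i => by by_cases e : i = j <;> simp [e], fun _ => h1 j⟩
      rw [Finset.sum_insert hj]
      convert a2.add ih using 2 with i
      by_cases e : i = j <;> simp [e, hj]
  have a2 : Dec G (m - ∑ i with ¬ B i, b i) fun i => if B i then b i else 0 :=
    ⟨fun t => Finset.univ.filter fun i => B i ∧ t < b i, fun i => by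
      by_cases e : B i
      · have := h4 i e
        simp only [Finset.mem_filter, Finset.mem_univ, e, true_and, if_true]
        rw [← Finset.card_filter]
        refine (congrArg _ ?_).trans (Finset.card_range (b i))
        ext t
        simp only [Finset.mem_filter, Finset.mem_range]
        omega
      · simp [e], fun t => h2 _ fun i hi => (Finset.mem_filter.1 hi).2.1⟩
  have a3 := (a1 (Finset.univ.filter fun i => ¬ B i)).add a2
  rw [Nat.add_sub_cancel' h3] at a3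
  convert a3 using 1
  funext i
  by_cases e : B i <;> simp [e]

variable {n N : ℕ} {K L : Type} [Field K] [Algebra ℂ K] [Field L] [Algebra ℂ L]
  {S : Mdl n N L} {M : Mdl (n + 1) N K} {P : Place K} {s : Sub S M P} {T : Finset (Place K)}

theorem LG.inv {x : M.F} {D : Div K} {t : K} (h : LG M x D t) : LG M x (-D) t⁻¹ :=
  ⟨inv_ne_zero h.1, fun R hR => by rw [ord_inv, Int.cast_neg, h.2 R hR, Finsupp.neg_apply]⟩

theorem exists_nat {r : ℝ} (h : ∃ k : ℤ, r = k) (h0 : 0 ≤ r) : ∃ k : ℕ, (k : ℝ) = r := by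
  obtain ⟨k, rfl⟩ := h
  lift k to ℕ using by exact_mod_cast h0
  exact ⟨k, by simp⟩

namespace Hy

variable (H : Hy s T) (κ α : GX M P)

theorem sum_eta (c : JJ s T → ℕ) (Q : Place L) :
    ((∑ Y, c Y • (H.fr κ α).η Y : GS L) : Div L) Q = if h : Q ∈ JJ s T then (c ⟨Q, h⟩ : ℝ) else 0 := by
  have e : ∀ Y, ((c Y • (H.fr κ α).η Y : GS L) : Div L) Q = c Y * Finsupp.single (Y : Place L) 1 Q :=
    fun Y => by rw [AddSubgroup.coe_nsmul, Finsupp.smul_apply, nsmul_eq_mul]; rfl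
  rw [AddSubgroup.val_finset_sum, Finsupp.finset_sum_apply]
  simp only [e]
  split_ifs with h
  · rw [Finset.sum_eq_single ⟨Q, h⟩ (fun Y _ e => ?_) (by simp), Finsupp.single_eq_same, mul_one]
    rw [Finsupp.single_eq_of_ne fun k => e (Subtype.ext k.symm), mul_zero]
  · refine Finset.sum_eq_zero fun Y _ => ?_
    rw [Finsupp.single_eq_of_ne (by rintro rfl; exact h Y.2), mul_zero]

theorem strip (hok : (H.fr κ α).Ok) {f : L} {g : GS L} (hf : f ∈ S.H0 g) (h0 : f ≠ 0) :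
    ∃ (e : JJ s T → ℕ) (r : Wd S), (∀ Y, (e Y : ℝ) = (Y : Place L).ord f + (g : Div L) Y) ∧
      (H.fr κ α).Sec (g - ∑ Y, e Y • (H.fr κ α).η Y) r ∧ (H.fr κ α).Good r ∧
      fn (r * ∏ Y, (H.fr κ α).y Y ^ e Y) = f ∧
      ((dg (r * ∏ Y, (H.fr κ α).y Y ^ e Y)).toAdd : Div L) = g := by
  choose e he using fun Y : JJ s T => exists_nat (r := (Y : Place L).ord f + (g : Div L) Y)
    (let ⟨k, hk⟩ := g.2 Y; ⟨(Y : Place L).ord f + k, by rw [hk, Int.cast_add]⟩)
    (hf.resolve_left h0 Y (pr_JJ Y))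
  have h1 : ∀ Y : JJ s T, ((Y : Place L).ord f : ℝ) +
      ((g - ∑ Y, e Y • (H.fr κ α).η Y : GS L) : Div L) Y = 0 := fun Y => by
    rw [AddSubgroup.coe_sub, Finsupp.sub_apply, H.sum_eta, dif_pos Y.2, he]
    ring
  have h2 : f ∈ S.H0 (g - ∑ Y, e Y • (H.fr κ α).η Y : GS L) := Or.inr fun Q hQ => by
    by_cases h : Q ∈ JJ s T
    · exact (h1 ⟨Q, h⟩).ge
    · rw [AddSubgroup.coe_sub, Finsupp.sub_apply, H.sum_eta, dif_neg h, sub_zero]
      exact hf.resolve_left h0 Q hQ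
  refine ⟨e, ltr f _ h2, he, dg_ltr _ _ _, H.good_ltr κ α h2 h0 h1, ?_, ?_⟩
  · rw [map_mul, fn_ltr, map_prod, Finset.prod_eq_one fun Y _ => ?_, mul_one]
    rw [map_pow]
    exact (congrArg (· ^ e Y) (fn_ltr _ _ _)).trans (one_pow _)
  · have := hok.sec_mul _ _ _ _ (dg_ltr f _ h2) (hok.sec_ym e)
    rw [sub_add_cancel] at this
    exact congrArg (fun g => ((g.toAdd : GS L) : Div L)) this

end Hy

/-- **EXT34** -/
theorem ext34 (hL : ∀ n, LOC n) (hP : ∀ n, POS n) (hR : ∀ n, RST n) {n : ℕ} (hE : EXTK n) :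
    FI.EXT34 n := by
  intro N K _ _ M hM L' _ _ S P s T Big κ L β m u hS hsnc hPT hBig hdis hκ hLd hLi hL0 hβ hβi hβ0
    hm hs1 hs2 hA hu hu0 hθ
  have hP1 : M.Snc {P} := FI.snc_mono hsnc (by simp)
  have H : Hy s T := ⟨hL _ N K M hM, hL _ N L' S hS, hP _ N K M hM, hP _ N L' S hS,
    hR n N K M hM L' S P s hP1, hsnc, hPT⟩
  obtain ⟨g, g0, g1⟩ : ∃ g : K, g ≠ 0 ∧ M.div g P = -(κ P + 1) := by
    obtain ⟨π, h1, h2⟩ := exists_ord_eq_one P
    obtain ⟨k, hk⟩ := hκ.int H.lM P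
    exact ⟨π ^ (-(k + 1)), zpow_ne_zero _ h1, by
      rw [FI.div_apply H.lM _ (pr_sub s), ord_zpow, h2, hk]; simp⟩
  have hκ₀ := hκ.add_div H.lM g0
  let κ' : GX M P := ⟨κ + M.div g + Finsupp.single P 1, FI.dv_add hκ₀.dv
    (FI.dv_single (pr_sub s) 1), FI.IsInt.add (hκ₀.int H.lM) (FI.IsInt.single P), by simp [g1]⟩
  let L₁ : GX M P := ⟨L, hLd, hLi, hL0⟩
  let β₁ : GX M P := ⟨β, fun R hR => hsnc.1 R (mem_insert_of_mem _ (hβ hR)), hβi,
    Finsupp.notMem_support_iff.1 fun h => hPT (hβ h)⟩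
  let α : GX M P := L₁ - m • κ' - β₁
  have eα : (α : Div K) = L - (m : ℝ) • (κ + Finsupp.single P 1) - β + (-m : ℝ) • M.div g := by
    change L - m • (κ + M.div g + Finsupp.single P 1) - β = _
    module
  have hα : M.Amp α := eα ▸ FI.amp_div H.lM H.pM hA g0 _
  have hok := H.ok κ' α rfl hα fun A k D W c u =>
    hE N K M hM L' S P s _ A k D W c u hS hP1 hκ₀
  choose b hb using fun R : T => exists_nat (hβi R) (hβ0 R)
  have eβ : ∑ R, b R • (H.fr κ' α).σ R = β₁ := by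
    refine Subtype.ext ?_
    rw [AddSubgroup.val_finset_sum]
    change ∑ R : T, b R • Finsupp.single (R : Place K) (1 : ℝ) = β
    simp only [Finsupp.smul_single, nsmul_eq_mul, mul_one, hb]
    rw [Finset.sum_coe_sort T fun R => Finsupp.single R (β R)]
    exact (Finsupp.sum_of_support_subset β hβ _ (by simp)).symm.trans β.sum_single
  have eL : (H.fr κ' α).deg m b = L₁ := by
    rw [Fr.deg, eβ]
    change m • κ' + (L₁ - m • κ' - β₁) + β₁ = L₁
    abel
  have eb : ∀ Y : JJ s T, s.rs β Y = b ((H.fr κ' α).par Y) := fun Y => by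
    have h1 := (hok.ext_ym b).1
    rw [eβ, show dg _ = _ from hok.sec_ym _] at h1
    rw [← show _ = s.rs β from h1, toAdd_ofAdd, H.sum_eta, dif_pos Y.2]
  obtain ⟨e, t, t1, t2, -, t3, -⟩ := H.strip κ' α hok (g := (H.fr κ' α).ρ L₁) hu hu0
  have es : ((∑ R ∈ (Finset.univ : Finset T) with ¬ R.1 ∈ Big, b R : ℕ) : ℝ) = ∑ R ∈ T \ Big, β R := by
    rw [Nat.cast_sum, Finset.sum_filter, Finset.sdiff_eq_filter, Finset.sum_filter,
      ← Finset.sum_coe_sort T]
    simp only [hb]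
  suffices hT : (H.fr κ' α).Ext ((H.fr κ' α).deg m b) (t * ∏ Y, (H.fr κ' α).y Y ^ e Y) by
    rw [eL] at hT
    exact t3 ▸ hT.2
  refine hok.t34 m b e t hm ?_ (eL ▸ t2) fun ζ hζ => ?_
  · obtain ⟨U, h1, h2⟩ := dec (G := fun U => ∀ y,
        {Y | (H.fr κ' α).par Y ∈ U ∧ (H.fr κ' α).On y Y}.Subsingleton)
      (fun R : T => (R : Place K) ∈ Big)
      (fun R y Y hY Y' hY' => (H.on_par κ' α hY'.2).2 Y hY.2
        ((Finset.mem_singleton.1 hY.1).trans (Finset.mem_singleton.1 hY'.1).symm))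
      (fun U hU y Y hY Y' hY' => (H.on_par κ' α hY'.2).2 Y hY.2 (Subtype.ext
        (hdis _ _ (hU _ hY.1) _ (hU _ hY'.1) (H.on_par κ' α hY.2).1 (H.on_par κ' α hY'.2).1)))
      (m := m) (b := b) (by rw [← Nat.cast_le (α := ℝ), es]; exact hs1)
      (fun R hR => by rw [← Nat.cast_le (α := ℝ), Nat.cast_add, es, hb]; exact hs2 R hR)
    exact ⟨1, U, le_rfl, by simpa using h1, h2⟩
  obtain ⟨q, D, θ, q0, d1, d2, d3, d4, d5, d6, d7⟩ := hθ ζ hζ
  let D₁ : GX M P := ⟨D, d1, d2, d3⟩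
  let G : GX M P := q • (m • L₁ + α) - m • D₁
  have m0 : (0 : ℝ) < m := by exact_mod_cast hm
  have hG : M.Amp G := by
    refine Eq.mp (congrArg M.Amp ?_) (H.pM.smul _ _ m0 (FI.amp_div H.lM H.pM d6 g0 (-q)))
    change _ = q • (m • L + (α : Div K)) - m • D
    rw [eα]
    match_scalars <;> field_simp <;> ring
  obtain ⟨k, hk⟩ := H.pM.gg G 0 hG G.2.2.1 FI.IsInt.zero
  choose y hy using fun Y : JJ s T => pr_JJ Y
  obtain ⟨y₀, hy₀⟩ := S.conn.nonempty
  obtain ⟨φ, f1, f2⟩ := free_fin (D := ((k + 1) • G : GX M P)) H.lM ((k + 1) • G).2.2.1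
    (insert (pt s ⟨y₀, hy₀⟩) (Finset.univ.image fun Y => pt s (y Y))) fun x => by
      have := hk (k + 1) k.le_succ x
      rwa [zero_add, Nat.cast_smul_eq_nsmul] at this
  have f3 : ∀ z : S.F, LG M (pt s z) ((k + 1) • G : GX M P) φ⁻¹ →
      LG S z (-(H.fr κ' α).ρ ((k + 1) • G) : GS L') (s.res φ) := fun z h => by
    rw [← map_neg]
    have := h.inv.res H.lM H.lS H.rst (-((k + 1) • G)).2.2.2
    rwa [inv_inv] at this
  have f4 := (f3 _ (f2 _ (Finset.mem_insert_self _ _))).1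
  have e1 : ((k + 1) * q) • (m • L₁ + α) = (m * (k + 1)) • D₁ + (k + 1) • G := by
    change _ = _ + (k + 1) • (q • (m • L₁ + α) - m • D₁)
    module
  have r1 := FI.mem_ring_of_H0 d4 (pr_sub s) d3
  have f5 : θ ^ (m * (k + 1)) * φ ∈ M.H0 (((k + 1) * q) • (m • L₁ + α) : GX M P) := by
    rw [e1]
    exact (FI.fam_H0 M).mul ((FI.fam_H0 M).pow d4 _) f1
  have f6 : s.res (θ ^ (m * (k + 1)) * φ) = s.res θ ^ (m * (k + 1)) * s.res φ := by
    rw [s.res_mul _ (pow_mem r1 _) _ (FI.mem_ring_of_H0 f1 (pr_sub s) ((k + 1) • G).2.2.2),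
      res_pow r1]
  obtain ⟨v, τ, v1, v2, v3, v4, v5⟩ := H.strip κ' α hok
    (g := (H.fr κ' α).ρ (((k + 1) * q) • (m • L₁ + α)))
    (H.rst.sec _ (((k + 1) * q) • (m • L₁ + α)).2.2.2 _ f5)
    (f6 ▸ mul_ne_zero (pow_ne_zero _ d5) f4)
  refine ⟨(k + 1) * q, v, τ, _, Nat.mul_pos k.succ_pos q0, v2, v3, ?_, fun Y => ?_⟩
  · rw [eL]
    exact ⟨v5, _, f5, v4.symm⟩
  · have h1 := (f3 _ (f2 _ (Finset.mem_insert_of_mem
      (Finset.mem_image_of_mem _ (Finset.mem_univ Y))))).2 Y (hy Y)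
    have h2 : (v Y : ℝ) = (m * (k + 1) : ℕ) * ((Y : Place L').ord (s.res θ) + s.rs D Y) := by
      rw [v1, f6, ord_mul _ (pow_ne_zero _ d5) f4, ord_pow, e1, map_add, map_nsmul _ _ D₁,
        Int.cast_add, h1, AddSubgroup.coe_add, AddSubgroup.coe_neg, AddSubgroup.coe_nsmul,
        Finsupp.add_apply, Finsupp.neg_apply, Finsupp.smul_apply, nsmul_eq_mul]
      change _ + (_ * s.rs D Y + _) = _
      push_cast
      ring
    have h3 := mul_le_mul_of_nonneg_left (d7 Y (pr_JJ Y)) (Nat.cast_nonneg (m * (k + 1)))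
    rw [mul_min_of_nonneg _ _ (Nat.cast_nonneg _), ← h2, eb] at h3
    rw [Nat.cast_min, t1]
    refine (le_of_eq ?_).trans (h3.trans (le_of_eq ?_))
    · congr 1
      push_cast
      ring
    · change _ = _ * (_ + s.rs L Y + _)
      push_cast
      ring

end Vale.Agent.P277Z.Lift
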