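import Vale.Agent.P277Z.Lift.ExtF
import Vale.Agent.P277Z.Sub.Defs

/-!
# P277Z, lifting: high powers of a positive line bundle; extension from smooth hypersurfaces
-/

set_option linter.unusedSectionVars false

open scoped Manifold ContDiff Topology ENNReal ComplexOrder
open Set Filter
open Vale.Agent.P272.K Vale.Agent.P301.H599 Vale.Agent.P285Z
open Vale.Agent.P285.H281.FD (Bd)
open TopologicalSpace (Opens)

noncomputable section

namespace Vale.Agent.P277Z.Lift

open Van Ps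

namespace XF

variable {d : ℕ} {X : Type} [TopologicalSpace X] [ChartedSpace (Cm d) X]
  [IsManifold 𝓘(ℂ, Cm d) ω X]

theorem spsh_chart {u : X → ℝ} {e : Chart d X} {x : X} (he : At e x)
    (h1 : ContDiffAt ℝ ∞ (fun z => u (e.symm z)) (e x))
    (h2 : (cHess (fun z => u (e.symm z)) (e x)).PosDef) : Spsh d u x := by
  have h3 : SmOn (d := d) {x} u := fun e' y hy h => by
    obtain rfl : y = x := h
    refine (ContDiffAt.comp (e' y) (g := fun z => u (e.symm z)) (by rwa [hy.left_inv])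
      (((transition hy he).restrict_scalars ℝ).of_le le_top)).congr_of_eventuallyEq ?_
    filter_upwards [hy.nhds_at he] with z hz
    exact congrArg u hz.2.2.left_inv.symm
  refine fun e' he' => ⟨h3 e' x he' rfl, ?_⟩
  have h4 := posDef_form h2 (isUnit_iff_ne_zero.2 (jacM_det_ne_zero he' he))
  exact (congrArg Matrix.PosDef (ddc_change h3 he' he rfl)).mpr h4

theorem spsh_ext {O : Opens X} {u : X → ℝ} {x : O} (h : Spsh d (fun y : O => u y.1) x) :
    Spsh d u x.1 := by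
  obtain ⟨e', h1, h2, h3⟩ := chart_fn (atChart (d := d) x)
  obtain ⟨h4, h5⟩ := h _ (atChart x)
  rw [h2] at h4 h5
  exact spsh_chart h1 (h4.congr_of_eventuallyEq (h3 _ u)) (C2.cHess_congr (h3 _ u) ▸ h5)

theorem fderiv_near {a : X → ℂ} {e : Chart d X} {x : X} (he : At e x) (ha : Hol d a x)
    (h : fderiv ℂ (fun z => a (e.symm z)) (e x) ≠ 0) : ∀ᶠ y in 𝓝 x, ∀ e' : Chart d X, At e' y →
      fderiv ℂ (fun z => a (e'.symm z)) (e' y) ≠ 0 := by
  filter_upwards [(e.continuousAt he.2).eventually ((ha e he).fderiv.continuousAt.eventually_ne h),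
    e.open_source.mem_nhds he.2, ha.near] with y h1 h2 h3 e' he' h4
  have h5 : At e y := ⟨he.1, h2⟩
  have h6 : (fun z => a (e.symm z)) =ᶠ[𝓝 (e y)]
      (fun z => a (e'.symm z)) ∘ fun z => e' (e.symm z) := by
    filter_upwards [h5.nhds_at he'] with z hz
    exact congrArg a hz.2.2.left_inv.symm
  refine h1 ?_
  rw [h6.fderiv_eq, fderiv_comp _ (by rw [h5.left_inv]; exact (h3 e' he').differentiableAt)
    (transition h5 he').analyticAt.differentiableAt, h5.left_inv, h4,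
    ContinuousLinearMap.zero_comp]

variable {N : ℕ} {G : Geo d N}

/-- high powers of a positive line bundle dominate -/
theorem pos_pow {A : Bd G.W} (hA : G.PosB A) {m : ℕ} {E : Fin m → Bd G.W} (hE : ∀ j, G.LB (E j))
    (c : Fin m → ℝ) : ∃ n₀ : ℕ, ∀ n, n₀ ≤ n → ∃ Λ, ∀ᶠ z in 𝓝ˢ G.F, PosAt d (A.pow n) E c Λ z := by
  obtain ⟨ψ, hA, hψ, hc⟩ := hA
  obtain ⟨O, b, hFO, hO, h0, h1, h2, h3⟩ := exists_nb G ((LB_near hA).and
    (eventually_all.2 fun j => LB_near (hE j)))
  have := sigmaCompact O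
  set A' := resL hA O fun y hy => (hO hy).1
  set E' := fun j => resL (hE j) O fun y hy => (hO hy).2 j
  have hA' : IsMetric A' fun i y => ψ i y.1 :=
    ⟨fun i e x he hi => (spsh_res (hψ i x.1 hi) e he).1, fun i j x hi hj => hc i j x.1 hi hj⟩
  have hp : PDOn univ (curvature A' fun i y => ψ i y.1) := fun e x he _ => by
    obtain ⟨i, hi⟩ := A'.cover x
    rw [curvature_eq hA' he hi]
    exact (spsh_res (hψ i x.1 hi) e he).2
  choose ρ hρ using fun j => exists_isMetric (E' j)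
  obtain ⟨C, -, hC⟩ := cmp (cform_curv hA') (CForm.sum Finset.univ fun j =>
    (cform_curv (hρ j)).smul (c j)) h3 (hp.mono (subset_univ _))
  obtain ⟨n₀, hn⟩ := exists_nat_gt C
  have ex : ∀ j i (y : O), Function.extend Subtype.val (ρ j i) 0 y.1 = ρ j i y :=
    fun j i y => Subtype.val_injective.extend_apply _ _ _
  have ho : IsOpen (Subtype.val '' {y : O | y ∈ univ ∧ ∑ i, ‖G.π y i‖ ^ 2 < b}) :=
    O.isOpen.isOpenMap_subtype_val _ (Pos.JoAux.isOpen_sub (d := d)
      (t := fun y : O => ∑ i, ‖G.π y i‖ ^ 2) isOpen_univ (fun y _ => psdAt_sq fun i => hol_res (h1 y y.2 i)) b)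
  refine ⟨n₀, fun n hn' => ⟨fun i k y => n * ψ i y -
    ∑ j, c j * Function.extend Subtype.val (ρ j (k j)) 0 y, ?_⟩⟩
  filter_upwards [ho.mem_nhdsSet.2 fun y hy => ⟨⟨y, hFO hy⟩,
    by simp [(h2 y (hFO hy)).2 hy, h0], rfl⟩] with z hz
  refine ⟨?_, fun i i' k k' a1 a2 a3 a4 => ?_⟩
  · obtain ⟨x, -, rfl⟩ := id hz
    obtain ⟨i, hi⟩ := A'.cover x
    choose k hk using fun j => (E' j).cover x
    refine ⟨i, k, hi, hk, ?_⟩
    filter_upwards [ho.mem_nhds hz, (hA.isOpen i).mem_nhds hi,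
      eventually_all.2 fun j => ((hE j).isOpen _).mem_nhds (hk j)]
    rintro _ ⟨y, hy, rfl⟩ a1 a2
    refine spsh_ext fun e he => ?_
    have s1 : SmOn (d := d) {y} fun y : O => ψ i y.1 := fun e z hz h => hA'.smooth i e z hz (h ▸ a1)
    have s2 : ∀ j, SmOn (d := d) {y} (ρ j (k j)) :=
      fun j e z hz h => (hρ j).smooth _ e z hz (h ▸ a2 j)
    have s3 : ∀ j ∈ Finset.univ, SmOn (d := d) {y} fun z => c j * ρ j (k j) z :=
      fun j _ => (smOn_const _ _).mul (s2 j)
    have s4 := (smOn_const (d := d) {y} (n : ℝ)).mul s1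
    simp only [ex]
    refine ⟨s4.sub (smOn_sum _ s3) e y he rfl, ?_⟩
    have e1 := ddc_sub_on s4 (smOn_sum _ s3) he rfl
    rw [ddc_mul_on _ s1 he rfl, ddc_sum_on _ s3 he rfl, ← curvature_eq hA' he a1,
      Finset.sum_congr rfl fun j _ => (ddc_mul_on (c j) (s2 j) he rfl).trans
        (congrArg _ (curvature_eq (hρ j) he (a2 j)).symm)] at e1
    refine (congrArg Matrix.PosDef e1).mpr ?_
    have p := ((hp e y he trivial).smul (Complex.zero_lt_real.2 (sub_pos.2 (hn.trans_le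
      (Nat.cast_le.2 hn'))))).add_posSemidef (hC e y he hy.2.le)
    rwa [← add_sub_assoc, ← add_smul, ← Complex.ofReal_add, sub_add_cancel] at p
  · obtain ⟨x, -, rfl⟩ := hz
    simp only [ex]
    rw [hc i i' _ a1 a2, Finset.sum_congr rfl fun j _ =>
      congrArg (c j * ·) ((hρ j).change _ _ x (a3 j) (a4 j)),
      show (A.pow n).g i i' x.1 = A.g i i' x.1 ^ n from rfl, norm_pow, ← pow_mul, mul_comm n 2,
      pow_mul, Real.log_pow _ n]
    simp only [mul_add, Finset.sum_add_distrib]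
    show _ - (_ + ∑ j, c j * Real.log (‖(E j).g (k j) (k' j) x.1‖ ^ 2)) = _
    ring

end XF

open XF

/-- **EXS** -/
theorem exs : EXS := by
  intro d N G A L σ hA hL hσ hs
  obtain ⟨n₀, hn⟩ := pos_pow hA (E := fam d L Fin.elim0)
    (Fin.cases (lb_can G) (Fin.cases hL fun j => j.elim0)) (cf Fin.elim0)
  refine ⟨n₀, fun n h u h1 h2 => ?_⟩
  obtain ⟨Λ, hΛ⟩ := hn n h
  have hA' := hA.choose_spec.1
  refine extf d N G ⟨A, hA⟩ (A.pow n) L 0 Fin.elim0 Fin.elim0 Fin.elim0 σ (fun j => j.elim0) Λ u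
    (LB_pow hA' n) hL (fun j => j.elim0) (fun j => j.elim0) hσ (fun j => j.elim0) hΛ
    (eventually_nhdsSet_iff_forall.2 fun x hx => ?_)
  obtain ⟨l, hl⟩ := hL.cover x hx
  have a1 := (hL.isOpen l).mem_nhds hl
  have a2 := hσ.filter_mono (nhds_le_nhdsSet hx)
  have a3 := (a2.self_of_nhds l hl).1
  by_cases h0 : σ l x = 0
  · obtain ⟨i, hi⟩ := hA'.cover x hx
    obtain ⟨f, b1, b2⟩ := h1 x hx i hi
    filter_upwards [a1, a3.near, fderiv_near (atChart x) a3 (hs x hx l hl h0 _ (atChart x)), b1.near,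
      (hA'.isOpen i).mem_nhds hi, (b2.and ((h2.filter_mono (nhds_le_nhdsSet hx)).and
        (((hL.isOpen l).eventually_mem hl).and
          ((hA'.isOpen i).eventually_mem hi)))).eventually_nhds] with z c1 c2 c3 c4 c5 c6
    refine ⟨l, c1, fun _ => ⟨c3, fun t ht => ⟨i, fun j => j.elim0, f, c5, fun j => j.elim0, c4,
      c6.mono fun y e1 e2 i' e3 => ?_, ?_⟩⟩⟩
    · rw [e1.2.1 i' i l e3 e1.2.2.2 e1.2.2.1 e2, e1.1 l e1.2.2.1 e2]
      rfl
    · obtain ⟨C, hC, e1⟩ := nq_le (Lo.hol_cont c4) (t := 1) (Or.inl zero_le_one)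
      refine LIM.mono (g := fun y => ENNReal.ofReal (‖σ l y‖ ^ 2) ^ (-t))
        (skl d _ _ (c2 _ (atChart z)) (c3 _ (atChart z)) t ht) hC (e1.mono fun y hy => ?_)
      rw [wt, Finset.univ_eq_empty, Finset.prod_empty, mul_one]
      exact mul_le_mul_left (by simpa using hy) _
  · filter_upwards [a1, Lo.hol_ne a3 h0] with z c1 c2 using ⟨l, c1, fun h => (c2 h).elim⟩

end Vale.Agent.P277Z.Lift
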