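import Vale.Agent.P277Z.Lift.ExtK1

/-!
# P277Z, lifting: the extension theorem in the language of models
-/

set_option linter.unusedSectionVars false

open scoped Manifold ContDiff Topology ENNReal
open Set Filter MeasureTheory
open Vale.Agent.P272.K (Cm Chart At cHess)
open Vale.Agent.P277Z.Val (LocIso Crd AnM crd_chart)
open Vale.Agent.P297 (Place)
open Vale.Agent.P297Z.Pl
open Vale.Agent.P285.H281.FD (Bd)

noncomputable section

namespace Vale.Agent.P277Z.Lift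

open Lb hiding eqD
open FI hiding pt

variable {n N : ℕ} {K L : Type} [Field K] [Algebra ℂ K] [Field L] [Algebra ℂ L] {S : Mdl n N L}
  {M : Mdl (n + 1) N K} {P : Place K} {s : Sub S M P}

theorem sig_loc (hL : Loc M) {B : Bd M.W} {σ τ : B.ι → M.W → ℂ}
    (h : M.Rep B (Finsupp.single P 1) σ) (h1 : M.Sec B τ) (h2 : M.Mul σ 1 τ) {x : M.F} {l : B.ι}
    (hl : (x : M.W) ∈ B.U l) {t : K} (ht : M.Gn x P t) : ∃ v : M.W → ℂ, Hol (n + 1) v x ∧ v x ≠ 0 ∧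
      ∀ᶠ z in 𝓝 (x : M.W), τ l z = v z * M.val t z := by
  obtain ⟨T, v, k1, k2, k3, k4⟩ := rep_loc h x hl
  have t0 := gn_ne ht
  obtain ⟨k5, k6⟩ := unit_of hL (div_ne_zero k1.1 t0) (x := x) fun Q hQ => by
    have := k1.2 Q hQ
    rw [ord_div Q k1.1 t0, sub_eq_zero]
    by_cases e : Q = P
    · subst e
      rw [Finsupp.single_eq_same] at this
      rw [ht.ord]
      exact_mod_cast this
    · rw [Finsupp.single_eq_of_ne e] at this
      rw [hL.other x P Q t ht hQ e]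
      exact_mod_cast this
  refine ⟨fun z => v z * M.val (T / t) z, k2.mul k5, mul_ne_zero k3 k6, ?_⟩
  filter_upwards [(mul_loc hL (one_mem_single P) h1 h2 hl k1 k2 k4).2, M.nhds_mul k5 ht.mem]
    with z e1 e2
  rw [e1, mul_assoc, ← e2, one_mul, div_mul_cancel₀ _ t0]

theorem ext_at (hL : Loc M) (hS : Loc S) (hR : Rst s) (hP : M.Snc {P}) {C B : Bd M.W} {k : ℕ}
    {E : Fin k → Bd M.W} {D : Div K} {D' : Fin k → Div K} {σC : C.ι → M.W → ℂ}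
    {σB τ : B.ι → M.W → ℂ} {σE : ∀ j, (E j).ι → M.W → ℂ} (hC : M.Rep C D σC)
    (hB : M.Rep B (Finsupp.single P 1) σB) (hE : ∀ j, M.Rep (E j) (D' j) (σE j)) (hτ : M.Sec B τ)
    (hτ' : M.Mul σB 1 τ) {r : Fin k → ℕ} {w : ∀ j, Fin (r j) → K}
    {ϖ : ∀ j, Fin (r j) → (E j).ι → M.W → ℂ}
    (hw : ∀ j a, w j a ∈ M.H0 (D' j) ∧ M.Sec (E j) (ϖ j a) ∧ M.Mul (σE j) (w j a) (ϖ j a))
    {c : Fin k → ℝ} (hc : ∀ j, 0 ≤ c j) (hD : D P = 0) {U : K} (hU : U ∈ P.ring)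
    (hu : s.res U ∈ S.H0 (s.rs D))
    (hi : ∀ (y : S.F) (t₀ : K) (t : Fin k → K), LG M (pt s y) D t₀ →
      (∀ j, LG M (pt s y) (D' j) (t j)) → LIM n (fun z =>
        ENNReal.ofReal (‖S.val (s.res U * s.res t₀) z‖ ^ 2) *
          wt (fun j a z => S.val (s.res (w j a * t j)) z) c z) (y : S.W)) (x : M.F) :
    ∀ᶠ z in 𝓝 (x : M.W), ExtAt (n + 1) C B E c τ ϖ (uS s U σC) z := by
  obtain ⟨l, hl⟩ := hB.lb.cover x x.2
  have l1 := (hB.lb.isOpen l).mem_nhds hl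
  by_cases hx : M.On x P
  swap
  · have h1 := (lbd_nz M hL B _ σB 1 τ x l hB hτ hτ' hl).2 ⟨one_ne_zero, fun Q hQ => by
      rw [Finsupp.single_eq_of_ne (by rintro rfl; exact hx hQ)]
      simp⟩
    filter_upwards [l1, ((hτ.filter_mono (nhds_le_nhdsSet x.2)).self_of_nhds l hl).1.ne_near h1]
      with z e1 e2 using ⟨l, e1, fun h => (e2 h).elim⟩
  obtain ⟨y, hy, e⟩ := (s.on x).1 hx
  obtain rfl : x = pt s ⟨y, hy⟩ := Subtype.ext e.symm
  lift y to S.F using hy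
  have hι : ContinuousAt s.ι y := s.cont.continuousAt
  obtain ⟨t, q, ξ, q', χ, ht, h1, h2, h3, h4⟩ := exists_crd (s := s) hP y
  obtain ⟨vB, b1, b2, b3⟩ := sig_loc hL hB hτ hτ' hl ht
  obtain ⟨i₀, i1⟩ := hC.lb.cover _ (pt s y).2
  obtain ⟨T, v, c1, c2, c3, c4⟩ := rep_loc hC (pt s y) i1
  choose κ k1 using fun j => (hE j).lb.cover _ (pt s y).2
  choose T' v' d1 d2 d3 d4 using fun j => rep_loc (hE j) (pt s y) (k1 j)
  have m1 := fun j a => mul_loc hL (hw j a).1 (hw j a).2.1 (hw j a).2.2 (k1 j) (d1 j) (d2 j) (d4 j)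
  have ha := (c1.res hL hS hR hD).mem hS hu
  have h5 : LIM n (fun z => ENNReal.ofReal (‖v (s.ι z) * S.val (s.res U * s.res T) z‖ ^ 2) *
      wt (fun j a => ϖ j a (κ j)) c (s.ι z)) (y : S.W) := by
    refine ((hi y T T' c1 d1).cmul (g := fun z => ENNReal.ofReal (‖v (s.ι z)‖ ^ 2) ^ (1 : ℝ) *
      ∏ j, ENNReal.ofReal (‖v' j (s.ι z)‖ ^ 2) ^ (-c j)) ?_ ?_).congr ?_
    · refine ENNReal.Tendsto.mul (nq_cont (c2.cont.comp (f := s.ι) hι) 1) (Or.inr ?_)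
        (ENNReal.tendsto_finsetProd_of_ne_top _
          (fun j _ => nq_cont ((d2 j).cont.comp (f := s.ι) hι) _) fun j _ => nq_ne_top (d3 j) _) (Or.inr (nq_ne_top c3 1))
      exact ENNReal.prod_ne_top fun j _ => nq_ne_top (d3 j) _
    · exact ENNReal.mul_ne_top (nq_ne_top c3 1) (ENNReal.prod_ne_top fun j _ => nq_ne_top (d3 j) _)
    filter_upwards [eventually_all.2 fun j => eventually_all.2 fun a =>
      (hι.eventually (m1 j a).2).and (s.val y _ ((d1 j).mem hL (hw j a).1))] with z hz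
    have h6 := wt_unit (fun j => v' j (s.ι z)) (fun j a z => S.val (s.res (w j a * T' j)) z) c z
      (b' := fun j a z => ϖ j a (κ j) (s.ι z)) fun j a => by rw [(hz j a).1, (hz j a).2]
    rw [show wt (fun j a => ϖ j a (κ j)) c (s.ι z) = _ from h6, ENNReal.rpow_one, norm_mul, mul_pow,
      ENNReal.ofReal_mul (sq_nonneg _)]
    ring
  filter_upwards [loc_ext hι h1 h2 h4 (Hol.mul (s.hol y y.2 v c2) ha) (fun j a => (m1 j a).1) hc h5
    (uS_eq hC hU (c1.ring hD) y i1 c2 c4 ha), b3.eventually_nhds, b1.near, b1.ne_near b2,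
    h1.eventually, l1, (hC.lb.isOpen i₀).mem_nhds i1,
    eventually_all.2 fun j => ((hE j).lb.isOpen _).mem_nhds (k1 j)] with z e1 e2 e3 e4 e5 e6 e7 e8
  simp only [← h3] at e2
  refine ⟨l, e6, fun h0 => ?_⟩
  have h6 : q z 0 = 0 := (mul_eq_zero.1 (e2.self_of_nhds.symm.trans h0)).resolve_left e4
  refine ⟨fun e he => ?_, fun t ht => ?_⟩
  · rw [EventuallyEq.fderiv_eq (f := fun w => vB (e.symm w) * q (e.symm w) 0)
      ((Lo.tendsto_symm he).eventually e2), fderiv_fun_mul (e3 e he).differentiableAt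
      (d := fun w => q (e.symm w) 0) (e5.hol 0 e he).differentiableAt, e.left_inv he.2, h6]
    refine fun h7 => crd_fderiv e5 0 he (ContinuousLinearMap.ext fun v => ?_)
    simpa [e4] using congrArg (fun A : Cm (n + 1) →L[ℂ] ℂ => A v) h7
  obtain ⟨V, f1, f2, f3⟩ := e1 h6 t ht
  refine ⟨i₀, κ, V, e7, e8, f1, ?_, (f3.cmul (nq_cont e3.cont (-t)) (nq_ne_top e4 _)).congr ?_⟩
  · filter_upwards [f2, e2, e3.ne_near e4] with z' g1 g2 g3 g4 i g5
    obtain ⟨y', rfl, g6, g7⟩ := g1 ((mul_eq_zero.1 (g2.symm.trans g4)).resolve_left g3)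
    rw [g6 i g5, g7]
  · filter_upwards [e2] with z' g1
    rw [g1, nq_mul]
    ring

theorem res_eq (hL : Loc M) (hS : Loc S) (hR : Rst s) (hP : M.Snc {P}) {C B : Bd M.W} {D : Div K}
    {σC F : C.ι → M.W → ℂ} {σB τ : B.ι → M.W → ℂ} (hC : M.Rep C D σC)
    (hB : M.Rep B (Finsupp.single P 1) σB) (hτ : M.Sec B τ) (hτ' : M.Mul σB 1 τ) (hD : D P = 0)
    {U f : K} (hU : U ∈ P.ring) (hu : s.res U ∈ S.H0 (s.rs D)) (hf : f ∈ M.H0 D) (hF : M.Sec C F)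
    (hF' : M.Mul σC f F) (h : ∀ᶠ z in 𝓝ˢ M.F, ∀ i l, z ∈ C.U i → z ∈ B.U l → τ l z = 0 →
      F i z = uS s U σC i z) : s.res f = s.res U := by
  obtain ⟨y, hy⟩ := S.conn.nonempty
  lift y to S.F using hy
  have hι : ContinuousAt s.ι y := s.cont.continuousAt
  obtain ⟨l, hl⟩ := hB.lb.cover _ (pt s y).2
  obtain ⟨t, q, ξ, q', χ, ht, -, -, h3, h4⟩ := exists_crd (s := s) hP y
  obtain ⟨vB, -, -, b3⟩ := sig_loc hL hB hτ hτ' hl ht
  obtain ⟨i, i1⟩ := hC.lb.cover _ (pt s y).2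
  obtain ⟨T, v, c1, c2, c3, c4⟩ := rep_loc hC (pt s y) i1
  have h5 := c1.res hL hS hR hD
  refine mul_right_cancel₀ h5.1 (S.eq_of_val y (gen_of_nhds ?_))
  filter_upwards [uS_eq hC hU (c1.ring hD) y i1 c2 c4 (h5.mem hS hu), h4, hι.eventually b3,
    hι.eventually (h.filter_mono (nhds_le_nhdsSet (pt s y).2)),
    hι.eventually (mul_loc hL hf hF hF' i1 c1 c2 c4).2, s.val y _ (c1.mem hL hf),
    hι.eventually ((hC.lb.isOpen i).mem_nhds i1), hι.eventually ((hB.lb.isOpen l).mem_nhds hl),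
    hι.eventually (c2.ne_near c3)] with z e1 e2 e3 e4 e5 e6 e7 e8 e9
  have h6 := e4 i l e7 e8 (by rw [e3, ← h3, e2, Fin.cons_zero, mul_zero])
  have h7 : C.g i i (s.ι z) = 1 := mul_left_cancel₀ (hC.lb.ne_zero i i _ e7 e7)
    (by rw [hC.lb.cocycle i i i _ e7 e7 e7, mul_one])
  rw [e5, e1 i e7, h7, one_mul, ← e6,
    s.res_mul f (mem_ring_of_H0 hf ⟨_, on_pt s y⟩ hD) T (c1.ring hD)] at h6
  exact mul_left_cancel₀ e9 h6

/-- **EXTK** -/
theorem extk_of (h1 : EXTF) (h2 : MET (n + 1)) (h3 : LOC (n + 1)) (h4 : LOC n) (h5 : POS (n + 1))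
    (h6 : RST n) : EXTK n := by
  intro N K _ _ M hM L _ _ S P s κ D k D' W c u hS hP ⟨g, κ₀, f₀, f0, hκ, e⟩ _ hD D0 hE hA hu hi
  have hL := h3 N K M hM
  have hR := h6 N K M hM L S P s hP
  obtain ⟨U, hU, rfl⟩ := s.res_surj u
  obtain ⟨C, σC, hC⟩ := lbd_ex hL D hD
  obtain ⟨B, σB, hB⟩ := lbd_ex hL _ (IsInt.single P)
  choose E σE hE' using fun j => lbd_ex hL _ (hE j).2.1
  obtain ⟨τ, t1, t2⟩ := lbd_sec M hL B _ σB 1 hB (one_mem_single P)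
  have hw := fun j (a : Fin (W j).card) => (hE j).2.2.2.2 _ ((W j).equivFin.symm a).2
  choose ϖ p1 p2 using fun j a => lbd_sec M hL _ _ _ _ (hE' j) (hw j a)
  have h7 : ∀ j, ∃ σ, M.Rep (fam (n + 1) B E j)
      ((Fin.cons κ₀ (Fin.cons (Finsupp.single P 1) D') : Fin (k + 2) → Div K) j) σ :=
    Fin.cases ⟨_, lbd_can M hL g κ₀ hκ⟩ (Fin.cases ⟨σB, hB⟩ fun j => ⟨σE j, hE' j⟩)
  choose σ h7 using h7
  obtain ⟨Λ, hΛ⟩ := h2 N K M hL C D σC _ _ _ σ (cf c) hC h7 (by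
    refine Eq.mp (congrArg M.Amp ?_) ((h5 N K M hM).div _ f₀ f0 hA)
    simp only [Fin.sum_univ_succ, cf, Fin.cons_zero, Fin.cons_succ, one_smul, e]
    abel)
  have h8 : ∀ j (F : K → ℂ), ENNReal.ofReal (∑ a, ‖F ((W j).equivFin.symm a)‖ ^ 2) =
      ∑ w ∈ W j, ENNReal.ofReal (‖F w‖ ^ 2) := fun j F => by
    rw [ENNReal.ofReal_sum_of_nonneg fun _ _ => sq_nonneg _, ← Finset.sum_coe_sort (W j),
      ← (W j).equivFin.symm.sum_comp]
  obtain ⟨F, F1, F2⟩ := h1 _ N M.toGeo hM C B k E c _ τ ϖ Λ (uS s U σC) hC.lb hB.lb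
    (fun j => (hE' j).lb) (fun j => (hE j).2.2.2.1) t1 p1 hΛ
    (eventually_nhdsSet_iff_forall.2 fun x hx => ext_at hL (h4 N L S hS) hR hP hC hB hE' t1 t2
      (fun j a => ⟨hw j a, p1 j a, p2 j a⟩) (fun j => (hE j).2.2.2.1) D0 hU hu
      (fun y t₀ t k1 k2 => LI.congr (hi y t₀ t k1 k2 _ (at_chart _)) (.of_forall fun z =>
        congrArg _ (Finset.prod_congr rfl fun j _ => congrArg (· ^ (-c j))
          (h8 j fun w => S.val (s.res (w * t j)) _)))) ⟨x, hx⟩)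
  obtain ⟨f, f1, f2⟩ := lbd_fn M C D σC F hC F1
  exact ⟨f, f1, res_eq hL (h4 N L S hS) hR hP hC hB t1 t2 D0 hU hu f1 F1 f2 F2⟩

end Vale.Agent.P277Z.Lift
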