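import Vale.Agent.P277Z.Lift.AmpB
import Vale.Agent.P277Z.Lift.FDefs

/-!
# P277Z, lifting: ample classes have metrics of positive curvature
-/

open scoped Manifold ContDiff
open Filter Topology Set
open Vale.Agent.P272.K
open Vale.Agent.P285.H281.FD (Bd)

noncomputable section

namespace Vale.Agent.P277Z.Lift

theorem metK (n : ℕ) : MET n := by
  intro N K _ _ M hL B D s m E D' s' c h h' ⟨G, hG⟩
  refine ⟨fun i k y => limUnder (gen {y}) fun z => Real.log (‖s i z‖ ^ 2) -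
    ∑ j, c j * Real.log (‖s' j (k j) z‖ ^ 2) - G z, eventually_nhdsSet_iff_forall.2 fun x hx => ?_⟩
  obtain ⟨φ, h1, h2⟩ := hG ⟨x, hx⟩
  obtain ⟨i₀, hi⟩ := h.lb.cover x hx
  choose k₀ hk using fun j => (h' j).lb.cover x hx
  obtain ⟨w, w1, w2, w3⟩ := rep_log hL h ⟨x, hx⟩ hi
  choose v v1 v2 v3 using fun j => rep_log hL (h' j) ⟨x, hx⟩ (hk j)
  set ψ : M.W → ℝ := fun z => ∑ j, -c j * Real.log (‖v j z‖ ^ 2) + (1 * Real.log (‖w z‖ ^ 2) + φ z)
    with hψ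
  have h3 : ∀ᶠ y in 𝓝 x, Spsh n ψ y := by
    filter_upwards [h1, w1.near, w1.ne_near w2,
      eventually_all.2 fun j => (v1 j).near.and ((v1 j).ne_near (v2 j))] with y e1 e2 e3 e4
    exact spsh_add_logs _ (spsh_add_log e1 e2 e3 1) (fun j => (e4 j).1) (fun j => (e4 j).2) _
  have h4 : ∀ᶠ z in gen {x}, s i₀ z ≠ 0 ∧ (∀ j, s' j (k₀ j) z ≠ 0) ∧ Real.log (‖s i₀ z‖ ^ 2) -
      ∑ j, c j * Real.log (‖s' j (k₀ j) z‖ ^ 2) - G z = ψ z := by
    filter_upwards [h2, w3, eventually_all.2 v3] with z e1 e2 e3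
    refine ⟨e2.1, fun j => (e3 j).1, ?_⟩
    have e4 := lg_sum M ⟨x, hx⟩ (Fin.cons D D' : Fin (m + 1) → Div K)
      (Fin.cons 1 fun j => -c j : Fin (m + 1) → ℝ) z
    simp only [Fin.sum_univ_succ, Fin.cons_zero, Fin.cons_succ, one_smul, neg_smul,
      Finset.sum_neg_distrib, ← sub_eq_add_neg, neg_mul, one_mul] at e4
    simp only [e1, e4, e2.2, fun j => (e3 j).2, hψ, mul_add, Finset.sum_add_distrib, neg_mul,
      Finset.sum_neg_distrib]
    ring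
  have h5 : ∀ᶠ y in 𝓝 x, y ∈ B.U i₀ ∧ ∀ j, y ∈ (E j).U (k₀ j) :=
    ((h.lb.isOpen _).eventually_mem hi).and
      (eventually_all.2 fun j => ((h' j).lb.isOpen _).eventually_mem (hk j))
  have h6 : ∀ᶠ y in 𝓝 x, ∀ i (k : ∀ j, (E j).ι), y ∈ B.U i → (∀ j, y ∈ (E j).U (k j)) →
      (limUnder (gen {y}) fun z => Real.log (‖s i z‖ ^ 2) -
        ∑ j, c j * Real.log (‖s' j (k j) z‖ ^ 2) - G z) = ψ y + Real.log (‖B.g i i₀ y‖ ^ 2) -
          ∑ j, c j * Real.log (‖(E j).g (k j) (k₀ j) y‖ ^ 2) := by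
    filter_upwards [h3, gen_near h4, h5.eventually_nhds] with y e1 e2 e3 i k e4 e5
    have e6 := e3.self_of_nhds
    refine ((((e1.cont.add ((h.lb.holo _ _ y e4 e6.1).cont_log (h.lb.ne_zero _ _ y e4 e6.1))).sub
      (tendsto_finsetSum _ fun j _ => continuousAt_const.mul
        (((h' j).lb.holo _ _ y (e5 j) (e6.2 j)).cont_log
          ((h' j).lb.ne_zero _ _ y (e5 j) (e6.2 j))))).tendsto.mono_left
            (gen_le_nhds y)).congr' ?_).limUnder_eq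
    filter_upwards [e2, gen_of_nhds e3, gen_of_nhds ((h.lb.isOpen _).eventually_mem e4),
      gen_of_nhds (eventually_all.2 fun j => ((h' j).lb.isOpen _).eventually_mem (e5 j))]
      with z f1 f2 f3 f4
    have f5 := fun j => (congrArg (fun a => Real.log (‖a‖ ^ 2))
      ((h' j).chg _ _ z (f4 j) (f2.2 j))).trans
        (Lb.log_mul_sq ((h' j).lb.ne_zero _ _ z (f4 j) (f2.2 j)) (f1.2.1 j))
    rw [h.chg _ _ z f3 f2.1, Lb.log_mul_sq (h.lb.ne_zero _ _ z f3 f2.1) f1.1]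
    simp only [Pi.add_apply, Pi.sub_apply, Pi.mul_apply, ← f1.2.2]
    simp only [f5, mul_add, Finset.sum_add_distrib]
    ring
  filter_upwards [h3.eventually_nhds, h5.eventually_nhds, h6.eventually_nhds] with y e1 e2 e3
  have e4 := e2.self_of_nhds
  have one : ∀ {L : Bd M.W}, M.LB L → ∀ i z, z ∈ L.U i → L.g i i z = 1 := fun hL i z hz =>
    mul_left_cancel₀ (hL.ne_zero i i z hz hz) (by rw [hL.cocycle i i i z hz hz hz, mul_one])
  refine ⟨⟨i₀, k₀, e4.1, e4.2, ?_⟩, fun i i' k k' f1 f2 f3 f4 => ?_⟩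
  · filter_upwards [e1, e2.eventually_nhds, e3.eventually_nhds] with z g1 g2 g3
    refine spsh_congr g1 ?_
    filter_upwards [g2, g3] with z' g4 g5
    rw [g5 i₀ k₀ g4.1 g4.2]
    simp [one h.lb _ _ g4.1, fun j => one (h' j).lb _ _ (g4.2 j)]
  · have f5 := fun j => (congrArg (fun a => Real.log (‖a‖ ^ 2))
      ((h' j).lb.cocycle _ _ _ y (f3 j) (f4 j) (e4.2 j))).symm.trans (Lb.log_mul_sq
        ((h' j).lb.ne_zero _ _ y (f3 j) (f4 j)) ((h' j).lb.ne_zero _ _ y (f4 j) (e4.2 j)))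
    rw [e3.self_of_nhds i k f1 f3, e3.self_of_nhds i' k' f2 f4, ← h.lb.cocycle i i' i₀ y f1 f2 e4.1,
      Lb.log_mul_sq (h.lb.ne_zero _ _ y f1 f2) (h.lb.ne_zero _ _ y f2 e4.1)]
    simp only [f5, mul_add, Finset.sum_add_distrib]
    ring

end Vale.Agent.P277Z.Lift
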