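import Vale.Agent.P277Z.Lift.Gd

/-!
# P277Z, lifting: restriction to a smooth prime divisor
-/

set_option linter.all false

open scoped ENNReal Topology
open Filter Set
open Vale.Agent.P297 (Place)
open Vale.Agent.P297Z.Pl

noncomputable section

namespace Vale.Agent.P277Z.Lift

variable {n N : ℕ} {K L : Type} [Field K] [Algebra ℂ K] [Field L] [Algebra ℂ L] {S : Mdl n N L}
  {M : Mdl (n + 1) N K} {P : Place K} {s : Sub S M P} {y : S.F} {f g t : K} {D E : Div K}

/-- the image of a point -/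
abbrev pt (s : Sub S M P) (y : S.F) : M.F := ⟨s.ι y, s.mem y y.2⟩

theorem on_pt (s : Sub S M P) (y : S.F) : M.On (pt s y) P := (s.on _).2 ⟨y, y.2, rfl⟩

theorem pr_sub (s : Sub S M P) : M.Pr P :=
  let ⟨y, hy⟩ := S.conn.nonempty
  ⟨_, on_pt s ⟨y, hy⟩⟩

theorem res_mem (hf : f ∈ M.O (pt s y)) : s.res f ∈ S.O y :=
  (s.hol y y.2 _ hf).congr ((s.val y f hf).mono fun _ => Eq.symm)

theorem res_val (hf : f ∈ M.O (pt s y)) : S.val (s.res f) y = M.val f (s.ι y) :=
  (s.val y f hf).self_of_nhds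

theorem LG.ord (h : LG M (pt s y) D t) (hD : D P = 0) : P.ord t = 0 := by
  have := h.2 P (on_pt s y)
  rw [hD] at this
  exact_mod_cast this

theorem LG.ring (h : LG M (pt s y) D t) (hD : D P = 0) : t ∈ P.ring :=
  (ord_nonneg_iff P h.1).1 (h.ord hD).ge

theorem rs_sub (hR : Rst s) (hD : D P = 0) (hE : E P = 0) : s.rs (D - E) = s.rs D - s.rs E := by
  rw [eq_sub_iff_add_eq, ← FI.rs_add hR (by simp [hD, hE]) hE, sub_add_cancel]

theorem LG.res (hL : Loc M) (hS : Loc S) (hR : Rst s) (h : LG M (pt s y) D t) (hD : D P = 0) :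
    LG S y (s.rs D) (s.res t) := by
  have h1 := h.ord hD
  have h2 : M.div t P = 0 := by rw [FI.div_apply hL t (pr_sub s), h1, Int.cast_zero]
  refine ⟨fun e => ?_, fun Q hQ => ?_⟩
  · rcases (s.res_zero t (h.ring hD)).1 e with k | k
    · exact h.1 k
    · omega
  · have h3 : s.rs (D - M.div t) Q = 0 := by
      rw [hR.rs y Q _ (by simp [hD, h2]) hQ]
      refine Finset.sum_eq_zero fun R _ => ?_
      by_cases hx : M.On (pt s y) R
      · simp [FI.div_apply hL t ⟨_, hx⟩, h.2 R hx]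
      · simp [FI.eqn_off hx, FI.res_one]
    rw [rs_sub hR hD h2, hR.div t h.1 h1, Finsupp.sub_apply, FI.div_apply hS _ ⟨y, hQ⟩] at h3
    linarith

theorem res_pow (hf : f ∈ P.ring) (k : ℕ) : s.res (f ^ k) = s.res f ^ k := by
  induction k with
  | zero => simpa using FI.res_one s
  | succ k ih => rw [pow_succ, s.res_mul _ (pow_mem hf k) _ hf, ih, pow_succ]

theorem coord_inj (hS : Loc S) {c : Fin n → L} (hc : S.Coord y c) {Q : Place L} {i j : Fin n}
    (hi : S.Gn y Q (c i)) (hj : S.Gn y Q (c j)) : i = j := by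
  by_contra e
  have h1 := FI.jac n N L S hS y c c 1 Q hc ⟨_, hi⟩ (fun k => (hc.1 k).1) (FI.jac_refl c)
    one_ne_zero
  have h2 := Finset.add_le_sum (s := Finset.univ) (f := fun k => Q.ord (c k))
    (fun k _ => ord_nonneg_of_mem Q (hi.le _ (hc.1 k).1)) (Finset.mem_univ i) (Finset.mem_univ j) e
  rw [ord_one] at h1
  have := hi.ord
  have := hj.ord
  omega

theorem loc_snc (hL : Loc M) (hS : Loc S) (hR : Rst s) {T : Set (Place K)}
    (hT : M.Snc (insert P T)) (hP : P ∉ T) (y : S.F) : ∃ (c : Fin n → L)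
      (r : Place K → Fin n → Prop), S.Coord y c ∧ (∀ R R' j, r R j → r R' j → R = R') ∧
      ∀ R ∈ T, ∀ Q, S.On y Q → s.rs (Finsupp.single R 1) Q ≠ 0 → M.On (pt s y) R ∧
        s.rs (Finsupp.single R 1) Q = 1 ∧ ∃ j, r R j ∧ ∀ Q', S.On y Q' →
          s.rs (Finsupp.single R 1) Q' ≠ 0 → S.Gn y Q' (c j) := by
  obtain ⟨t, ht, h1⟩ := hT.2 (pt s y)
  obtain ⟨i, hi⟩ := h1 P (mem_insert _ _) (on_pt s y)
  have hc := s.coord y t i ht hi
  refine ⟨_, fun R j => M.Gn (pt s y) R (t (i.succAbove j)), hc,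
    fun R R' j h h' => FI.gn_unique hL h h', fun R hR' Q hQ h0 => ?_⟩
  have e1 : R ≠ P := fun e => hP (e ▸ hR')
  have e2 : Finsupp.single R (1 : ℝ) P = 0 := Finsupp.single_eq_of_ne e1.symm
  have h2 : M.On (pt s y) R := by
    by_contra h
    have := ((lg_off h).res hL hS hR e2).2 Q hQ
    rw [FI.res_one, ord_one, Int.cast_zero] at this
    exact h0 this.symm
  obtain ⟨k, hk⟩ := h1 R (mem_insert_of_mem _ hR') h2
  obtain ⟨j, rfl⟩ := Fin.exists_succAbove_eq (x := k) (y := i) fun e =>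
    e1 (FI.gn_unique hL hk (e ▸ hi))
  have h3 := (lg_gn hL hk).res hL hS hR e2
  have h4 : ∀ Q', S.On y Q' → s.rs (Finsupp.single R 1) Q' ≠ 0 →
      S.Gn y Q' (s.res (t (i.succAbove j))) := fun Q' q1 q2 => by
    refine (FI.co1 n N L S hS y _ j hc).2 Q' q1 ?_
    have h5 := ord_nonneg_of_mem Q' (FI.ct_of_on q1 _ (hc.1 j).1)
    rw [← h3.2 Q' q1, Int.cast_ne_zero] at q2
    exact lt_of_le_of_ne h5 q2.symm
  exact ⟨h2, by rw [← h3.2 Q hQ, (h4 Q hQ h0).ord, Int.cast_one], j, hk, h4⟩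

/-- a section that does not vanish at finitely many given points -/
theorem free_fin (hL : Loc M) (hD : IsInt D) (U : Finset M.F) (h : ∀ x, M.Free D x) :
    ∃ f ∈ M.H0 D, ∀ x ∈ U, LG M x D f⁻¹ := by
  classical
  let V : M.F → Subspace ℂ ((M.H0 D).restrictScalars ℂ) := fun x =>
    { carrier := {f | M.val (f * eqD M x D) x = 0}
      zero_mem' := by simp [M.val_zero]
      add_mem' := fun {f g} hf hg => by
        have := M.val_add_at ((lg_eqD (x := x) hL hD).mem hL f.2) ((lg_eqD hL hD).mem hL g.2)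
        rw [show M.val (f * eqD M x D) x = 0 from hf, show M.val (g * eqD M x D) x = 0 from hg,
          add_zero, ← add_mul] at this
        exact this
      smul_mem' := fun c f hf => by
        have := M.val_mul_at (algebraMap_mem (M.O x) c) ((lg_eqD (x := x) hL hD).mem hL f.2)
        rw [show M.val (f * eqD M x D) x = 0 from hf, mul_zero, ← mul_assoc,
          ← Algebra.smul_def] at this
        exact this }
  have h1 : ⊤ ∉ U.image V := fun e => by
    obtain ⟨x, -, hx⟩ := Finset.mem_image.1 e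
    obtain ⟨f, f1, f2, f3⟩ := h x
    have h2 : LG M x (M.div f + D) (f * eqD M x D) := LG.mul
      ⟨f2, fun R hR => (FI.div_apply hL f ⟨x, hR⟩).symm⟩ (lg_eqD hL hD)
    have h3 : LG M x 0 (f * eqD M x D) := ⟨h2.1, fun R hR => by
      rw [h2.2 R hR, Finsupp.add_apply, FI.div_apply hL f ⟨x, hR⟩, f3 R hR]; rfl⟩
    exact (h3.val_ne hL).2 (show (⟨f, f1⟩ : (M.H0 D).restrictScalars ℂ) ∈ V x from hx ▸ trivial)
  obtain ⟨f, hf⟩ := (ne_univ_iff_exists_notMem _).1 (Subspace.biUnion_ne_univ_of_top_notMem h1)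
  refine ⟨f, f.2, fun x hx => ?_⟩
  have h2 : M.val (f * eqD M x D) x ≠ 0 := fun e =>
    hf (mem_biUnion (Finset.mem_image_of_mem V hx) e)
  have h3 := (lg_eqD (x := x) hL hD).mem hL f.2
  have h4 : (f : K) * eqD M x D ≠ 0 := fun e => h2 (by rw [e, M.val_zero])
  refine ⟨inv_ne_zero (left_ne_zero_of_mul h4), fun R hR => ?_⟩
  have h5 := ord_unit R (FI.ct_of_on hR _ h3) (FI.ct_of_on hR _ (M.inv_mem h3 h2))
  rw [ord_mul R (left_ne_zero_of_mul h4) (right_ne_zero_of_mul h4)] at h5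
  rw [← (lg_eqD (x := x) hL hD).2 R hR, ord_inv, Int.cast_inj]
  omega

end Vale.Agent.P277Z.Lift
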