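import Vale.Agent.P277Z.Lift.KDefs
import Vale.Agent.P277Z.Lift.Int
import Vale.Agent.P277Z.Sub.Hyp
import Vale.Agent.P277Z.FI.Dv
import Vale.Agent.P277Z.FI.Jac

/-!
# P277Z, lifting: comparison of weights, local equations
-/

set_option linter.all false

open scoped ENNReal Topology
open Filter Set MeasureTheory Metric
open Vale.Agent.P272.K (Cm Chart At)
open Vale.Agent.P297 (Place)
open Vale.Agent.P297Z.Pl

noncomputable section

namespace Vale.Agent.P277Z.Lift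

/-- `f ≤ C g` -/
def Cp {Z : Type} (l : Filter Z) (f g : Z → ℝ≥0∞) : Prop :=
  ∃ C : ℝ≥0∞, C ≠ ⊤ ∧ ∀ᶠ z in l, f z ≤ C * g z

namespace Cp

variable {Z : Type} {l : Filter Z} {f g h f' g' : Z → ℝ≥0∞}

theorem of_le (h : ∀ᶠ z in l, f z ≤ g z) : Cp l f g := ⟨1, ENNReal.one_ne_top, by simpa using h⟩

theorem refl : Cp l f f := of_le (.of_forall fun _ => le_rfl)

theorem trans (h1 : Cp l f g) (h2 : Cp l g h) : Cp l f h :=
  let ⟨C, a, b⟩ := h1
  let ⟨D, c, d⟩ := h2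
  ⟨C * D, ENNReal.mul_ne_top a c, (b.and d).mono fun z k =>
    k.1.trans (by rw [mul_assoc]; exact mul_le_mul_right k.2 _)⟩

theorem mul (h1 : Cp l f g) (h2 : Cp l f' g') : Cp l (fun z => f z * f' z) fun z => g z * g' z :=
  let ⟨C, a, b⟩ := h1
  let ⟨D, c, d⟩ := h2
  ⟨C * D, ENNReal.mul_ne_top a c, (b.and d).mono fun z k =>
    (mul_le_mul' k.1 k.2).trans (le_of_eq (by ring))⟩

theorem prod {ι : Type*} (s : Finset ι) {f g : ι → Z → ℝ≥0∞} (h : ∀ i ∈ s, Cp l (f i) (g i)) :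
    Cp l (fun z => ∏ i ∈ s, f i z) fun z => ∏ i ∈ s, g i z := by
  classical
  induction s using Finset.induction_on with
  | empty => exact refl
  | insert i s hi ih =>
    simp only [Finset.prod_insert hi]
    exact (h i (Finset.mem_insert_self _ _)).mul (ih fun j hj => h j (Finset.mem_insert_of_mem hj))

theorem sum {ι : Type*} (s : Finset ι) {f : ι → Z → ℝ≥0∞} (h : ∀ i ∈ s, Cp l (f i) g) :
    Cp l (fun z => ∑ i ∈ s, f i z) g := by
  classical
  induction s using Finset.induction_on with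
  | empty => exact of_le (by simp)
  | insert i s hi ih =>
    obtain ⟨C, a, b⟩ := h i (Finset.mem_insert_self _ _)
    obtain ⟨D, c, d⟩ := ih fun j hj => h j (Finset.mem_insert_of_mem hj)
    refine ⟨C + D, ENNReal.add_ne_top.2 ⟨a, c⟩, (b.and d).mono fun z k => ?_⟩
    simp only [Finset.sum_insert hi, add_mul]
    exact add_le_add k.1 k.2

theorem rpow (h : Cp l f g) {c : ℝ} (hc : 0 ≤ c) : Cp l (fun z => f z ^ c) fun z => g z ^ c :=
  let ⟨C, a, b⟩ := h
  ⟨C ^ c, ENNReal.rpow_ne_top_of_nonneg hc a, b.mono fun z k =>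
    (ENNReal.rpow_le_rpow k hc).trans (le_of_eq (ENNReal.mul_rpow_of_nonneg _ _ hc))⟩

theorem neg (h : Cp l f g) {c : ℝ} (hc : 0 ≤ c) :
    Cp l (fun z => g z ^ (-c)) fun z => f z ^ (-c) := by
  obtain ⟨C, a, b⟩ := h.rpow hc
  have h1 : C + 1 ≠ ⊤ := ENNReal.add_ne_top.2 ⟨a, ENNReal.one_ne_top⟩
  have h2 : C + 1 ≠ 0 := by simp
  refine ⟨C + 1, h1, b.mono fun z k => ?_⟩
  have h3 := ENNReal.inv_le_inv.2 (k.trans (mul_le_mul_left (le_self_add (b := 1)) _))
  rw [ENNReal.mul_inv (Or.inl h2) (Or.inl h1)] at h3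
  simp only [ENNReal.rpow_neg]
  refine le_trans (le_of_eq ?_) (mul_le_mul_right h3 _)
  rw [← mul_assoc, ENNReal.mul_inv_cancel h2 h1, one_mul]

theorem rpow' (h : Cp l f g) (h' : Cp l g f) (c : ℝ) :
    Cp l (fun z => f z ^ c) fun z => g z ^ c := by
  rcases le_total 0 c with hc | hc
  · exact h.rpow hc
  · simpa using h'.neg (neg_nonneg.2 hc)

theorem anti (h : Cp l f fun _ => 1) (h' : ∀ z, f z ≠ ⊤) {s t : ℝ} (hst : s ≤ t) :
    Cp l (fun z => f z ^ (-s)) fun z => f z ^ (-t) := by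
  obtain ⟨C, hC, h2⟩ := h.rpow (sub_nonneg.2 hst)
  refine ⟨C + 1, ENNReal.add_ne_top.2 ⟨hC, ENNReal.one_ne_top⟩, h2.mono fun z hz => ?_⟩
  by_cases h0 : f z = 0
  · refine le_trans ?_ (le_mul_of_one_le_left' le_add_self)
    exact ENNReal.rpow_le_rpow_of_exponent_ge (h0 ▸ zero_le_one) (neg_le_neg hst)
  · beta_reduce at hz ⊢
    rw [show -s = t - s + -t by ring, ENNReal.rpow_add _ _ h0 (h' z)]
    rw [ENNReal.one_rpow, mul_one] at hz
    exact mul_le_mul_left (hz.trans le_self_add) _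

end Cp

theorem LI.chg {n : ℕ} {f : Cm n → ℝ≥0∞} (Φ : OpenPartialHomeomorph (Cm n) (Cm n)) {y : Cm n}
    (hy : y ∈ Φ.source) (hΨ : AnalyticAt ℂ Φ.symm (Φ y)) (h : LI f (Φ y)) :
    LI (fun z => f (Φ z)) y := by
  obtain ⟨V, hV, h⟩ := h
  have hdet : ContinuousAt (fun w => |(fderiv ℝ Φ.symm w).det|) (Φ y) :=
    (ContinuousLinearMap.continuous_det.continuousAt.comp
      (((hΨ.contDiffAt (n := 1)).restrict_scalars ℝ).continuousAt_fderiv one_ne_zero)).abs
  have e2 := (hdet.eventually (gt_mem_nhds (lt_add_one _))).and (hΨ.eventually_analyticAt.and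
    ((show ∀ᶠ w in 𝓝 (Φ y), w ∈ Φ.target from Φ.open_target.mem_nhds (Φ.map_source hy)).and
      (show ∀ᶠ w in 𝓝 (Φ y), w ∈ V from hV)))
  obtain ⟨r, hr, hb⟩ := Metric.eventually_nhds_iff_ball.1 e2
  refine ⟨Φ.symm '' ball (Φ y) r, ?_, ?_⟩
  · have h1 := Φ.symm.image_mem_nhds (Φ.map_source hy) (ball_mem_nhds _ hr)
    rwa [Φ.left_inv hy] at h1
  · rw [lintegral_image_eq_lintegral_abs_det_fderiv_mul volume measurableSet_ball
      (f' := fderiv ℝ Φ.symm) (fun w hw =>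
        ((hb w hw).2.1.differentiableAt.restrictScalars ℝ).hasFDerivAt.hasFDerivWithinAt)
      (Φ.symm.injOn.mono fun w hw => (hb w hw).2.2.1)]
    refine ne_top_of_le_ne_top (ENNReal.mul_ne_top
      (a := ENNReal.ofReal (|(fderiv ℝ Φ.symm (Φ y)).det| + 1)) ENNReal.ofReal_ne_top h) ?_
    refine le_trans ?_ (mul_le_mul_right (lintegral_mono_set fun w hw => (hb w hw).2.2.2) _)
    rw [← lintegral_const_mul' _ _ ENNReal.ofReal_ne_top]
    refine setLIntegral_mono' measurableSet_ball fun w hw => ?_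
    rw [Φ.right_inv (hb w hw).2.2.1]
    exact mul_le_mul_left (ENNReal.ofReal_le_ofReal (hb w hw).1.le) _

variable {n N : ℕ} {K : Type} [Field K] [Algebra ℂ K] {M : Mdl n N K}

theorem LIm.cp {y : M.W} {f g : M.W → ℝ≥0∞} (h : LIm M y g) (h' : Cp (𝓝 y) f g) : LIm M y f :=
  fun e he =>
    let ⟨_, a, b⟩ := h'
    (h e he).mono a ((Lo.tendsto_symm he).eventually b)

theorem lim_of_cht {c : Chart n M.W} (hc : SubH.Cht c) {y : M.W} (hy : y ∈ c.source)
    {f : M.W → ℝ≥0∞} (h : LI (fun z => f (c.symm z)) (c y)) : LIm M y f := fun e he => by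
  have h0 : e.symm (e y) = y := e.left_inv he.2
  have h1 : (e.symm.trans c) (e y) = c y := by simp [h0]
  have h2 := LI.chg (f := fun z => f (c.symm z)) (e.symm.trans c) (y := e y)
    ⟨e.map_source he.2, by simpa [h0] using hy⟩
    (by rw [h1]; exact analyticAt_pi_iff.2 fun j => hc.inv y hy _ (SubH.hol_chart he j))
    (by rwa [h1])
  refine h2.congr ?_
  filter_upwards [(Lo.tendsto_symm he).eventually (c.open_source.mem_nhds hy)] with z hz
  simp [c.left_inv hz]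

variable {x : M.F} {D E : Div K} {t t' a b : K}

theorem nv_ne_top (f : K) (z : M.W) : nv M f z ≠ ⊤ := ENNReal.ofReal_ne_top

theorem nv_mul (ha : a ∈ M.O x) (hb : b ∈ M.O x) :
    ∀ᶠ z in 𝓝 (x : M.W), nv M (a * b) z = nv M a z * nv M b z :=
  (M.nhds_mul ha hb).mono fun z hz => by
    rw [nv, hz, norm_mul, mul_pow, ENNReal.ofReal_mul (sq_nonneg _)]; rfl

theorem nv_bdd (ha : a ∈ M.O x) : Cp (𝓝 (x : M.W)) (nv M a) fun _ => 1 := by
  simpa [Cp, nv] using nq_le (Lo.hol_cont ha) (t := 1) (Or.inl zero_le_one)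

theorem nv_dvd (ha : a ∈ M.O x) (hb : b ∈ M.O x) : Cp (𝓝 (x : M.W)) (nv M (a * b)) (nv M b) :=
  (Cp.of_le ((nv_mul ha hb).mono fun _ => le_of_eq)).trans
    (by simpa using (nv_bdd ha).mul (Cp.refl (f := nv M b)))

theorem LG.mul (h : LG M x D t) (h' : LG M x E t') : LG M x (D + E) (t * t') :=
  ⟨mul_ne_zero h.1 h'.1, fun R hR => by
    rw [ord_mul R h.1 h'.1, Int.cast_add, h.2 R hR, h'.2 R hR, Finsupp.add_apply]⟩

theorem LG.one : LG M x 0 1 := ⟨one_ne_zero, fun R _ => by simp⟩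

theorem LG.div_mem (hL : Loc M) (h : LG M x D t) (h' : LG M x D t') : t / t' ∈ M.O x :=
  hL.mem x _ fun R hR => by
    rw [ord_div R h.1 h'.1, Int.cast_inj.1 ((h.2 R hR).trans (h'.2 R hR).symm), sub_self]

theorem LG.mem (hL : Loc M) (h : LG M x D t) (ha : a ∈ M.H0 D) : a * t ∈ M.O x := by
  by_cases h0 : a = 0
  · rw [h0, zero_mul]; exact zero_mem _
  refine hL.mem x _ fun R hR => ?_
  have := ha.resolve_left h0 R ⟨x, hR⟩
  rw [← h.2 R hR] at this
  rw [ord_mul R h0 h.1]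
  exact_mod_cast this

theorem LG.cp (hL : Loc M) (h : LG M x D t) (h' : LG M x D t') (ha : a ∈ M.H0 D) :
    Cp (𝓝 (x : M.W)) (nv M (a * t)) (nv M (a * t')) := by
  have := nv_dvd (h.div_mem hL h') (h'.mem hL ha)
  rwa [mul_left_comm, div_mul_cancel₀ _ h'.1] at this

theorem LG.val_ne (hL : Loc M) (h : LG M x 0 t) : t ∈ M.O x ∧ M.val t x ≠ 0 := by
  have h1 : t ∈ M.O x := by simpa using h.mem hL (FI.fam_H0 M).one
  refine ⟨h1, fun e => ?_⟩
  obtain ⟨R, hR, h2⟩ := hL.van x t h1 h.1 e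
  have := h.2 R hR
  rw [Finsupp.zero_apply, Int.cast_eq_zero] at this
  omega

theorem LG.near (hL : Loc M) (h : LG M x D t) : ∀ᶠ y in 𝓝 x, LG M y D t := by
  filter_upwards [(eventually_all_finite ((hL.fin t).union D.support.finite_toSet)).2
    fun R _ => hL.near x R] with y hy
  refine ⟨h.1, fun R hR => ?_⟩
  by_cases h1 : R ∈ {P | M.Pr P ∧ P.ord t ≠ 0} ∪ (D.support : Set (Place K))
  · exact h.2 R (hy R h1 hR)
  · rw [mem_union, not_or] at h1
    rw [Finsupp.notMem_support_iff.1 h1.2, not_not.1 fun e => h1.1 ⟨⟨y, hR⟩, e⟩, Int.cast_zero]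

/-- the product of the local equations -/
def eqD (M : Mdl n N K) (x : M.F) (D : Div K) : K := ∏ P ∈ D.support, M.eqn x P ^ ⌊D P⌋

theorem ord_eqD (hD : IsInt D) (Q : Place K) : (Q.ord (eqD M x D) : ℝ) = M.ordAt x Q D := by
  rw [eqD, FI.ord_prod Q _ fun P _ => zpow_ne_zero _ (FI.eqn_ne x P), Mdl.ordAt, Finsupp.sum,
    Int.cast_sum]
  refine Finset.sum_congr rfl fun P _ => ?_
  obtain ⟨k, hk⟩ := hD P
  rw [ord_zpow, hk, Int.floor_intCast, Int.cast_mul]

theorem lg_eqD (hL : Loc M) (hD : IsInt D) : LG M x D (eqD M x D) :=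
  ⟨Finset.prod_ne_zero_iff.2 fun P _ => zpow_ne_zero _ (FI.eqn_ne x P), fun R hR => by
    rw [ord_eqD hD, FI.ordAt_on hL hR]⟩

end Vale.Agent.P277Z.Lift
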