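import Vale.Agent.P277Z.Lift.ExtF
import Vale.Agent.P277Z.Lift.ExtK
import Vale.Agent.P277Z.Lift.MetK
import Vale.Agent.P277Z.Lift.E34

/-!
# P277Z, lifting: assembly
-/

namespace Vale.Agent.P277Z.Lift

theorem extk (hL : ∀ n, LOC n) (hP : ∀ n, POS n) (hR : ∀ n, RST n) (n : ℕ) : EXTK n :=
  extk_of extf (metK _) (hL _) (hL _) (hP _) (hR _)

theorem ext34_of (hL : ∀ n, LOC n) (hP : ∀ n, POS n) (hR : ∀ n, RST n) (n : ℕ) : FI.EXT34 n :=
  ext34 hL hP hR (extk hL hP hR n)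

end Vale.Agent.P277Z.Lift
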