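import Vale.Agent.P277Z.Lbd.Build

/-!
# P277Z, block EXT34: an ample real combination of line bundles has a metric of positive curvature
-/

open scoped Manifold ContDiff
open Filter Topology Set
open Vale.Agent.P272.K
open Vale.Agent.P297 (Place)
open Vale.Agent.P297Z
open Vale.Agent.P285.H281.FD (Bd)

noncomputable section

namespace Vale.Agent.P277Z.Lift

section mfd

variable {n : ℕ} {W : Type} [TopologicalSpace W] [ChartedSpace (Cm n) W] {φ φ' : W → ℝ}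
  {x : W}

variable (n) in
/-- `φ` is smooth at `x` -/
def SmAt (φ : W → ℝ) (x : W) : Prop :=
  ∀ e : Chart n W, At e x → ContDiffAt ℝ ∞ (fun z => φ (e.symm z)) (e x)

theorem SmAt.cont (h : SmAt n φ x) : ContinuousAt φ x := by
  have he := at_chart (n := n) x
  exact ((h _ he).continuousAt.comp ((chartAt (Cm n) x).continuousAt he.2)).congr
    ((At.left he).mono fun y hy => congrArg φ hy)

theorem SmAt.congr (h : SmAt n φ x) (k : ∀ᶠ y in 𝓝 x, φ' y = φ y) : SmAt n φ' x := fun e he =>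
  (h e he).congr_of_eventuallyEq ((At.tendsto_symm he).eventually k)

theorem smAt_log {u : W → ℂ} (hu : Hol n u x) (h0 : u x ≠ 0) :
    SmAt n (fun y => Real.log (‖u y‖ ^ 2)) x := fun e he =>
  ((((hu e he).contDiffAt (n := ∞)).restrict_scalars ℝ).norm_sq ℂ).log
    (pow_ne_zero _ (norm_ne_zero_iff.2 (by rwa [e.left_inv he.2])))

theorem spsh_congr (h : Spsh n φ x) (k : ∀ᶠ y in 𝓝 x, φ' y = φ y) : Spsh n φ' x := fun e he =>
  have k' : (fun z => φ' (e.symm z)) =ᶠ[𝓝 (e x)] fun z => φ (e.symm z) :=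
    (At.tendsto_symm he).eventually k
  ⟨(h e he).1.congr_of_eventuallyEq k', by rw [cHess_congr k']; exact (h e he).2⟩

theorem spsh_add_log (h : Spsh n φ x) {u : W → ℂ} (hu : Hol n u x) (h0 : u x ≠ 0) (c : ℝ) :
    Spsh n (fun y => c * Real.log (‖u y‖ ^ 2) + φ y) x := fun e he => by
  have h1 : u (e.symm (e x)) ≠ 0 := by rwa [e.left_inv he.2]
  have h2 := smAt_log hu h0 e he
  have k : (2 : WithTop ℕ∞) ≤ ∞ := WithTop.coe_le_coe.2 (le_top (a := (2 : ℕ∞)))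
  refine ⟨(contDiffAt_const.mul h2).add (h e he).1, ?_⟩
  rw [cHess_add ((contDiffAt_const.mul h2).of_le k) ((h e he).1.of_le k),
    cHess_const_mul c (h2.of_le k), cHess_log_norm_sq (hu e he).contDiffAt h1, smul_zero, zero_add]
  exact (h e he).2

theorem spsh_add_logs {κ : Type} (S : Finset κ) (h : Spsh n φ x) {u : κ → W → ℂ}
    (hu : ∀ j, Hol n (u j) x) (h0 : ∀ j, u j x ≠ 0) (c : κ → ℝ) :
    Spsh n (fun y => ∑ j ∈ S, c j * Real.log (‖u j y‖ ^ 2) + φ y) x := by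
  classical
  induction S using Finset.induction_on with
  | empty => simpa using h
  | insert j S hj ih =>
    simpa only [Finset.sum_insert hj, add_assoc] using spsh_add_log ih (hu j) (h0 j) (c j)

end mfd

variable {n N : ℕ} {K : Type} [Field K] [Algebra ℂ K]

/-- `ψ` is a smooth metric on `L` near the fibre -/
def MetN (G : Geo n N) (L : Bd G.W) (ψ : L.ι → G.W → ℝ) : Prop :=
  ∀ᶠ y in 𝓝ˢ G.F, ∀ i, y ∈ L.U i → SmAt n (ψ i) y ∧
    ∀ j, y ∈ L.U j → ψ i y = ψ j y + Real.log (‖L.g i j y‖ ^ 2)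

theorem lg_sum (M : Mdl n N K) {κ : Type} [Fintype κ] (x : M.F) (D : κ → Div K) (a : κ → ℝ)
    (y : M.W) : M.lg x (∑ j, a j • D j) y = ∑ j, a j * M.lg x (D j) y := by
  have h : ∀ E, M.lg x E y = Finsupp.linearCombination ℝ
      (fun P => Real.log (‖M.val (M.eqn x P) y‖ ^ 2)) E := fun E => by
    rw [Finsupp.linearCombination_apply]; rfl
  simp only [h, map_sum, map_smul, smul_eq_mul]

/-- the logarithm of the modulus of a coefficient of a meromorphic section -/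
theorem rep_log {M : Mdl n N K} (hL : Loc M) {L : Bd M.W} {D : Div K} {s : L.ι → M.W → ℂ}
    (h : M.Rep L D s) (x : M.F) {i : L.ι} (hi : (x : M.W) ∈ L.U i) :
    ∃ w : M.W → ℂ, Hol n w x ∧ w x ≠ 0 ∧ ∀ᶠ y in gen {(x : M.W)}, s i y ≠ 0 ∧
      Real.log (‖s i y‖ ^ 2) = Real.log (‖w y‖ ^ 2) + M.lg x D y := by
  classical
  obtain ⟨t, u, t0, ht, hu, u0, e⟩ := h.loc x i hi
  set t' := Lb.eqD M x D.support fun P => P.ord t
  obtain ⟨w1, w2⟩ := Lb.unit_of hL (x := x) (div_ne_zero t0 (Lb.eqD_ne x _ _) : t / t' ≠ 0)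
    fun Q hQ => by
      rw [Pl.ord_div Q t0 (Lb.eqD_ne x _ _), (Lb.near_eqD hL x _ _).self_of_nhds Q hQ]
      split_ifs with k
      · exact sub_self _
      · have := (ht Q hQ).symm.trans (Finsupp.notMem_support_iff.1 k)
        rw [Int.cast_eq_zero.1 this, sub_self]
  have hw : Hol n (fun y => u y * M.val (t / t') y) x := hu.mul w1
  refine ⟨_, hw, mul_ne_zero u0 w2, ?_⟩
  filter_upwards [gen_of_nhds (hw.ne_near (mul_ne_zero u0 w2)), e, M.at_pt (Lb.lg_eq x ht) x,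
    M.at_pt (M.val_div t t') x, M.at_pt (M.val_ne (Lb.eqD_ne x _ _ : t' ≠ 0)) x]
    with y k2 k3 k4 k5 k6
  have k7 : s i y = u y * M.val (t / t') y * M.val t' y := by
    rw [k3, k5, mul_assoc, div_mul_cancel₀ _ k6]
  exact ⟨k7 ▸ mul_ne_zero k2 k6, by rw [k7, Lb.log_mul_sq k2 k6, k4]⟩

/-- If `Σ a j D j` is ample, the metric `Σ a j ψ j` is positive after a smooth change. -/
theorem ampB {M : Mdl n N K} (hL : Loc M) {κ : Type} [Fintype κ] (L : κ → Bd M.W)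
    (D : κ → Div K) (s : ∀ j, (L j).ι → M.W → ℂ) (ψ : ∀ j, (L j).ι → M.W → ℝ) (a : κ → ℝ)
    (hR : ∀ j, M.Rep (L j) (D j) (s j)) (hψ : ∀ j, MetN M.toGeo (L j) (ψ j))
    (hA : M.Amp (∑ j, a j • D j)) :
    ∃ u : M.W → ℝ, ∀ᶠ y in 𝓝ˢ M.F, SmAt n u y ∧ ∀ i : ∀ j, (L j).ι, (∀ j, y ∈ (L j).U (i j)) →
      Spsh n (fun z => ∑ j, a j * ψ j (i j) z + u z) y := by
  classical
  obtain ⟨G, hG⟩ := hA
  let ν : κ → M.W → ℝ := fun j y =>
    if k : ∃ i, y ∈ (L j).U i then Real.log (‖s j k.choose y‖ ^ 2) - ψ j k.choose y else 0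
  refine ⟨fun y => limUnder (gen {y}) fun z => ∑ j, a j * ν j z - G z,
    eventually_nhdsSet_iff_forall.2 fun x hx => ?_⟩
  obtain ⟨φ, h1, h2⟩ := hG ⟨x, hx⟩
  choose i₀ hi₀ using fun j => (hR j).lb.cover x hx
  choose w w1 w2 w3 using fun j => rep_log hL (hR j) ⟨x, hx⟩ (hi₀ j)
  have hm := eventually_all.2 fun j => ((hψ j).filter_mono (nhds_le_nhdsSet hx)).and
    ((((hR j).lb.isOpen _).eventually_mem (hi₀ j)).and ((w1 j).near.and ((w1 j).ne_near (w2 j))))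
  set v : M.W → ℝ := fun z => ∑ j, a j * (Real.log (‖w j z‖ ^ 2) - ψ j (i₀ j) z) + φ z
  have hv : ∀ᶠ y in 𝓝 x, SmAt n v y := by
    filter_upwards [hm, h1] with y k1 k2 e he
    exact (ContDiffAt.sum fun j _ => contDiffAt_const.mul
      ((smAt_log (k1 j).2.2.1 (k1 j).2.2.2 e he).sub (((k1 j).1 _ (k1 j).2.1).1 e he))).add
      (k2 e he).1
  have hg : ∀ᶠ z in gen {x}, ∑ j, a j * ν j z - G z = v z := by
    filter_upwards [h2, eventually_all.2 w3, gen_of_nhds hm] with z k1 k2 k3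
    have e : ∀ j, ν j z = Real.log (‖w j z‖ ^ 2) - ψ j (i₀ j) z + M.lg ⟨x, hx⟩ (D j) z := fun j => by
      have k : ∃ i, z ∈ (L j).U i := ⟨_, (k3 j).2.1⟩
      simp only [ν, dif_pos k]
      rw [(hR j).chg _ _ z k.choose_spec (k3 j).2.1, ((k3 j).1 _ k.choose_spec).2 _ (k3 j).2.1,
        Lb.log_mul_sq ((hR j).lb.ne_zero _ _ z k.choose_spec (k3 j).2.1) (k2 j).1, (k2 j).2]
      ring
    simp only [e, k1, lg_sum, mul_add, Finset.sum_add_distrib, v]
    ring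
  have hu : ∀ᶠ y in 𝓝 x, (limUnder (gen {y}) fun z => ∑ j, a j * ν j z - G z) = v y := by
    filter_upwards [hv, gen_near hg] with y k1 k2
    exact ((k1.cont.tendsto.mono_left (gen_le_nhds y)).congr' (k2.mono fun _ => Eq.symm)).limUnder_eq
  filter_upwards [hv, hu.eventually_nhds, hm.eventually_nhds, h1] with y k1 k2 k3 k4
  refine ⟨k1.congr k2, fun i hi => ?_⟩
  have k5 := k3.self_of_nhds
  refine spsh_congr (spsh_add_logs Finset.univ k4
    (u := fun j z => (L j).g (i j) (i₀ j) z * w j z)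
    (fun j => ((hR j).lb.holo _ _ y (hi j) (k5 j).2.1).mul (k5 j).2.2.1)
    (fun j => mul_ne_zero ((hR j).lb.ne_zero _ _ y (hi j) (k5 j).2.1) (k5 j).2.2.2) a) ?_
  filter_upwards [k2, k3, eventually_all.2 fun j => ((hR j).lb.isOpen _).eventually_mem (hi j)]
    with z e1 e2 e3
  rw [e1]
  simp only [v]
  rw [← add_assoc, ← Finset.sum_add_distrib]
  refine congrArg (· + φ z) (Finset.sum_congr rfl fun j _ => ?_)
  rw [((e2 j).1 _ (e3 j)).2 _ (e2 j).2.1,
    Lb.log_mul_sq ((hR j).lb.ne_zero _ _ z (e3 j) (e2 j).2.1) (e2 j).2.2.2]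
  ring

end Vale.Agent.P277Z.Lift
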