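import Vale.Agent.P277Z.Lift.ExtL
import Vale.Agent.P277Z.Lift.Rs
import Vale.Agent.P277Z.Lbd.All

/-!
# P277Z, lifting: sections on a smooth prime divisor as sections of the restricted line bundle
-/

set_option linter.unusedSectionVars false

open scoped Manifold ContDiff Topology ENNReal
open Set Filter MeasureTheory
open Vale.Agent.P272.K (Cm Chart At cHess)
open Vale.Agent.P277Z.Val (LocIso Crd AnM crd_chart)
open Vale.Agent.P297 (Place)
open Vale.Agent.P297Z.Pl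
open Vale.Agent.P285.H281.FD (Bd)

noncomputable section

namespace Vale.Agent.P277Z.Lift

open Lb hiding eqD
open FI hiding pt

variable {n N : ℕ} {K L : Type} [Field K] [Algebra ℂ K] [Field L] [Algebra ℂ L] {S : Mdl n N L}
  {M : Mdl (n + 1) N K} {P : Place K} (s : Sub S M P)

theorem res_ne {f : K} (h0 : f ≠ 0) (h : P.ord f = 0) : s.res f ≠ 0 := fun e =>
  ((s.res_zero f ((ord_nonneg_iff P h0).1 h.ge)).1 e).elim h0 h.not_gt

variable {s}

theorem rep_loc {n : ℕ} {M : Mdl n N K} {C : Bd M.W} {D : Div K} {σ : C.ι → M.W → ℂ}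
    (h : M.Rep C D σ) (x : M.F) {i : C.ι} (hi : (x : M.W) ∈ C.U i) : ∃ (T : K) (v : M.W → ℂ),
      LG M x D T ∧ Hol n v x ∧ v x ≠ 0 ∧ ∀ᶠ z in gen {(x : M.W)}, σ i z = v z * M.val T z :=
  let ⟨T, v, h1, h2, h3⟩ := h.loc x i hi
  ⟨T, v, ⟨h1, fun R hR => (h2 R hR).symm⟩, h3⟩

/-- the local expression of the section `f σ` -/
theorem mul_loc {n : ℕ} {M : Mdl n N K} (hL : Loc M) {C : Bd M.W} {D : Div K}
    {σ τ : C.ι → M.W → ℂ} {f T : K} (hf : f ∈ M.H0 D) (h1 : M.Sec C τ) (h2 : M.Mul σ f τ) {x : M.F}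
    {i : C.ι} (hi : (x : M.W) ∈ C.U i) (hT : LG M x D T) {v : M.W → ℂ} (hv : Hol n v x)
    (he : ∀ᶠ z in gen {(x : M.W)}, σ i z = v z * M.val T z) :
    Hol n (τ i) x ∧ ∀ᶠ z in 𝓝 (x : M.W), τ i z = v z * M.val (f * T) z := by
  have h3 := ((h1.filter_mono (nhds_le_nhdsSet x.2)).self_of_nhds i hi).1
  refine ⟨h3, h3.eq_of_gen (hv.mul (hT.mem hL hf)) ?_⟩
  filter_upwards [h2 x i hi, he, M.at_pt (M.val_mul f T) x] with z e1 e2 e3
  rw [e1, e2, e3]
  ring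

variable (s) in
/-- the restriction of the section `U σ` to the divisor -/
def uS (U : K) {C : Bd M.W} (σ : C.ι → M.W → ℂ) (i : C.ι) : M.W → ℂ :=
  Function.extend s.ι (reg fun y => reg (fun z => M.val U z * σ i z) (s.ι y)) 0

theorem uS_eq {C : Bd M.W} {D : Div K} {σ : C.ι → M.W → ℂ} (h : M.Rep C D σ) {U T : K}
    (hU : U ∈ P.ring) (hT : T ∈ P.ring) (y : S.F) {i₀ : C.ι} (hi : s.ι y ∈ C.U i₀) {v : M.W → ℂ}
    (hv : Hol (n + 1) v (s.ι y)) (he : ∀ᶠ z in gen {s.ι y}, σ i₀ z = v z * M.val T z)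
    (ha : s.res U * s.res T ∈ S.O y) : ∀ᶠ z in 𝓝 (y : S.W), ∀ i, s.ι z ∈ C.U i →
      uS s U σ i (s.ι z) = C.g i i₀ (s.ι z) * (v (s.ι z) * S.val (s.res U * s.res T) z) := by
  obtain ⟨t, ht⟩ := on_pt s y
  obtain ⟨b, hb, b0, b1, hB⟩ := ht.loc (U * T) (mul_mem hU hT)
  have hc : ContinuousAt s.ι y := s.cont.continuousAt
  have h0 := (h.lb.isOpen i₀).mem_nhds hi
  have h1 : ∀ᶠ z in gen {s.ι y}, M.val U z * σ i₀ z * M.val b z = v z * M.val (b * (U * T)) z := by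
    filter_upwards [he, M.at_pt (M.val_mul b (U * T)) (pt s y), M.at_pt (M.val_mul U T) (pt s y)]
      with z e1 e2 e3
    rw [e1, e2, e3]
    ring
  have h2 : ∀ᶠ z in 𝓝 (s.ι y), M.val b z ≠ 0 → ∀ i, z ∈ C.U i →
      reg (fun z => M.val U z * σ i z) z =
        C.g i i₀ z * (v z * (M.val (b * (U * T)) z / M.val b z)) := by
    filter_upwards [gen_near h1, hv.near, Hol.near hb, Hol.near hB, h0] with z e1 e2 e3 e4 e5 e6 i e7
    refine reg_eq (u := fun z => C.g i i₀ z * (v z * (M.val (b * (U * T)) z / M.val b z)))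
      ((h.lb.holo i i₀ z e7 e5).mul (e2.mul (e4.div e3 e6))).cont ?_
    filter_upwards [e1, gen_of_nhds ((h.lb.isOpen i).mem_nhds e7),
      gen_of_nhds ((h.lb.isOpen i₀).mem_nhds e5), gen_of_nhds (e3.ne_near e6)] with w f1 f2 f3 f4
    rw [h.chg i i₀ w f2 f3, ← mul_div_assoc, ← f1, mul_div_cancel_right₀ _ f4]
    ring
  have h3 : ∀ᶠ z in gen {(y : S.W)}, ∀ i, s.ι z ∈ C.U i →
      reg (fun z => M.val U z * σ i z) (s.ι z) =
        C.g i i₀ (s.ι z) * (v (s.ι z) * S.val (s.res U * s.res T) z) := by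
    filter_upwards [gen_of_nhds (hc.eventually h2), gen_of_nhds (s.val y b hb),
      gen_of_nhds (s.val y _ hB), S.at_pt (S.val_ne (res_ne s b0 b1)) y,
      S.at_pt (S.val_mul (s.res b) (s.res U * s.res T)) y] with z e1 e2 e3 e4 e5 i e6
    rw [e1 (e2 ▸ e4) i e6, ← e2, ← e3, s.res_mul b (ht.le b hb) _ (mul_mem hU hT),
      s.res_mul U hU T hT, e5, mul_div_cancel_left₀ _ e4]
  filter_upwards [gen_near h3, hc.eventually hv.near, Hol.near ha, hc.eventually h0]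
    with z e1 e2 e3 e4 i e5
  have hz : ContinuousAt s.ι z := s.cont.continuousAt
  rw [uS, s.inj.extend_apply]
  refine reg_eq (u := fun z => C.g i i₀ (s.ι z) * (v (s.ι z) * S.val (s.res U * s.res T) z))
    (((h.lb.holo i i₀ _ e5 e4).cont.comp hz).mul ((e2.cont.comp hz).mul e3.cont)) ?_
  filter_upwards [e1, gen_of_nhds (hz.eventually ((h.lb.isOpen i).mem_nhds e5))] with w f1 f2
    using f1 i f2

/-- adapted coordinates -/
theorem exists_crd (hP : M.Snc {P}) (y : S.F) : ∃ (t : K) (c : M.W → Cm (n + 1))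
    (ξ : Cm (n + 1) → M.W) (c' : S.W → Cm n) (χ : Cm n → S.W), M.Gn (pt s y) P t ∧
    Crd c ξ (s.ι y) ∧ Crd c' χ (y : S.W) ∧ (∀ z, c z 0 = M.val t z) ∧
    ∀ᶠ z in 𝓝 (y : S.W), c (s.ι z) = Fin.cons 0 (c' z) := by
  obtain ⟨t, h1, h2⟩ := hP.2 (pt s y)
  obtain ⟨i, hi⟩ := h2 P rfl (on_pt s y)
  obtain ⟨ξ, h3⟩ := coord_crd h1
  obtain ⟨χ, h4⟩ := coord_crd (s.coord y t i h1 hi)
  refine ⟨t i, _, _, _, χ, hi, crd_perm h3 i.cycleRange.symm, h4, fun z => by simp, ?_⟩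
  filter_upwards [eventually_all.2 fun j => s.val y _ (h1.1 j).1] with z hz
  refine funext (Fin.cases ?_ fun j => ?_)
  · rw [Fin.cycleRange_symm_zero, ← hz i, (s.res_zero _ (hi.le _ hi.mem)).2
      (Or.inr (by rw [hi.ord]; exact one_pos)), S.val_zero, Fin.cons_zero]
  · rw [Fin.cycleRange_symm_succ, ← hz, Fin.cons_succ]

end Vale.Agent.P277Z.Lift
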