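import Vale.Agent.P277Z.Lift.Cp

/-!
# P277Z, lifting: integrability along divisors with normal crossings
-/

set_option linter.all false

open scoped ENNReal Topology
open Filter Set
open Vale.Agent.P272.K (Cm Chart At)
open Vale.Agent.P297 (Place)
open Vale.Agent.P297Z.Pl

noncomputable section

namespace Vale.Agent.P277Z.Lift

variable {n N : ℕ} {K : Type} [Field K] [Algebra ℂ K] {M : Mdl n N K} {x : M.F} {g : K}
  {t : Fin n → K}

theorem coord_cht (ht : M.Coord x t) : ∃ c : Chart n M.W, SubH.Cht c ∧ (x : M.W) ∈ c.source ∧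
    ∀ z ∈ c.target, ∀ j, M.val (t j) (c.symm z) = z j := by
  obtain ⟨c, h1, h2, h3⟩ := SubH.exists_cht (t := fun i => M.val (t i)) (fun j => (ht.1 j).1) ht.2
  exact ⟨c, h1, h2, fun z hz j => by rw [← h3 _ (c.map_target hz), c.right_inv hz]⟩

theorem cht_ev {c : Chart n M.W} (hx : (x : M.W) ∈ c.source) {p : Cm n → Prop}
    (h : ∀ᶠ q in 𝓝 (c x), p q) : ∀ᶠ y : M.F in 𝓝 x, (y : M.W) ∈ c.source ∧ p (c y) :=
  continuousAt_subtype_val.eventually ((show ∀ᶠ y in 𝓝 (x : M.W), y ∈ c.source from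
    c.open_source.mem_nhds hx).and ((c.continuousAt hx).eventually h))

theorem cht_back {c : Chart n M.W} {x : M.W} (hx : x ∈ c.source) {p : M.W → Prop}
    (h : ∀ᶠ q in 𝓝 (c x), p (c.symm q)) : ∀ᶠ y in 𝓝 x, p y := by
  filter_upwards [(c.continuousAt hx).eventually h, c.open_source.mem_nhds hx] with y h1 h2
  rwa [c.left_inv h2] at h1

theorem u0 (hL : Loc M) (hg : g ∈ M.O x) (h0 : g ≠ 0) :
    ∃ ε : ℝ, 0 < ε ∧ ∀ᶠ y : M.F in 𝓝 x, LIm M y fun z => nv M g z ^ (-ε) := by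
  obtain ⟨t, ht⟩ := hL.coord x
  obtain ⟨c, h1, h2, -⟩ := coord_cht ht
  obtain ⟨ε, e0, e1⟩ := int0 (h1.inv _ h2 _ hg) fun h => M.not_zero h0 (cht_back h2 h)
  exact ⟨ε, e0, (cht_ev h2 e1.ev).mono fun y hy => lim_of_cht h1 hy.1 hy.2⟩

theorem u1 (hL : Loc M) (ht : M.Coord x t) {Q : Place K} {i : Fin n} (hQ : M.Gn x Q (t i))
    (hg : g ∈ M.O x) (h0 : g ≠ 0) (h : Q.ord g = 0) : ∃ ε : ℝ, 0 < ε ∧ ∀ᶠ y : M.F in 𝓝 x,
      ∀ s : ℝ, s < 1 → LIm M y fun z => nv M (t i) z ^ (-s) * nv M g z ^ (-ε) := by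
  obtain ⟨c, h1, h2, h3⟩ := coord_cht ht
  obtain ⟨ε, e0, e1⟩ := int2 i (h1.inv _ h2 _ hg) (fun h => M.not_zero h0 (cht_back h2 h))
    fun _ h4 => by
      obtain ⟨b, b1, b2⟩ := hL.red x Q _ hQ _ hg (cht_back h2 (by
        filter_upwards [h4, c.open_target.mem_nhds (c.map_source h2)] with z k1 k2
        rwa [h3 z k2]))
      have b3 : g / t i ∈ M.O x := M.mem_O_of b1 (by
        filter_upwards [gen_of_nhds b2, M.at_pt (M.val_div g (t i)) x,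
          M.at_pt (M.val_ne (FI.gn_ne hQ)) x] with z k1 k2 k3
        rw [k2, k1, mul_div_cancel_left₀ _ k3])
      have b4 := ord_nonneg_of_mem Q (hQ.le _ b3)
      rw [ord_div Q h0 (FI.gn_ne hQ), h, hQ.ord] at b4
      omega
  refine ⟨ε, e0, (cht_ev h2 e1).mono fun y hy s hs => lim_of_cht h1 hy.1 ((hy.2 s hs).congr ?_)⟩
  filter_upwards [c.open_target.mem_nhds (c.map_source hy.1)] with z hz
  rw [nv, h3 z hz]
  rfl

theorem nv_one (z : M.W) : nv M 1 z = 1 := by simp [nv, M.val_one]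

theorem nv_prod {ι : Type*} (s : Finset ι) {a : ι → K} (h : ∀ i ∈ s, a i ∈ M.O x) :
    ∀ᶠ z in 𝓝 (x : M.W), nv M (∏ i ∈ s, a i) z = ∏ i ∈ s, nv M (a i) z := by
  classical
  induction s using Finset.induction_on with
  | empty => simp [nv_one]
  | insert i s hi ih =>
    have h' : ∀ j ∈ s, a j ∈ M.O x := fun j hj => h j (Finset.mem_insert_of_mem hj)
    filter_upwards [ih h', nv_mul (h i (Finset.mem_insert_self _ _)) (prod_mem h')] with z h1 h2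
    rw [Finset.prod_insert hi, Finset.prod_insert hi, h2, h1]

theorem lg_gn (hL : Loc M) {Q : Place K} {a : K} (h : M.Gn x Q a) :
    LG M x (Finsupp.single Q 1) a := by
  refine ⟨FI.gn_ne h, fun R hR => ?_⟩
  by_cases e : R = Q
  · simp [e, h.ord]
  · simp [hL.other x Q R a h hR e, Finsupp.single_eq_of_ne e]

theorem lg_off {Q : Place K} (h : ¬ M.On x Q) : LG M x (Finsupp.single Q 1) 1 :=
  ⟨one_ne_zero, fun R hR => by
    rw [Finsupp.single_eq_of_ne (by rintro rfl; exact h hR), ord_one, Int.cast_zero]⟩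

theorem one_mem_single (Q : Place K) : (1 : K) ∈ M.H0 (Finsupp.single Q 1) :=
  FI.one_mem_H0 (Finsupp.single_nonneg.2 zero_le_one)

theorem LG.cp1 (hL : Loc M) {Q : Place K} {a b : K} (h : LG M x (Finsupp.single Q 1) a)
    (h' : LG M x (Finsupp.single Q 1) b) (c : ℝ) :
    Cp (𝓝 (x : M.W)) (fun z => nv M a z ^ c) fun z => nv M b z ^ c := by
  simpa using (h.cp hL h' (one_mem_single Q)).rpow' (h'.cp hL h (one_mem_single Q)) c

theorem LG.mem1 (hL : Loc M) {Q : Place K} {a : K} (h : LG M x (Finsupp.single Q 1) a) :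
    a ∈ M.O x := by simpa using h.mem hL (one_mem_single Q)

variable {J : Type} [Fintype J] {Q : J → Place K}

theorem lim_snc (hL : Loc M) (hQ : Function.Injective Q) (hs : M.Snc (range Q)) {a : J → K}
    (ha : ∀ Y, LG M x (Finsupp.single (Q Y) 1) (a Y)) {γ : J → ℝ} (hγ : ∀ Y, γ Y < 1) :
    LIm M x fun z => ∏ Y, nv M (a Y) z ^ (-γ Y) := by
  classical
  obtain ⟨t, ht, h1⟩ := hs.2 x
  choose i hi using fun Y : {Y // M.On x (Q Y)} => h1 _ (mem_range_self Y.1) Y.2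
  have inj : Function.Injective i := fun Y Y' e =>
    Subtype.ext (hQ (FI.gn_unique hL (hi Y) (e ▸ hi Y')))
  obtain ⟨c, c1, c2, c3⟩ := coord_cht ht
  have h2 := li_snc (γ := Function.extend i (fun Y => γ Y) 0) (fun j => by
    by_cases h : ∃ Y, i Y = j
    · obtain ⟨Y, rfl⟩ := h
      rw [inj.extend_apply]; exact hγ _
    · rw [Function.extend_apply' _ _ _ h]; exact zero_lt_one) (c x)
  have h3 : LIm M x fun z => ∏ Y : {Y // M.On x (Q Y)}, nv M (t (i Y)) z ^ (-γ Y) := by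
    refine lim_of_cht c1 c2 (h2.congr ?_)
    filter_upwards [c.open_target.mem_nhds (c.map_source c2)] with z hz
    refine Fintype.prod_of_injective i inj _ _ (fun j hj => ?_) fun Y => ?_
    · rw [Function.extend_apply' _ _ _ hj]; simp
    · rw [inj.extend_apply, nv, c3 z hz]
  refine h3.cp ?_
  have h4 := (Cp.prod Finset.univ fun (Y : {Y // M.On x (Q Y)}) _ =>
    (ha Y).cp1 hL (lg_gn hL (hi Y)) (-γ Y)).mul (Cp.prod Finset.univ
      fun (Y : {Y // ¬ M.On x (Q Y)}) _ => (ha Y).cp1 hL (lg_off Y.2) (-γ Y))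
  simp only [nv_one, ENNReal.one_rpow, Finset.prod_const_one, mul_one] at h4
  refine (Cp.of_le (.of_forall fun z => le_of_eq ?_)).trans h4
  exact (Fintype.prod_subtype_mul_prod_subtype _ fun Y => nv M (a Y) z ^ (-γ Y)).symm

theorem good (hL : Loc M) (hQ : Function.Injective Q) (hs : M.Snc (range Q)) {D : Div K}
    (hD : IsInt D) {τ : K} (hτ : τ ∈ M.H0 D) (h0 : τ ≠ 0)
    (ho : ∀ Y, ((Q Y).ord τ : ℝ) + D (Q Y) = 0) : ∃ ε : ℝ, 0 < ε ∧ ∀ (x : M.F) (t : K) (a : J → K)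
      (γ : J → ℝ), LG M x D t → (∀ Y, LG M x (Finsupp.single (Q Y) 1) (a Y)) → (∀ Y, γ Y < 1) →
      {Y | ε < γ Y}.Subsingleton →
      LIm M x fun z => nv M (τ * t) z ^ (-ε) * ∏ Y, nv M (a Y) z ^ (-γ Y) := by
  classical
  haveI : CompactSpace M.F := isCompact_iff_compactSpace.1 M.cpt
  suffices H : ∀ᶠ ε in 𝓝 (0 : ℝ), ∀ x ∈ (univ : Set M.F), ∀ (t : K) (a : J → K)
      (γ : J → ℝ), LG M x D t → (∀ Y, LG M x (Finsupp.single (Q Y) 1) (a Y)) → (∀ Y, γ Y < 1) →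
      {Y | ε < γ Y}.Subsingleton →
      LIm M x fun z => nv M (τ * t) z ^ (-ε) * ∏ Y, nv M (a Y) z ^ (-γ Y) by
    obtain ⟨ε, h1, h2⟩ := ((H.filter_mono nhdsWithin_le_nhds).and
      (self_mem_nhdsWithin (s := Ioi (0 : ℝ)))).exists
    exact ⟨ε, h2, fun x => h1 x (mem_univ _)⟩
  refine isCompact_univ.eventually_forall_of_forall_eventually fun x _ => ?_
  obtain ⟨c, hc, h1⟩ := hs.2 x
  have h2 : ∀ Y, ∃ b, LG M x (Finsupp.single (Q Y) 1) b ∧ ∀ g ∈ M.O x, g ≠ 0 →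
      (M.On x (Q Y) → (Q Y).ord g = 0) → ∃ ε : ℝ, 0 < ε ∧ ∀ᶠ y : M.F in 𝓝 x, ∀ s : ℝ, s < 1 →
        LIm M y fun z => nv M b z ^ (-s) * nv M g z ^ (-ε) := fun Y => by
    by_cases h : M.On x (Q Y)
    · obtain ⟨i, hi⟩ := h1 _ (mem_range_self Y) h
      exact ⟨c i, lg_gn hL hi, fun g g1 g2 g3 => u1 hL hc hi g1 g2 (g3 h)⟩
    · refine ⟨1, lg_off h, fun g g1 g2 _ => (u0 hL g1 g2).imp fun ε k => ⟨k.1, ?_⟩⟩
      simpa only [nv_one, ENNReal.one_rpow, one_mul] using k.2.mono fun y hy _ _ => hy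
  choose b b1 b2 using h2
  have t1 := lg_eqD (x := x) hL hD
  set t₀ := eqD M x D
  have g1 : ∀ U : Finset J, τ * t₀ * ∏ Y ∈ U, b Y ∈ M.O x ∧ τ * t₀ * ∏ Y ∈ U, b Y ≠ 0 := fun U =>
    ⟨mul_mem (t1.mem hL hτ) (prod_mem fun Y _ => (b1 Y).mem1 hL),
      mul_ne_zero (mul_ne_zero h0 t1.1) (Finset.prod_ne_zero_iff.2 fun Y _ => (b1 Y).1)⟩
  obtain ⟨ε₀, e0, e1⟩ := u0 hL (g1 Finset.univ).1 (g1 _).2
  choose ε₁ e2 e3 using fun Y => b2 Y _ (g1 (Finset.univ.erase Y)).1 (g1 _).2 fun h => by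
    rw [ord_mul _ (mul_ne_zero h0 t1.1) (Finset.prod_ne_zero_iff.2 fun Y _ => (b1 Y).1),
      ord_mul _ h0 t1.1, FI.ord_prod _ _ fun Y _ => (b1 Y).1, ← Int.cast_inj (α := ℝ)]
    push_cast
    rw [t1.2 _ h, ho, Finset.sum_eq_zero fun Y' hY => by
      rw [(b1 Y').2 _ h, Finsupp.single_eq_of_ne (hQ.ne (Finset.ne_of_mem_erase hY).symm)], add_zero]
  rw [nhds_prod_eq]
  filter_upwards [((ge_mem_nhds e0 : ∀ᶠ ε in 𝓝 (0 : ℝ), ε ≤ ε₀).and
    (eventually_all.2 fun Y => (ge_mem_nhds (e2 Y) : ∀ᶠ ε in 𝓝 (0 : ℝ), ε ≤ ε₁ Y))).prod_mk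
    ((e1.and (eventually_all.2 e3)).and ((t1.near hL).and
      (eventually_all.2 fun Y => (b1 Y).near hL)))]
  rintro ⟨ε, y⟩ ⟨⟨k1, k2⟩, ⟨k3, k4⟩, k5, k6⟩ t a γ ht ha hγ hb
  have key : ∀ (U : Finset J) (δ : ℝ), ε ≤ δ → (∀ Y ∈ U, γ Y ≤ ε) → Cp (𝓝 (y : M.W))
      (fun z => nv M (τ * t) z ^ (-ε) * ∏ Y ∈ U, nv M (a Y) z ^ (-γ Y))
      fun z => nv M (τ * t₀ * ∏ Y ∈ U, b Y) z ^ (-δ) := fun U δ d1 d2 => by
    refine ((((ht.cp hL k5 hτ).rpow' (k5.cp hL ht hτ) _).trans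
      ((nv_bdd (k5.mem hL hτ)).anti (nv_ne_top _) d1)).mul (Cp.prod U fun Y hY =>
        ((ha Y).cp1 hL (k6 Y) _).trans ((nv_bdd ((k6 Y).mem1 hL)).anti (nv_ne_top _)
          ((d2 Y hY).trans d1)))).trans (Cp.of_le ?_)
    filter_upwards [nv_mul (k5.mem hL hτ) (prod_mem fun Y (_ : Y ∈ U) => (k6 Y).mem1 hL),
      nv_prod U fun Y _ => (k6 Y).mem1 hL] with z z1 z2
    rw [z1, ENNReal.mul_rpow_of_ne_top (nv_ne_top _ _) (nv_ne_top _ _), z2,
      ENNReal.prod_rpow_of_ne_top fun _ _ => nv_ne_top _ _]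
  by_cases h : ∃ Y, ε < γ Y
  · obtain ⟨Y, hY⟩ := h
    refine (k4 Y _ (hγ Y)).cp ((Cp.of_le (.of_forall fun z => le_of_eq ?_)).trans
      (((ha Y).cp1 hL (k6 Y) _).mul (key _ _ (k2 Y) fun Y' h' => not_lt.1 fun e =>
        Finset.ne_of_mem_erase h' (hb e hY))))
    rw [← Finset.mul_prod_erase _ _ (Finset.mem_univ Y), mul_left_comm]
  · exact k3.cp (key _ _ k1 fun Y _ => not_lt.1 fun e => h ⟨Y, e⟩)

end Vale.Agent.P277Z.Lift
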