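import Vale.Agent.P277Z.Lift.Lot3
import Vale.Agent.P268.Hol

/-!
# P277Z, Lift: LOT (local extension with the weight `|z₀|^(-2t)`, `t < 1`), HOLD, SNC
-/

open MeasureTheory Filter Topology Metric Set Function
open scoped ENNReal NNReal

noncomputable section

namespace Vale.Agent.P277Z.Lift

/-- `f` is integrable near `p` -/
def LI {E : Type*} [TopologicalSpace E] [MeasureSpace E] (f : E → ℝ≥0∞) (p : E) : Prop :=
  ∃ V ∈ 𝓝 p, ∫⁻ z in V, f z ≠ ⊤

section LI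

variable {E E' : Type*} [TopologicalSpace E] [MeasureSpace E] [TopologicalSpace E']
  [MeasureSpace E'] {f g : E → ℝ≥0∞} {p : E}

theorem LI.ev (h : LI f p) : ∀ᶠ q in 𝓝 p, LI f q := by
  obtain ⟨V, hV, h⟩ := h
  filter_upwards [eventually_mem_nhds_iff.2 hV] with q hq using ⟨V, hq, h⟩

theorem LI.mono_ae [OpensMeasurableSpace E] (h : LI g p) {C : ℝ≥0∞} (hC : C ≠ ⊤) {N : E → Prop}
    (hN : ∀ᵐ z, N z) (hle : ∀ᶠ z in 𝓝 p, N z → f z ≤ C * g z) : LI f p := by
  obtain ⟨V, hV, h⟩ := h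
  obtain ⟨O, hO, hOo, hp⟩ := _root_.mem_nhds_iff.1 (inter_mem hV hle)
  refine ⟨O, hOo.mem_nhds hp, ne_top_of_le_ne_top (ENNReal.mul_ne_top hC h) ?_⟩
  rw [← lintegral_const_mul' _ _ hC]
  refine le_trans (lintegral_mono_ae ?_) (lintegral_mono_set fun z hz => (hO hz).1)
  filter_upwards [ae_restrict_mem hOo.measurableSet, ae_restrict_of_ae hN] with z hz hz'
  exact (hO hz).2 hz'

theorem LI.mono [OpensMeasurableSpace E] (h : LI g p) {C : ℝ≥0∞} (hC : C ≠ ⊤)
    (hle : ∀ᶠ z in 𝓝 p, f z ≤ C * g z) : LI f p :=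
  h.mono_ae hC (N := fun _ => True) (Eventually.of_forall fun _ => trivial)
    (hle.mono fun _ h _ => h)

theorem LI.congr [OpensMeasurableSpace E] (h : LI g p) (he : ∀ᶠ z in 𝓝 p, f z = g z) : LI f p :=
  h.mono ENNReal.one_ne_top (he.mono fun z hz => by rw [hz, one_mul])

theorem LI.add (hf : LI f p) (hg : LI g p) (hm : Measurable g) : LI (fun z => f z + g z) p := by
  obtain ⟨V, hV, h⟩ := hf
  obtain ⟨W, hW, h'⟩ := hg
  refine ⟨V ∩ W, inter_mem hV hW, ?_⟩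
  rw [lintegral_add_right _ hm]
  exact ENNReal.add_ne_top.2 ⟨ne_top_of_le_ne_top h (lintegral_mono_set inter_subset_left),
    ne_top_of_le_ne_top h' (lintegral_mono_set inter_subset_right)⟩

theorem LI.comp {T : E' → E} (hT : MeasurePreserving T) (he : MeasurableEmbedding T) {q : E'}
    (hc : ContinuousAt T q) (h : LI f (T q)) : LI (fun z => f (T z)) q := by
  obtain ⟨V, hV, h⟩ := h
  exact ⟨T ⁻¹' V, hc hV, by rwa [hT.setLIntegral_comp_preimage_emb he]⟩

end LI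

variable {n : ℕ}

theorem LI.shift {f : (Fin n → ℂ) → ℝ≥0∞} {p q : Fin n → ℂ} (h : LI f (q + p)) :
    LI (fun z => f (z + p)) q :=
  LI.comp (T := fun z => z + p) (measurePreserving_add_right volume p)
    (measurableEmbedding_addRight p) (continuous_add_const p).continuousAt h

theorem LI.perm {f : (Fin n → ℂ) → ℝ≥0∞} (e : Equiv.Perm (Fin n)) {q : Fin n → ℂ}
    (h : LI f (q ∘ e)) : LI (fun z => f (z ∘ e)) q :=
  LI.comp (T := fun z : Fin n → ℂ => z ∘ e)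
    (volume_measurePreserving_piCongrLeft (fun _ => ℂ) e).symm
    (MeasurableEquiv.piCongrLeft (fun _ => ℂ) e).symm.measurableEmbedding
    (continuous_pi fun i => continuous_apply (e i)).continuousAt h

theorem nq_eq (a : ℂ) : ENNReal.ofReal (‖a‖ ^ 2) = ‖a‖ₑ ^ 2 := by
  rw [ENNReal.ofReal_pow (norm_nonneg _), ofReal_norm]

theorem nq_rpow (a : ℂ) (t : ℝ) : ENNReal.ofReal (‖a‖ ^ 2) ^ (-t) = ‖a‖ₑ ^ (-(2 * t)) := by
  rw [nq_eq, ← ENNReal.rpow_natCast, ← ENNReal.rpow_mul]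
  congr 1
  push_cast
  ring

theorem ball_subset_eb {ρ : ℝ} :
    ball (0 : Fin (n + 1) → ℂ) (ρ / (n + 1)) ⊆ eb (n + 1) ρ := fun z hz => by
  have h1 : sqn z ≤ (n + 1) * ‖z‖ ^ 2 := by
    refine (Finset.sum_le_card_nsmul _ _ _ fun j _ =>
      pow_le_pow_left₀ (norm_nonneg _) (norm_le_pi_norm z j) 2).trans (le_of_eq ?_)
    simp
  have h2 : ‖z‖ * (n + 1) < ρ := (lt_div_iff₀ (by positivity)).1 (mem_ball_zero_iff.1 hz)
  have h3 := pow_lt_pow_left₀ h2 (by positivity) two_ne_zero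
  have h4 : (0 : ℝ) ≤ n * ((n + 1) * ‖z‖ ^ 2) := by positivity
  show sqn z < ρ ^ 2
  nlinarith

variable {J : Type*} [Fintype J] {r : J → ℕ} {σ : ∀ j, Fin (r j) → (Fin (n + 1) → ℂ) → ℂ}
  {c : J → ℝ}

theorem lot0 (hc : ∀ j, 0 ≤ c j) (hσ : ∀ j a, AnalyticAt ℂ (σ j a) 0) {u : (Fin n → ℂ) → ℂ}
    (hu : AnalyticAt ℂ u 0) (hint : LI (fun x => ‖u x‖ₑ ^ 2 * wt σ c (Fin.cons 0 x)) 0) {t : ℝ}
    (ht : t < 1) : ∃ U : (Fin (n + 1) → ℂ) → ℂ, AnalyticAt ℂ U 0 ∧
      (∀ᶠ z in 𝓝 (0 : Fin (n + 1) → ℂ), z 0 = 0 → U z = u (Fin.tail z)) ∧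
      LI (fun z => ‖U z‖ₑ ^ 2 * ‖z 0‖ₑ ^ (-(2 * t)) * wt σ c z) 0 := by
  obtain ⟨V, hV, hint⟩ := hint
  obtain ⟨R₁, hR₁, h1⟩ := Metric.eventually_nhds_iff_ball.1 (eventually_all.2 fun j =>
    eventually_all.2 fun a => (hσ j a).eventually_analyticAt)
  obtain ⟨R₂, hR₂, h2⟩ := Metric.eventually_nhds_iff_ball.1 (hu.eventually_analyticAt.and hV)
  obtain ⟨R, hR, hR1, hRa, hRb⟩ : ∃ R : ℝ, 0 < R ∧ R ≤ 1 ∧ R ≤ R₁ ∧ R ≤ R₂ :=
    ⟨min 1 (min R₁ R₂), by positivity, min_le_left _ _, (min_le_right _ _).trans (min_le_left _ _),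
      (min_le_right _ _).trans (min_le_right _ _)⟩
  obtain ⟨k, hk⟩ := exists_nat_one_div_lt (sub_pos.2 ht)
  rw [← Nat.cast_succ, one_div] at hk
  have hk0 := k.succ_ne_zero
  generalize k.succ = k at hk hk0
  have hpw : ∀ w ∈ ball (0 : Fin (n + 1) → ℂ) R, update w 0 (w 0 ^ k) ∈ ball 0 R₁ := by
    intro w hw
    rw [mem_ball_zero_iff, pi_norm_lt_iff hR] at hw
    rw [mem_ball_zero_iff, pi_norm_lt_iff hR₁]
    intro i
    by_cases hi : i = 0
    · subst hi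
      rw [update_self, norm_pow]
      exact ((pow_le_of_le_one (norm_nonneg _) ((hw 0).le.trans hR1) hk0).trans_lt
        (hw 0)).trans_le hRa
    · rw [update_of_ne hi]
      exact (hw i).trans_le hRa
  have hcons : ∀ x : Fin n → ℂ, update (Fin.cons 0 x : Fin (n + 1) → ℂ) 0
      ((Fin.cons 0 x : Fin (n + 1) → ℂ) 0 ^ k) = Fin.cons 0 x := fun x => by
    rw [Fin.cons_zero, zero_pow hk0, Fin.update_cons_zero]
  obtain ⟨F, hF, hF0, hFi⟩ := ot_eb (σ := fun j a w => σ j a (update w 0 (w 0 ^ k))) hc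
    (half_pos hR) (by linarith) (half_lt_self hR) (fun j a w hw =>
      ((h1 _ (hpw w hw) j a).differentiableAt.comp w (diffAt_upd differentiableAt_id
        (by fun_prop))).differentiableWithinAt)
    (u := u) (fun x hx => (h2 x (ball_subset_ball hRb hx)).1.differentiableAt.differentiableWithinAt)
    (by
      simp only [wt, hcons]
      exact ne_top_of_le_ne_top hint (lintegral_mono_set fun x hx =>
        (h2 x (closedBall_subset_ball (by linarith) hx)).2))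
  have hsub := ball_subset_eb (n := n) (ρ := R / 2)
  have ha : 0 < R / 2 / (n + 1) := by positivity
  have haR : R / 2 / (n + 1) ≤ R :=
    (div_le_self (by positivity) (by linarith [Nat.cast_nonneg (α := ℝ) n])).trans (by linarith)
  generalize R / 2 / (n + 1) = a at hsub ha haR
  have ha1 := haR.trans hR1
  have hak : a ^ k ≤ a := pow_le_of_le_one ha.le ha1 hk0
  have hb : ball (0 : Fin (n + 1) → ℂ) (a ^ k) ∈ 𝓝 0 := ball_mem_nhds _ (by positivity)
  refine ⟨av k F, P268.analyticAt_of_differentiableOn isOpen_ball (av_diff hk0 ha ha1 (hF.mono hsub))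
    (mem_of_mem_nhds hb), ?_, ?_⟩
  · filter_upwards [hb] with z hz hz0
    have h3 : update z 0 0 = z := by rw [← hz0, update_eq_self]
    rw [av_eq (Complex.isPrimitiveRoot_exp k hk0) F (α := 0) (by rw [hz0, zero_pow hk0])]
    simp only [mul_zero, h3, Finset.sum_const, Finset.card_range, nsmul_eq_mul]
    rw [inv_mul_cancel_left₀ (Nat.cast_ne_zero.2 hk0),
      hF0 z (hsub (ball_subset_ball hak hz)) hz0]
  · refine LI.mono ⟨_, hb, av_int (σ := σ) (c := c) hk0 ha ha1 (hF.continuousOn.mono hsub)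
      (fun j b z hz => (h1 z (ball_subset_ball (hak.trans (haR.trans hRa)) hz)
        j b).continuousAt.continuousWithinAt)
      (ne_top_of_le_ne_top hFi (lintegral_mono_set hsub))⟩ ENNReal.one_ne_top ?_
    filter_upwards [hb] with z hz
    rw [one_mul]
    refine mul_le_mul_left (mul_le_mul_right (ENNReal.rpow_le_rpow_of_exponent_ge ?_
      (by linarith)) _) _
    rw [← ofReal_norm, ENNReal.ofReal_le_one]
    exact (norm_le_pi_norm z 0).trans ((mem_ball_zero_iff.1 hz).le.trans (hak.trans ha1))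

/-- **LOT** -/
theorem lot (hc : ∀ j, 0 ≤ c j) {p : Fin (n + 1) → ℂ} (hp : p 0 = 0)
    (hσ : ∀ j a, AnalyticAt ℂ (σ j a) p) {u : (Fin n → ℂ) → ℂ} (hu : AnalyticAt ℂ u (Fin.tail p))
    (hint : LI (fun x => ENNReal.ofReal (‖u x‖ ^ 2) * wt σ c (Fin.cons 0 x)) (Fin.tail p)) {t : ℝ}
    (ht : t < 1) : ∃ U : (Fin (n + 1) → ℂ) → ℂ, AnalyticAt ℂ U p ∧
      (∀ᶠ z in 𝓝 p, z 0 = 0 → U z = u (Fin.tail z)) ∧
      LI (fun z => ENNReal.ofReal (‖U z‖ ^ 2) * ENNReal.ofReal (‖z 0‖ ^ 2) ^ (-t) * wt σ c z) p := by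
  have h1 : ∀ x : Fin n → ℂ, (Fin.cons 0 x : Fin (n + 1) → ℂ) + p = Fin.cons 0 (x + Fin.tail p) :=
    fun x => funext fun i => Fin.cases (by simp [hp]) (fun i => by simp [Fin.tail]) i
  obtain ⟨U, hU, hU0, hUi⟩ := lot0 (σ := fun j a z => σ j a (z + p)) hc
    (fun j a => AnalyticAt.fun_comp_of_eq (hσ j a) (by fun_prop) (zero_add p))
    (u := fun x => u (x + Fin.tail p)) (AnalyticAt.fun_comp_of_eq hu (by fun_prop) (zero_add _))
    (by
      have h2 := LI.shift (p := Fin.tail p) (q := 0) (by rw [zero_add]; exact hint)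
      simpa only [wt, h1, nq_eq] using h2) ht
  have h3 : Tendsto (fun z => z + -p) (𝓝 p) (𝓝 0) := by
    rw [← add_neg_cancel p]
    exact (continuous_add_const (-p)).tendsto p
  refine ⟨fun z => U (z + -p), AnalyticAt.fun_comp_of_eq hU (by fun_prop) (add_neg_cancel p), ?_, ?_⟩
  · filter_upwards [h3.eventually hU0] with z hz hz0
    rw [hz (by simp [hz0, hp])]
    congr 1
    funext i
    simp [Fin.tail]
  · have h2 := LI.shift (p := -p) (q := p) (by rw [add_neg_cancel]; exact hUi)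
    simp only [nq_rpow]
    simpa only [wt, neg_add_cancel_right, Pi.add_apply, Pi.neg_apply, hp, neg_zero, add_zero,
      nq_eq] using h2

theorem lint_disc {t : ℝ} (ht : t < 1) (R : ℝ) :
    ∫⁻ z in ball (0 : ℂ) R, ENNReal.ofReal (‖z‖ ^ 2) ^ (-t) ≠ ⊤ := by
  have h := integrableOn_ball_of_norm_le_rpow (μ := (volume : Measure ℂ)) (r := R) (C := 1)
    (f := fun z : ℂ => ‖z‖ ^ (-(2 * t))) (α := 2 * t) (by simp) (by simp; linarith)
    (Eventually.of_forall fun z => by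
      rw [one_mul, Real.norm_of_nonneg (Real.rpow_nonneg (norm_nonneg _) _)])
    (measurable_norm.pow_const _).aestronglyMeasurable
  refine ne_of_eq_of_ne (lintegral_congr_ae ?_) h.lintegral_lt_top.ne
  filter_upwards [ae_restrict_of_ae (Measure.ae_ne volume (0 : ℂ))] with z hz
  rw [nq_rpow, ← ENNReal.ofReal_rpow_of_pos (norm_pos_iff.2 hz), ofReal_norm]

theorem meas_snc (γ : Fin n → ℝ) :
    Measurable fun z : Fin n → ℂ => ∏ i, ENNReal.ofReal (‖z i‖ ^ 2) ^ (-γ i) :=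
  Finset.measurable_fun_prod _ fun i _ =>
    (((measurable_pi_apply i).norm.pow_const 2).ennreal_ofReal).pow_const _

theorem lint_snc {R : ℝ} (hR : 0 < R) : ∀ {n : ℕ} {γ : Fin n → ℝ}, (∀ i, γ i < 1) →
    ∫⁻ z in ball (0 : Fin n → ℂ) R, ∏ i, ENNReal.ofReal (‖z i‖ ^ 2) ^ (-γ i) ≠ ⊤
  | 0, _, _ => by simp
  | n + 1, γ, h => by
    have h1 := lint_box (A := ball (0 : ℂ) R) (B := ball (0 : Fin n → ℂ) R)
      (f := fun z => ENNReal.ofReal (‖z‖ ^ 2) ^ (-γ 0))
      ((measurable_norm.pow_const 2).ennreal_ofReal.pow_const _).aemeasurable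
      (meas_snc fun i => γ i.succ).aemeasurable
    have h2 := ENNReal.mul_ne_top (lint_disc (h 0) R) (lint_snc hR fun i : Fin n => h i.succ)
    rw [← h1] at h2
    simp only [Fin.prod_univ_succ]
    exact ne_top_of_le_ne_top h2 (lintegral_mono_set fun z hz =>
      ⟨mem_ball_zero_iff.2 ((norm_le_pi_norm z 0).trans_lt (mem_ball_zero_iff.1 hz)),
        mem_ball_zero_iff.2 ((norm_tail_le z).trans_lt (mem_ball_zero_iff.1 hz))⟩)

/-- **SNC** -/
theorem li_snc {γ : Fin n → ℝ} (h : ∀ i, γ i < 1) (p : Fin n → ℂ) :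
    LI (fun z : Fin n → ℂ => ∏ i, ENNReal.ofReal (‖z i‖ ^ 2) ^ (-γ i)) p :=
  ⟨ball 0 (‖p‖ + 1), isOpen_ball.mem_nhds (mem_ball_zero_iff.2 (lt_add_one _)),
    lint_snc (by positivity) h⟩

theorem li_coord (i : Fin n) {t : ℝ} (ht : t < 1) (p : Fin n → ℂ) :
    LI (fun z : Fin n → ℂ => ENNReal.ofReal (‖z i‖ ^ 2) ^ (-t)) p := by
  have h := li_snc (γ := Pi.single i t) (fun j => by
    by_cases hj : j = i
    · rw [hj, Pi.single_eq_same]; exact ht
    · rw [Pi.single_eq_of_ne hj]; exact zero_lt_one) p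
  refine h.congr (Eventually.of_forall fun z => ?_)
  rw [Finset.prod_eq_single i, Pi.single_eq_same]
  · intro j _ hj
    rw [Pi.single_eq_of_ne hj, neg_zero, ENNReal.rpow_zero]
  · simp

theorem li_one (p : Fin n → ℂ) : LI (fun _ : Fin n → ℂ => 1) p :=
  ⟨ball p 1, ball_mem_nhds _ one_pos, by simpa using measure_ball_lt_top.ne⟩

end Vale.Agent.P277Z.Lift
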