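import Vale.Agent.P277Z.FI.Sk
import Vale.Agent.P277Z.Lift.Lot

/-!
# P277Z, lifting: the extension theorem in the language of models. Statement.
-/

set_option linter.all false

open scoped ENNReal
open Vale.Agent.P272.K (Cm Chart At)
open Vale.Agent.P297 (Place)

noncomputable section

namespace Vale.Agent.P277Z.Lift

variable {n N : ℕ} {K : Type} [Field K] [Algebra ℂ K]

/-- `t` is a local equation of `D` at `x`. -/
def LG (M : Mdl n N K) (x : M.F) (D : Div K) (t : K) : Prop :=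
  t ≠ 0 ∧ ∀ R, M.On x R → (R.ord t : ℝ) = D R

/-- the square of the modulus -/
def nv (M : Mdl n N K) (f : K) (z : M.W) : ℝ≥0∞ := ENNReal.ofReal (‖M.val f z‖ ^ 2)

/-- local integrability in all charts -/
def LIm (M : Mdl n N K) (y : M.W) (f : M.W → ℝ≥0∞) : Prop :=
  ∀ e : Chart n M.W, At e y → LI (fun z => f (e.symm z)) (e y)

/-- **EXTK**: extension of sections from a smooth prime divisor -/
def EXTK (n : ℕ) : Prop := ForM (n + 1) fun N K _ _ M => ∀ (L' : Type) [Field L'] [Algebra ℂ L']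
  (S : Mdl n N L') (P : Place K) (s : Sub S M P) (κ L : Div K) (k : ℕ) (D : Fin k → Div K)
  (W : Fin k → Finset K) (c : Fin k → ℝ) (u : L'), S.Proj → M.Snc {P} → FI.IsCan M κ → M.Dv L →
  IsInt L → L P = 0 →
  (∀ j, M.Dv (D j) ∧ IsInt (D j) ∧ D j P = 0 ∧ 0 ≤ c j ∧ ∀ w ∈ W j, w ∈ M.H0 (D j)) →
  M.Amp (L - κ - Finsupp.single P 1 - ∑ j, c j • D j) → u ∈ S.H0 (s.rs L) →
  (∀ (y : S.F) (t₀ : K) (t : Fin k → K), LG M ⟨s.ι y, s.mem y y.2⟩ L t₀ →
    (∀ j, LG M ⟨s.ι y, s.mem y y.2⟩ (D j) (t j)) →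
    LIm S y fun z => nv S (u * s.res t₀) z * ∏ j, (∑ w ∈ W j, nv S (s.res (w * t j)) z) ^ (-c j)) →
  ∃ f ∈ M.H0 L, s.res f = u

end Vale.Agent.P277Z.Lift
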