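import Vale.Agent.P277Z.Lift.TDefs

/-!
# P277Z, lifting: the pointwise estimate
-/

open scoped ENNReal
open Filter

set_option linter.unusedSectionVars false

noncomputable section

namespace Vale.Agent.P277Z.Lift.Fr

variable {GX GS V R P Z I J : Type} [AddCommGroup GX] [AddCommGroup GS] [AddCommGroup V]
  [Module ℝ V] [CommMonoid R] [Fintype I] [Fintype J] [DecidableEq I]
  {F : Fr GX GS V R P Z I J}

omit [Fintype I] [Fintype J] [DecidableEq I] in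
theorem nq_rpow {x : P} {s : R} {z : Z} (h : F.ev x s z ≠ 0) (c : ℝ) :
    F.nq x s z ^ c = ENNReal.ofReal (Real.exp (2 * c * Real.log ‖F.ev x s z‖)) := by
  have h1 : 0 < ‖F.ev x s z‖ ^ 2 := pow_pos (norm_pos_iff.2 h) 2
  rw [nq, ENNReal.ofReal_rpow_of_pos h1, Real.rpow_def_of_pos h1, Real.log_pow]
  congr 2
  push_cast
  ring

omit [Fintype I] [Fintype J] [DecidableEq I] in
theorem nq_ne (x : P) (s : R) (z : Z) (c : ℝ) : F.nq x s z ^ (-c) ≠ 0 ∨ c < 0 := by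
  by_cases h : F.ev x s z = 0
  · rcases lt_or_ge c 0 with h1 | h1
    · exact Or.inr h1
    · left
      rw [nq, h]
      simp [ENNReal.rpow_eq_zero_iff, h1]
  · left
    rw [nq_rpow h]
    exact (ENNReal.ofReal_pos.2 (Real.exp_pos _)).ne'

omit [Fintype I] [Fintype J] [DecidableEq I] in
theorem nq_top {x : P} {s : R} {z : Z} (h : F.ev x s z = 0) {c : ℝ} (hc : 0 < c) :
    F.nq x s z ^ (-c) = ⊤ := by
  rw [nq, h]
  simp [hc]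

omit [Fintype I] [DecidableEq I] in
theorem ev_mono (x : P) (A : J → ℕ) (z : Z) :
    F.ev x (∏ Y, F.y Y ^ A Y) z = ∏ Y, F.ev x (F.y Y) z ^ A Y := by
  simp [map_prod, Finset.prod_apply]

omit [Fintype I] [DecidableEq I] in
theorem log_mono {x : P} {z : Z} (h : ∀ Y, F.ev x (F.y Y) z ≠ 0) (A : J → ℕ) :
    F.ev x (∏ Y, F.y Y ^ A Y) z ≠ 0 ∧ Real.log ‖F.ev x (∏ Y, F.y Y ^ A Y) z‖ =
      ∑ Y, A Y * Real.log ‖F.ev x (F.y Y) z‖ := by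
  rw [ev_mono]
  refine ⟨Finset.prod_ne_zero_iff.2 fun Y _ => pow_ne_zero _ (h Y), ?_⟩
  rw [norm_prod, Real.log_prod fun Y _ => norm_ne_zero_iff.2 (pow_ne_zero _ (h Y))]
  simp [Real.log_pow]

theorem Ok.logb (H : F.Ok) {g : GS} {s : R} (hs : F.Sec g s) (x : P) {d : ℝ} (hd : 0 ≤ d) :
    ∃ B : ℝ, ∀ᶠ z in F.l x, d * Real.log ‖F.ev x s z‖ ≤ B := by
  obtain ⟨C, hC⟩ := H.bdd g s x hs
  exact ⟨d * C, hC.mono fun z hz =>
    mul_le_mul_of_nonneg_left ((Real.log_le_self (norm_nonneg _)).trans hz) hd⟩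

omit [Fintype I] [Fintype J] [DecidableEq I] in
theorem Un.logb {x : P} {s : R} (hs : F.Un x s) {d : ℝ} (hd : d ≤ 0) :
    ∃ B : ℝ, ∀ᶠ z in F.l x, F.ev x s z ≠ 0 ∧ d * Real.log ‖F.ev x s z‖ ≤ B := by
  obtain ⟨c, h0, hc⟩ := hs
  exact ⟨d * Real.log c, hc.mono fun z hz => ⟨norm_pos_iff.1 (h0.trans_le hz),
    mul_le_mul_of_nonpos_left (Real.log_le_log h0 hz) hd⟩⟩

/-- the pointwise estimate -/
theorem Ok.key (H : F.Ok) (x : P) {n n' : ℕ} {A A' v χ : J → ℕ} {c₁ c₂ c₃ ε : ℝ} {γ : J → ℝ}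
    {t w w₀ τ : R} {g₁ g₂ g₃ : GS} {W : Finset R} (ht : F.Sec g₁ t) (hw : F.Sec g₂ w)
    (hτ : F.Sec g₃ τ) (h₀ : F.Un x w₀) (hW : t ^ n' * (∏ Y, F.y Y ^ A' Y) * w₀ ∈ W)
    (h1 : 0 ≤ c₁) (hε : 0 < ε) (h2 : c₂ ≤ ε) (hγ : ∀ Y, 0 < γ Y) (hn : c₁ * n' ≤ n)
    (hn' : n = 0 → n' = 0) (hA : ∀ Y, F.On x Y → c₁ * A' Y + c₂ * v Y + c₃ * χ Y - A Y ≤ γ Y)
    (hI : F.LI x fun z => F.nq x τ z ^ (-ε) * F.wt x γ z) :
    F.LI x fun z => F.nq x (t ^ n * (∏ Y, F.y Y ^ A Y) * w) z * (∑ s ∈ W, F.nq x s z) ^ (-c₁) *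
      F.nq x (τ * ∏ Y, F.y Y ^ v Y) z ^ (-c₂) * F.nq x (∏ Y, F.y Y ^ χ Y) z ^ (-c₃) := by
  obtain ⟨B₁, b1⟩ := H.logb ht x (sub_nonneg.2 hn)
  obtain ⟨B₂, b2⟩ := H.logb hw x zero_le_one
  obtain ⟨B₃, b3⟩ := H.logb hτ x (sub_nonneg.2 h2)
  obtain ⟨B₄, b4⟩ := h₀.logb (neg_nonpos.2 h1)
  have b5 : ∀ Y, ∃ B : ℝ, ∀ᶠ z in F.l x, (γ Y - (c₁ * A' Y + c₂ * v Y + c₃ * χ Y - A Y)) *
      Real.log ‖F.ev x (F.y Y) z‖ ≤ B := by
    intro Y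
    rcases le_total 0 (γ Y - (c₁ * A' Y + c₂ * v Y + c₃ * χ Y - A Y)) with h | h
    · exact H.logb (H.sec_y Y) x h
    · by_cases h3 : F.On x Y
      · exact H.logb (H.sec_y Y) x (sub_nonneg.2 (hA Y h3))
      · exact ((H.off x Y h3).logb h).imp fun B hB => hB.mono fun z hz => hz.2
  choose B b5 using b5
  refine H.li x _ _ (Real.exp (2 * (B₁ + B₂ + B₃ + B₄ + ∑ Y, B Y))) ?_ hI
  filter_upwards [b1, b2, b3, b4, eventually_all.2 b5] with z e1 e2 e3 e4 e5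
  have hC : ENNReal.ofReal (Real.exp (2 * (B₁ + B₂ + B₃ + B₄ + ∑ Y, B Y))) ≠ 0 :=
    (ENNReal.ofReal_pos.2 (Real.exp_pos _)).ne'
  have n1 : F.nq x τ z ^ (-ε) ≠ 0 := (nq_ne x τ z ε).resolve_right hε.le.not_gt
  have n2 : ∀ Y, F.nq x (F.y Y) z ^ (-γ Y) ≠ 0 := fun Y =>
    (nq_ne x _ z _).resolve_right (hγ Y).le.not_gt
  by_cases hz : F.ev x τ z = 0
  · rw [nq_top hz hε, wt, ENNReal.top_mul (Finset.prod_ne_zero_iff.2 fun Y _ => n2 Y),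
      ENNReal.mul_top hC]
    exact le_top
  by_cases hy : ∃ Y, F.ev x (F.y Y) z = 0
  · obtain ⟨Y, hY⟩ := hy
    have : F.wt x γ z = ⊤ := by
      classical
      rw [wt, ← Finset.mul_prod_erase _ _ (Finset.mem_univ Y), nq_top hY (hγ Y),
        ENNReal.top_mul (Finset.prod_ne_zero_iff.2 fun Y _ => n2 Y)]
    rw [this, ENNReal.mul_top n1, ENNReal.mul_top hC]
    exact le_top
  push Not at hy
  by_cases hu : F.ev x (t ^ n * (∏ Y, F.y Y ^ A Y) * w) z = 0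
  · simp [nq, hu]
  have hu' := hu
  simp only [map_mul, map_pow, Pi.mul_apply, Pi.pow_apply, mul_eq_zero, not_or] at hu'
  have t1 : F.ev x t z ^ n' ≠ 0 := by
    rcases Nat.eq_zero_or_pos n with h | h
    · simp [hn' h]
    · exact pow_ne_zero _ fun e => hu'.1.1 (by rw [e, zero_pow h.ne'])
  have lg : ∀ (k : ℕ) (D : J → ℕ) (s : R), F.ev x t z ^ k ≠ 0 → F.ev x s z ≠ 0 →
      F.ev x (t ^ k * (∏ Y, F.y Y ^ D Y) * s) z ≠ 0 ∧
      Real.log ‖F.ev x (t ^ k * (∏ Y, F.y Y ^ D Y) * s) z‖ = k * Real.log ‖F.ev x t z‖ +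
        ∑ Y, D Y * Real.log ‖F.ev x (F.y Y) z‖ + Real.log ‖F.ev x s z‖ := by
    intro k D s k1 k2
    obtain ⟨k3, k4⟩ := log_mono hy D
    simp only [map_mul, map_pow, Pi.mul_apply, Pi.pow_apply]
    refine ⟨mul_ne_zero (mul_ne_zero k1 k3) k2, ?_⟩
    rw [norm_mul, Real.log_mul (norm_ne_zero_iff.2 (mul_ne_zero k1 k3)) (norm_ne_zero_iff.2 k2),
      norm_mul, Real.log_mul (norm_ne_zero_iff.2 k1) (norm_ne_zero_iff.2 k3), k4, norm_pow,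
      Real.log_pow]
  obtain ⟨-, l1⟩ := lg n A w hu'.1.1 hu'.2
  obtain ⟨l2, l3⟩ := lg n' A' w₀ t1 e4.1
  obtain ⟨l4, l5⟩ := lg 0 v τ (by simp) hz
  obtain ⟨l6, l7⟩ := log_mono hy χ
  rw [pow_zero, one_mul, mul_comm] at l4 l5
  have m1 : (∑ s ∈ W, F.nq x s z) ^ (-c₁) ≤
      F.nq x (t ^ n' * (∏ Y, F.y Y ^ A' Y) * w₀) z ^ (-c₁) := by
    rw [ENNReal.rpow_neg, ENNReal.rpow_neg]
    exact ENNReal.inv_le_inv.2 (ENNReal.rpow_le_rpow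
      (Finset.single_le_sum (f := fun s => F.nq x s z) (fun _ _ => zero_le) hW) h1)
  refine (mul_le_mul_left (mul_le_mul_left (mul_le_mul_right m1 _) _) _).trans ?_
  have m2 : F.wt x γ z = ENNReal.ofReal (Real.exp (∑ Y, 2 * -γ Y * Real.log ‖F.ev x (F.y Y) z‖)) := by
    rw [wt, Real.exp_sum, ENNReal.ofReal_prod_of_nonneg fun _ _ => (Real.exp_pos _).le]
    exact Finset.prod_congr rfl fun Y _ => nq_rpow (hy Y) _
  rw [← ENNReal.rpow_one (F.nq x (t ^ n * _ * w) z), nq_rpow hu, nq_rpow l2, nq_rpow l4, nq_rpow l6,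
    nq_rpow hz, m2, l1, l3, l5, l7]
  simp only [← ENNReal.ofReal_mul (Real.exp_pos _).le, ← Real.exp_add]
  refine ENNReal.ofReal_le_ofReal (Real.exp_le_exp.2 ?_)
  have m3 := Finset.sum_le_sum fun Y (_ : Y ∈ Finset.univ) => e5 Y
  simp only [sub_mul, add_mul, Finset.sum_sub_distrib, Finset.sum_add_distrib, mul_assoc,
    ← Finset.mul_sum] at m3
  simp only [mul_assoc, neg_mul, Finset.sum_neg_distrib, ← Finset.mul_sum, mul_neg]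
  have := e4.2
  push_cast
  nlinarith

end Vale.Agent.P277Z.Lift.Fr
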