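import Vale.Agent.P298.H283.OTLim
import Vale.Agent.P298.H293.TwK

/-!
# P277Z, Lift: the one sheeted cover of a round ball and its exhaustion function
-/

open MeasureTheory Filter Topology Metric Set
open scoped ENNReal NNReal ComplexConjugate

noncomputable section

namespace Vale.Agent.P277Z.Lift

open Vale.Agent.P300.L2 Vale.Agent.P300.L2.Sheets Vale.Agent.P298.H293

variable {n : ℕ}

/-- the one sheeted cover -/
def one (V : Set (Fin n → ℂ)) (hV : IsOpen V) : Sheets n 1 where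
  V := V
  fib := fun _ => {0}
  IsSection W s := IsOpen W ∧ W ⊆ V ∧ ∀ z ∈ W, s z = 0
  isOpen := hV
  isOpen_dom h := h.1
  subset_dom h := h.2.1
  mem_fib h z hz := by rw [h.2.2 z hz]; exact Finset.mem_singleton_self _
  germ_eq h h' z hz hz' _ := by
    filter_upwards [h.1.mem_nhds hz, h'.1.mem_nhds hz'] with y h1 h2
    rw [h.2.2 y h1, h'.2.2 y h2]
  mono_dom h hW hWW := ⟨hW, hWW.trans h.2.1, fun z hz => h.2.2 z (hWW hz)⟩
  meas_dom h := ⟨fun _ => 0, measurable_const, fun z hz => (h.2.2 z hz).symm⟩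
  loc z₀ hz := ⟨V, fun _ _ => 0, hV, hz, subset_rfl, fun _ => ⟨hV, subset_rfl, fun _ _ => rfl⟩,
    fun z _ => ⟨fun i j _ => Subsingleton.elim i j, by simp⟩⟩

theorem one_mem {V : Set (Fin n → ℂ)} {hV : IsOpen V} {z : Fin n → ℂ} (hz : z ∈ V) :
    (z, 0) ∈ (one V hV).M := ⟨hz, Finset.mem_singleton_self _⟩

theorem one_sec {V : Set (Fin n → ℂ)} {hV : IsOpen V} : (one V hV).IsSection V fun _ => 0 :=
  ⟨hV, subset_rfl, fun _ _ => rfl⟩

theorem one_lint {V : Set (Fin n → ℂ)} {hV : IsOpen V} {Ψ : (Fin n → ℂ) × ℕ → ℝ≥0∞}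
    (hΨ : AEMeasurable Ψ (one V hV).μ) :
    ∫⁻ q, Ψ q ∂(one V hV).μ = ∫⁻ z in V, Ψ (z, 0) := by
  rw [lintegral_μ' hΨ]
  refine lintegral_congr fun z => ?_
  exact Finset.sum_singleton _ _

/-- the square of the Euclidean norm -/
def sqn (z : Fin n → ℂ) : ℝ := ∑ j, ‖z j‖ ^ 2

theorem sqn_nonneg (z : Fin n → ℂ) : 0 ≤ sqn z := Finset.sum_nonneg fun _ _ => sq_nonneg _

theorem coord_sq_le (z : Fin n → ℂ) (j : Fin n) : ‖z j‖ ^ 2 ≤ sqn z :=
  Finset.single_le_sum (f := fun j => ‖z j‖ ^ 2) (fun _ _ => sq_nonneg _) (Finset.mem_univ j)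

theorem norm_sq_le_sqn (z : Fin n → ℂ) : ‖z‖ ^ 2 ≤ sqn z := by
  have h : ‖z‖ ≤ √(sqn z) := by
    rw [pi_norm_le_iff_of_nonneg (Real.sqrt_nonneg _)]
    exact fun j => Real.le_sqrt_of_sq_le (coord_sq_le z j)
  calc ‖z‖ ^ 2 ≤ √(sqn z) ^ 2 := pow_le_pow_left₀ (norm_nonneg _) h 2
    _ = _ := Real.sq_sqrt (sqn_nonneg z)

theorem contDiff_sqn {m : ℕ} : ContDiff ℝ m (sqn (n := n)) :=
  ContDiff.sum fun j _ => (contDiff_apply ℝ ℂ j).norm_sq ℝ

/-- the round ball -/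
def eb (n : ℕ) (r : ℝ) : Set (Fin n → ℂ) := {z | sqn z < r ^ 2}

theorem isOpen_eb (r : ℝ) : IsOpen (eb n r) :=
  isOpen_lt (contDiff_sqn (m := 0)).continuous continuous_const

theorem eb_subset {r : ℝ} (hr : 0 ≤ r) : eb n r ⊆ ball 0 r := fun z hz => by
  rw [mem_ball_zero_iff]
  exact lt_of_pow_lt_pow_left₀ 2 hr ((norm_sq_le_sqn z).trans_lt hz)

theorem cd_sqn (S : Sheets n 1) (m : ℕ) : S.CD m fun q => ((sqn q.1 : ℝ) : ℂ) :=
  CD.fst (f := fun z => ((sqn z : ℝ) : ℂ))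
    (Complex.ofRealCLM.contDiff.comp contDiff_sqn).contDiffOn

theorem db_sqn {S : Sheets n 1} {q : (Fin n → ℂ) × ℕ} (hq : q ∈ S.M) (k : Fin n) :
    S.Db k (fun q => ((sqn q.1 : ℝ) : ℂ)) q = q.1 k := by
  have h := Db_normSq_sum (S := S) (F := fun j q => q.1 j) (fun j => holo_coord j) 0 hq k
  simp only [zero_add, D_coord] at h
  rw [show (fun q : (Fin n → ℂ) × ℕ => ((sqn q.1 : ℝ) : ℂ)) =
    fun q => ((∑ j, ‖q.1 j‖ ^ 2 : ℝ) : ℂ) from rfl, h, Finset.sum_eq_single k]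
  · simp
  · intro b _ hb
    simp [hb.symm]
  · simp

theorem d_sqn {S : Sheets n 1} {q : (Fin n → ℂ) × ℕ} (hq : q ∈ S.M) (k : Fin n) :
    S.D k (fun q => ((sqn q.1 : ℝ) : ℂ)) q = conj (q.1 k) := by
  rw [← db_sqn hq k, ← D_conj]
  congr 1
  funext q
  rw [Complex.conj_ofReal]

theorem levi_sqn {S : Sheets n 1} {q : (Fin n → ℂ) × ℕ} (hq : q ∈ S.M) (β : Fin n → ℂ) :
    S.levi (fun q => sqn q.1) β q = ∑ j, ‖β j‖ ^ 2 := by
  unfold levi
  have h : ∀ j k, S.D j (S.Db k fun q => ((sqn q.1 : ℝ) : ℂ)) q = if j = k then 1 else 0 := by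
    intro j k
    rw [D_congr (X := fun q => q.1 k) (fun q hq => db_sqn hq k) hq, D_coord]
  simp only [h, ite_mul, one_mul, zero_mul, Finset.sum_ite_eq, Finset.mem_univ, if_true,
    Complex.mul_conj', Complex.re_sum]
  refine Finset.sum_congr rfl fun j _ => ?_
  rw [← Complex.ofReal_pow, Complex.ofReal_re]

theorem hasDeriv_inv1 {a t : ℝ} (h : a - t ≠ 0) :
    HasDerivAt (fun t : ℝ => t + (a - t)⁻¹) (1 + ((a - t) ^ 2)⁻¹) t := by
  have h8 : HasDerivAt (fun t : ℝ => a - t) (-1) t := by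
    simpa using (hasDerivAt_id t).const_sub a
  refine ((hasDerivAt_id t).add ((hasDerivAt_inv h).comp t h8)).congr_deriv ?_
  ring

theorem hasDeriv_inv2 {a t : ℝ} (h : a - t ≠ 0) :
    HasDerivAt (fun t : ℝ => 1 + ((a - t) ^ 2)⁻¹) (2 * ((a - t) ^ 3)⁻¹) t := by
  have h8 : HasDerivAt (fun t : ℝ => a - t) (-1) t := by
    simpa using (hasDerivAt_id t).const_sub a
  refine (((h8.pow 2).inv (pow_ne_zero 2 h)).const_add 1).congr_deriv ?_
  simp only [Pi.pow_apply]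
  field_simp
  ring

/-- the exhaustion function of the round ball -/
theorem exh_eb {r : ℝ} :
    Exh (eb n r) (fun z => sqn z + (r ^ 2 - sqn z)⁻¹) (r ^ 2) 4 := by
  have hpos : ∀ z ∈ eb n r, 0 < r ^ 2 - sqn z := fun z hz => sub_pos.2 hz
  have hsm : ∀ m : ℕ, ContDiffOn ℝ m (fun z => (r ^ 2 - sqn z)⁻¹) (eb n r) := fun m =>
    (contDiffOn_const.sub contDiff_sqn.contDiffOn).inv fun z hz => (hpos z hz).ne'
  set S := one (eb n r) (isOpen_eb r) with hS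
  have hD : ∀ z ∈ eb n r, ∀ j, dz j (fun z => ((sqn z + (r ^ 2 - sqn z)⁻¹ : ℝ) : ℂ)) z =
      ((1 + ((r ^ 2 - sqn z) ^ 2)⁻¹ : ℝ) : ℂ) * conj (z j) := by
    intro z hz j
    have h1 := D_comp_real (S := S) (j := j) (φ := fun t : ℝ => t + (r ^ 2 - t)⁻¹)
      (u := fun q => sqn q.1) (cd_sqn S 1) (one_mem hz)
      (hasDeriv_inv1 (hpos z hz).ne').differentiableAt
    rw [(hasDeriv_inv1 (hpos z hz).ne').deriv, d_sqn (one_mem hz)] at h1
    exact h1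
  refine ⟨contDiff_sqn.contDiffOn.add (hsm 4), fun z hz => ?_, fun c => ?_, fun z hz β => ?_,
    fun z hz => ?_⟩
  · have := inv_pos.2 (hpos z hz)
    linarith [norm_sq_le_sqn z]
  · have hK : IsClosed {z : Fin n → ℂ | sqn z ≤ r ^ 2 - (max c 1)⁻¹} :=
      isClosed_le (contDiff_sqn (m := 0)).continuous continuous_const
    have hc : 0 < max c 1 := lt_max_of_lt_right one_pos
    have hKV : {z : Fin n → ℂ | sqn z ≤ r ^ 2 - (max c 1)⁻¹} ⊆ eb n r := fun z hz => by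
      have := inv_pos.2 hc
      have h0 : sqn z ≤ r ^ 2 - (max c 1)⁻¹ := hz
      show sqn z < r ^ 2
      linarith
    have h1 : {z | z ∈ eb n r ∧ sqn z + (r ^ 2 - sqn z)⁻¹ ≤ c} =
        {z : Fin n → ℂ | sqn z ≤ r ^ 2 - (max c 1)⁻¹} ∩
          (fun z => sqn z + (r ^ 2 - sqn z)⁻¹) ⁻¹' Iic c := by
      ext z
      refine ⟨fun h => ⟨?_, h.2⟩, fun h => ⟨hKV h.1, h.2⟩⟩
      have h2 : (r ^ 2 - sqn z)⁻¹ ≤ max c 1 := by
        linarith [h.2, sqn_nonneg z, le_max_left c 1]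
      have h3 := inv_le_of_inv_le₀ (hpos z h.1) h2
      show sqn z ≤ _
      linarith
    rw [h1]
    refine isCompact_of_isClosed_isBounded
      (((contDiff_sqn (m := 0)).continuous.continuousOn.add
        ((hsm 0).continuousOn.mono hKV)).preimage_isClosed_of_isClosed hK isClosed_Iic) ?_
    refine (isBounded_ball (x := (0 : Fin n → ℂ)) (r := |r|)).subset fun z hz => ?_
    refine eb_subset (abs_nonneg r) ?_
    have := hKV hz.1
    show sqn z < |r| ^ 2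
    rwa [sq_abs]
  · have h1 := levi_comp_real (S := S) (h := fun t : ℝ => t + (r ^ 2 - t)⁻¹)
      (h1 := fun t : ℝ => 1 + ((r ^ 2 - t) ^ 2)⁻¹) (h2 := fun t => 2 * ((r ^ 2 - t) ^ 3)⁻¹)
      (u := fun q => sqn q.1) (cd_sqn S 2) (fun q hq => hasDeriv_inv1 (hpos _ hq.1).ne')
      (fun q hq => hasDeriv_inv2 (hpos _ hq.1).ne')
      (CD.fst (f := fun z => ((1 + ((r ^ 2 - sqn z) ^ 2)⁻¹ : ℝ) : ℂ))
        (Complex.ofRealCLM.contDiff.comp_contDiffOn (contDiffOn_const.add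
          (((contDiffOn_const.sub contDiff_sqn.contDiffOn).pow 2).inv
            fun z hz => pow_ne_zero 2 (hpos z hz).ne')))) (one_mem hz) β
    rw [levi_sqn (one_mem hz)] at h1
    refine le_trans ?_ (le_of_eq h1.symm)
    have h2 := hpos z hz
    have h3 : 0 ≤ ∑ j, ‖β j‖ ^ 2 := Finset.sum_nonneg fun _ _ => sq_nonneg _
    have h4 : 0 ≤ ((r ^ 2 - sqn z) ^ 2)⁻¹ * ∑ j, ‖β j‖ ^ 2 := by positivity
    have h5 : 0 ≤ 2 * ((r ^ 2 - sqn z) ^ 3)⁻¹ *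
      ‖∑ j, S.D j (fun q => ((sqn q.1 : ℝ) : ℂ)) (z, 0) * β j‖ ^ 2 := by positivity
    simp only at h5 ⊢
    linarith
  · have h2 := hpos z hz
    have h3 := sqn_nonneg z
    have h4 : 0 < (r ^ 2 - sqn z)⁻¹ := inv_pos.2 h2
    simp only [hD z hz, norm_mul, mul_pow, Complex.norm_real, Real.norm_eq_abs, sq_abs,
      RCLike.norm_conj, ← Finset.mul_sum]
    rw [← inv_pow]
    generalize (r ^ 2 - sqn z)⁻¹ = a at h4
    have h5 : 1 + a ^ 2 ≤ (1 + (sqn z + a)) ^ 2 := by nlinarith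
    have h6 : (1 + a ^ 2) ^ 2 ≤ ((1 + (sqn z + a)) ^ 2) ^ 2 :=
      pow_le_pow_left₀ (by positivity) h5 2
    calc (1 + a ^ 2) ^ 2 * sqn z ≤ ((1 + (sqn z + a)) ^ 2) ^ 2 * r ^ 2 :=
          mul_le_mul h6 (le_of_lt hz) h3 (by positivity)
      _ = _ := by ring

end Vale.Agent.P277Z.Lift
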