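import Vale.Agent.P277Z.Lift.Lot1

/-!
# P277Z, Lift: the theorem of Ohsawa and Takegoshi on a round ball, for weights with analytic
singularities
-/

open MeasureTheory Filter Topology Metric Set
open scoped ENNReal NNReal ComplexConjugate

noncomputable section

namespace Vale.Agent.P277Z.Lift

open Vale.Agent.P300.L2 Vale.Agent.P300.L2.Sheets Vale.Agent.P298.H293 Vale.Agent.P298.H283

/-- the singular weight `∏ j, (∑ a, |σ j a|²) ^ (-c j)`, with the value `∞` at the zeros -/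
def wt {Z J : Type*} [Fintype J] {r : J → ℕ} (σ : ∀ j, Fin (r j) → Z → ℂ) (c : J → ℝ) (z : Z) :
    ℝ≥0∞ :=
  ∏ j, ENNReal.ofReal (∑ a, ‖σ j a z‖ ^ 2) ^ (-c j)

section W

variable {Z J : Type*} [Fintype J] {r : J → ℕ} {σ : ∀ j, Fin (r j) → Z → ℂ} {c : J → ℝ}

/-- the smooth approximations -/
def ph (σ : ∀ j, Fin (r j) → Z → ℂ) (c : J → ℝ) (m : ℕ) (z : Z) : ℝ :=
  ∑ j, c j * Real.log (1 / ((m : ℝ) + 1) + ∑ a, ‖σ j a z‖ ^ 2)

theorem exp_ph (m : ℕ) (z : Z) : ENNReal.ofReal (Real.exp (-ph σ c m z)) =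
    ∏ j, ENNReal.ofReal (1 / ((m : ℝ) + 1) + ∑ a, ‖σ j a z‖ ^ 2) ^ (-c j) := by
  rw [ph, ← Finset.sum_neg_distrib, Real.exp_sum,
    ENNReal.ofReal_prod_of_nonneg fun _ _ => (Real.exp_pos _).le]
  refine Finset.prod_congr rfl fun j _ => ?_
  have h : 0 < 1 / ((m : ℝ) + 1) + ∑ a, ‖σ j a z‖ ^ 2 := by positivity
  rw [ENNReal.ofReal_rpow_of_pos h, Real.rpow_def_of_pos h]
  congr 2
  ring

theorem rpow_neg_anti {a b : ℝ≥0∞} (h : a ≤ b) {t : ℝ} (ht : 0 ≤ t) : b ^ (-t) ≤ a ^ (-t) := by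
  rw [ENNReal.rpow_neg, ENNReal.rpow_neg]
  exact ENNReal.inv_le_inv.2 (ENNReal.rpow_le_rpow h ht)

theorem exp_ph_le (hc : ∀ j, 0 ≤ c j) (m : ℕ) (z : Z) :
    ENNReal.ofReal (Real.exp (-ph σ c m z)) ≤ wt σ c z := by
  rw [exp_ph]
  refine Finset.prod_le_prod' fun j _ => rpow_neg_anti (ENNReal.ofReal_le_ofReal ?_) (hc j)
  have : (0 : ℝ) ≤ 1 / ((m : ℝ) + 1) := by positivity
  linarith

theorem tendsto_prod_ne_zero {ι α : Type*} {f : ι → α → ℝ≥0∞} {x : Filter α} {a : ι → ℝ≥0∞}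
    (s : Finset ι) (h : ∀ i ∈ s, Tendsto (f i) x (𝓝 (a i))) (h' : ∀ i ∈ s, a i ≠ 0) :
    Tendsto (fun b => ∏ c ∈ s, f c b) x (𝓝 (∏ c ∈ s, a c)) := by
  classical
  induction s using Finset.induction with
  | empty => simpa using tendsto_const_nhds
  | insert i s hi ih =>
    simp only [Finset.prod_insert hi]
    refine ENNReal.Tendsto.mul (h i (Finset.mem_insert_self _ _))
      (Or.inl (h' i (Finset.mem_insert_self _ _)))
      (ih (fun j hj => h j (Finset.mem_insert_of_mem hj))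
        fun j hj => h' j (Finset.mem_insert_of_mem hj))
      (Or.inl (Finset.prod_ne_zero_iff.2 fun j hj => h' j (Finset.mem_insert_of_mem hj)))

theorem ofReal_rpow_neg_ne {x t : ℝ} (ht : 0 ≤ t) : ENNReal.ofReal x ^ (-t) ≠ 0 := by
  rw [ENNReal.rpow_neg]
  exact ENNReal.inv_ne_zero.2 (ENNReal.rpow_ne_top_of_nonneg ht ENNReal.ofReal_ne_top)

theorem tendsto_exp_ph (hc : ∀ j, 0 ≤ c j) (z : Z) :
    Tendsto (fun m => ENNReal.ofReal (Real.exp (-ph σ c m z))) atTop (𝓝 (wt σ c z)) := by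
  simp only [exp_ph]
  refine tendsto_prod_ne_zero _ (fun j _ => ?_) fun j _ => ofReal_rpow_neg_ne (hc j)
  refine (ENNReal.continuous_rpow_const.tendsto _).comp (ENNReal.tendsto_ofReal ?_)
  have := (tendsto_one_div_add_atTop_nhds_zero_nat (𝕜 := ℝ)).add_const (∑ a, ‖σ j a z‖ ^ 2)
  rwa [zero_add] at this

theorem ph_anti (hc : ∀ j, 0 ≤ c j) (m : ℕ) (z : Z) : ph σ c (m + 1) z ≤ ph σ c m z := by
  refine Finset.sum_le_sum fun j _ =>
    mul_le_mul_of_nonneg_left (Real.log_le_log (by positivity) ?_) (hc j)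
  have : 1 / (((m + 1 : ℕ) : ℝ) + 1) ≤ 1 / ((m : ℝ) + 1) := by
    push_cast
    exact one_div_le_one_div_of_le (by positivity) (by linarith)
  linarith

theorem ph_ge (hc : ∀ j, 0 ≤ c j) (m : ℕ) (z : Z) :
    ∑ j, c j * Real.log (1 / ((m : ℝ) + 1)) ≤ ph σ c m z := by
  refine Finset.sum_le_sum fun j _ =>
    mul_le_mul_of_nonneg_left (Real.log_le_log (by positivity) ?_) (hc j)
  have : 0 ≤ ∑ a, ‖σ j a z‖ ^ 2 := by positivity
  linarith

end W

variable {n : ℕ}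

theorem levi_sum {N : ℕ} {S : Sheets n N} {J : Type*} (s : Finset J) {c : J → ℝ}
    (hc : ∀ j, 0 ≤ c j) {L : J → (Fin n → ℂ) × ℕ → ℝ} (h1 : ∀ j, S.CD 2 fun q => (L j q : ℂ))
    (h2 : ∀ j, ∀ q ∈ S.M, ∀ β, 0 ≤ S.levi (L j) β q) :
    S.CD 2 (fun q => ((∑ j ∈ s, c j * L j q : ℝ) : ℂ)) ∧
      ∀ q ∈ S.M, ∀ β, 0 ≤ S.levi (fun q => ∑ j ∈ s, c j * L j q) β q := by
  classical
  induction s using Finset.induction with
  | empty =>
    refine ⟨by simpa using CD.const (S := S) (m := 2) 0, fun q hq β => ?_⟩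
    have h := levi_lin (S := S) (Φ := fun _ => 0) (Ψ := fun _ => 0) (CD.const _) (CD.const _)
      0 0 hq β
    simp only [zero_mul, add_zero] at h
    simp only [Finset.sum_empty, h, le_refl]
  | insert i s hi ih =>
    simp only [Finset.sum_insert hi]
    refine ⟨(((CD.const (c i : ℂ)).mul (h1 i)).add ih.1).congr fun q _ => by push_cast; rfl,
      fun q hq β => ?_⟩
    have h := levi_lin (h1 i) ih.1 (c i) 1 hq β
    simp only [one_mul] at h
    rw [h]
    exact add_nonneg (mul_nonneg (hc i) (h2 i q hq β)) (ih.2 q hq β)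

theorem norm_cons_tail (z : Fin (n + 1) → ℂ) :
    ‖z - Fin.cons 0 (Fin.tail z)‖ ≤ ‖z 0‖ := by
  rw [pi_norm_le_iff_of_nonneg (norm_nonneg _)]
  intro i
  refine Fin.cases ?_ (fun i => ?_) i
  · simp
  · simp [Fin.tail]

theorem norm_tail_le (z : Fin (n + 1) → ℂ) : ‖Fin.tail z‖ ≤ ‖z‖ := by
  rw [pi_norm_le_iff_of_nonneg (norm_nonneg _)]
  exact fun i => norm_le_pi_norm z i.succ

theorem norm_cons_zero (x : Fin n → ℂ) : ‖(Fin.cons 0 x : Fin (n + 1) → ℂ)‖ ≤ ‖x‖ := by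
  rw [pi_norm_le_iff_of_nonneg (norm_nonneg _)]
  intro i
  refine Fin.cases ?_ (fun i => ?_) i
  · simp
  · simpa using norm_le_pi_norm x i

theorem continuous_cons0 : Continuous fun x : Fin n → ℂ => (Fin.cons 0 x : Fin (n + 1) → ℂ) :=
  continuous_pi fun i => Fin.cases continuous_const (fun i => continuous_apply i) i

theorem lint_box {A : Set ℂ} {B : Set (Fin n → ℂ)} {f : ℂ → ℝ≥0∞} {g : (Fin n → ℂ) → ℝ≥0∞}
    (hf : AEMeasurable f (volume.restrict A)) (hg : AEMeasurable g (volume.restrict B)) :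
    ∫⁻ z in {z : Fin (n + 1) → ℂ | z 0 ∈ A ∧ Fin.tail z ∈ B}, f (z 0) * g (Fin.tail z) =
      (∫⁻ t in A, f t) * ∫⁻ x in B, g x := by
  have h := (volume_preserving_piFinSuccAbove (fun _ : Fin (n + 1) => ℂ) 0
    ).setLIntegral_comp_preimage_emb (MeasurableEquiv.measurableEmbedding _)
    (fun p : ℂ × (Fin n → ℂ) => f p.1 * g p.2) (A ×ˢ B)
  rw [Measure.volume_eq_prod, ← Measure.prod_restrict, lintegral_prod_mul hf hg] at h
  rw [← h]
  rfl

theorem slab {Y : (Fin (n + 1) → ℂ) → ℝ} {ρ : ℝ} (hY : ContinuousOn Y (closedBall 0 ρ)) {η : ℝ}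
    (hη : 0 < η) : ∃ ε₀ : ℝ, 0 < ε₀ ∧ ∀ ε : ℝ, ε < ε₀ →
      ∫⁻ z in {z : Fin (n + 1) → ℂ | ‖z 0‖ ≤ ε} ∩ closedBall 0 ρ, ENNReal.ofReal (Y z) ≤
        volume (closedBall (0 : ℂ) ε) *
          ((∫⁻ x in closedBall (0 : Fin n → ℂ) ρ, ENNReal.ofReal (Y (Fin.cons 0 x))) +
            ENNReal.ofReal η * volume (closedBall (0 : Fin n → ℂ) ρ)) := by
  obtain ⟨δ, hδ, hu⟩ := Metric.uniformContinuousOn_iff.1
    ((isCompact_closedBall _ _).uniformContinuousOn_of_continuous hY) η hη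
  have hm : ∀ x ∈ closedBall (0 : Fin n → ℂ) ρ,
      (Fin.cons 0 x : Fin (n + 1) → ℂ) ∈ closedBall 0 ρ := fun x hx =>
    mem_closedBall_zero_iff.2 ((norm_cons_zero x).trans (mem_closedBall_zero_iff.1 hx))
  have hg : AEMeasurable (fun x : Fin n → ℂ => ENNReal.ofReal (Y (Fin.cons 0 x)))
      (volume.restrict (closedBall 0 ρ)) :=
    ((hY.comp continuous_cons0.continuousOn hm).aemeasurable
      measurableSet_closedBall).ennreal_ofReal
  refine ⟨δ, hδ, fun ε hε => ?_⟩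
  have h1 := lint_box (A := closedBall (0 : ℂ) ε) (f := fun _ => 1) aemeasurable_const
    (hg.add_const (ENNReal.ofReal η))
  rw [lintegral_add_right _ measurable_const, setLIntegral_one, setLIntegral_const] at h1
  rw [← h1]
  have hms : MeasurableSet ({z : Fin (n + 1) → ℂ | ‖z 0‖ ≤ ε} ∩ closedBall 0 ρ) :=
    (isClosed_le (continuous_apply 0).norm continuous_const).measurableSet.inter
      measurableSet_closedBall
  refine le_trans (setLIntegral_mono' hms fun z hz => ?_) (lintegral_mono_set fun z hz => ?_)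
  · have h2 : Fin.tail z ∈ closedBall (0 : Fin n → ℂ) ρ :=
      mem_closedBall_zero_iff.2 ((norm_tail_le z).trans (mem_closedBall_zero_iff.1 hz.2))
    have h3 := hu z hz.2 _ (hm _ h2) (by
      rw [dist_eq_norm]
      exact ((norm_cons_tail z).trans hz.1).trans_lt hε)
    rw [one_mul]
    refine le_trans (ENNReal.ofReal_le_ofReal ?_) ENNReal.ofReal_add_le
    rw [Real.dist_eq] at h3
    linarith [le_abs_self (Y z - Y (Fin.cons 0 (Fin.tail z)))]
  · exact ⟨mem_closedBall_zero_iff.2 hz.1,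
      mem_closedBall_zero_iff.2 ((norm_tail_le z).trans (mem_closedBall_zero_iff.1 hz.2))⟩

theorem ofReal_sq_mul (a : ℂ) (t : ℝ) :
    ENNReal.ofReal (‖a‖ ^ 2 * t) = ‖a‖ₑ ^ 2 * ENNReal.ofReal t := by
  rw [ENNReal.ofReal_mul (by positivity), ENNReal.ofReal_pow (norm_nonneg _), ofReal_norm]

variable {J : Type*} [Fintype J] {r : J → ℕ} {σ : ∀ j, Fin (r j) → (Fin (n + 1) → ℂ) → ℂ}
  {c : J → ℝ}

/-- **Ohsawa-Takegoshi** on a round ball -/
theorem ot_eb (hc : ∀ j, 0 ≤ c j) {ρ R : ℝ} (hρ : 0 < ρ) (hρ2 : ρ ≤ 1 / 2) (hR : ρ < R)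
    (hσ : ∀ j a, DifferentiableOn ℂ (σ j a) (ball 0 R)) {u : (Fin n → ℂ) → ℂ}
    (hu : DifferentiableOn ℂ u (ball 0 R))
    (hint : ∫⁻ x in closedBall 0 ρ, ‖u x‖ₑ ^ 2 * wt σ c (Fin.cons 0 x) ≠ ⊤) :
    ∃ F : (Fin (n + 1) → ℂ) → ℂ, DifferentiableOn ℂ F (eb (n + 1) ρ) ∧
      (∀ z ∈ eb (n + 1) ρ, z 0 = 0 → F z = u (Fin.tail z)) ∧
      ∫⁻ z in eb (n + 1) ρ, ‖F z‖ₑ ^ 2 * wt σ c z ≠ ⊤ := by
  set S := one (eb (n + 1) ρ) (isOpen_eb ρ) with hS
  have hp : Exh S.V _ _ _ := exh_eb (n := n + 1) (r := ρ)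
  have hcb : closedBall (0 : Fin (n + 1) → ℂ) ρ ⊆ ball 0 R := closedBall_subset_ball hR
  have hVc : eb (n + 1) ρ ⊆ closedBall 0 ρ := (eb_subset hρ.le).trans ball_subset_closedBall
  have hσS : ∀ j a, S.Holo fun q => σ j a q.1 := fun j a =>
    Holo.fst ((hσ j a).mono (hVc.trans hcb))
  have hv : DifferentiableOn ℂ (fun z : Fin (n + 1) → ℂ => u (Fin.tail z)) (ball 0 R) :=
    hu.comp (differentiable_pi.2 fun i => differentiable_apply _).differentiableOn fun z hz =>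
      mem_ball_zero_iff.2 ((norm_tail_le z).trans_lt (mem_ball_zero_iff.1 hz))
  have hvS : S.Holo fun q => u (Fin.tail q.1) := Holo.fst (hv.mono (hVc.trans hcb))
  have hΦ := fun m : ℕ => levi_sum (S := S) Finset.univ hc
    (L := fun j q => Real.log (1 / ((m : ℝ) + 1) + ∑ a, ‖σ j a q.1‖ ^ 2))
    (fun j => CD.log_normSq_sum (hσS j) 2 (by positivity))
    fun j q hq β => le_trans (by positivity) (levi_log_ge (hσS j) (by positivity) hq β)
  obtain ⟨N, hN⟩ : ∃ N, N = (∫⁻ x in closedBall 0 ρ, ‖u x‖ₑ ^ 2 * wt σ c (Fin.cons 0 x)) +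
    ENNReal.ofReal 1 * volume (closedBall (0 : Fin n → ℂ) ρ) := ⟨_, rfl⟩
  have hNt : N ≠ ⊤ := by
    rw [hN]
    exact ENNReal.add_ne_top.2 ⟨hint,
      ENNReal.mul_ne_top ENNReal.ofReal_ne_top measure_closedBall_lt_top.ne⟩
  obtain ⟨b, hb⟩ := (isCompact_closedBall (0 : Fin (n + 1) → ℂ) ρ).exists_bound_of_continuousOn
    (hv.continuousOn.mono hcb)
  have hex : ∀ m : ℕ, ∃ F : (Fin (n + 1) → ℂ) × ℕ → ℂ, S.Holo F ∧
      (∫⁻ q, ENNReal.ofReal (‖F q‖ ^ 2 * Real.exp (-ph σ c m q.1)) ∂S.μ ≤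
        ENNReal.ofReal (otC * (Real.pi * N.toReal))) ∧
      ∀ q ∈ S.M, q.1 0 = 0 → F q = u (Fin.tail q.1) := by
    intro m
    have hY : ContinuousOn (fun z => ‖u (Fin.tail z)‖ ^ 2 * Real.exp (-ph σ c m z))
        (closedBall 0 ρ) := by
      refine ((hv.continuousOn.mono hcb).norm.pow 2).mul (ContinuousOn.rexp (ContinuousOn.neg ?_))
      refine continuousOn_finsetSum _ fun j _ => continuousOn_const.mul (ContinuousOn.log
        (continuousOn_const.add (continuousOn_finsetSum _ fun a _ =>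
          ((hσ j a).continuousOn.mono hcb).norm.pow 2)) fun z _ => ?_)
      positivity
    obtain ⟨ε₀, hε₀, h3⟩ := slab hY one_pos
    have hε0 : 0 < min (ε₀ / 2) (1 / 4) := by positivity
    have h4 := h3 (min (ε₀ / 2) (1 / 4)) ((min_le_left _ _).trans_lt (by linarith))
    refine ot_eps (Φ := fun q => ph σ c m q.1) hp 0 (fun z hz => ?_) (hΦ m).1
      ⟨_, fun q _ => ph_ge hc m q.1⟩ (hΦ m).2 hvS
      ⟨b, 0, fun q hq => by simpa using hb _ (hVc hq.1)⟩ hε0 (min_le_right _ _)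
      (by positivity) ?_
    · exact ((norm_le_pi_norm z 0).trans (mem_closedBall_zero_iff.1 (hVc hz))).trans hρ2
    generalize min (ε₀ / 2) (1 / 4) = ε at hε0 h4
    have hms : MeasurableSet {q : (Fin (n + 1) → ℂ) × ℕ | ‖q.1 0‖ ≤ ε} :=
      measurableSet_le (measurable_coord 0) measurable_const
    have hae : AEMeasurable (fun q : (Fin (n + 1) → ℂ) × ℕ =>
        ENNReal.ofReal (‖u (Fin.tail q.1)‖ ^ 2 * Real.exp (-ph σ c m q.1))) S.μ :=
      (((aestronglyMeasurable_of_CD (hvS.CD 0)).norm.aemeasurable.pow_const 2).mul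
        (Real.measurable_exp.comp_aemeasurable
          (CD_real_nonneg_aux ((hΦ m).1.mono (by norm_num))).neg)).ennreal_ofReal
    rw [← lintegral_indicator hms, one_lint (hae.indicator hms)]
    have hms' : MeasurableSet {z : Fin (n + 1) → ℂ | ‖z 0‖ ≤ ε} :=
      (isClosed_le (continuous_apply 0).norm continuous_const).measurableSet
    calc _ = ∫⁻ z in eb (n + 1) ρ, {z : Fin (n + 1) → ℂ | ‖z 0‖ ≤ ε}.indicator (fun z =>
          ENNReal.ofReal (‖u (Fin.tail z)‖ ^ 2 * Real.exp (-ph σ c m z))) z := rfl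
      _ ≤ _ := by
        rw [lintegral_indicator hms', Measure.restrict_restrict hms']
        exact lintegral_mono_set (inter_subset_inter_right _ hVc)
      _ ≤ _ := h4
      _ ≤ volume (closedBall (0 : ℂ) ε) * N := by
        rw [hN]
        gcongr with x
        rw [ofReal_sq_mul, Fin.tail_cons]
        gcongr
        exact exp_ph_le hc m _
      _ = _ := by
        have h6 : ((NNReal.pi : NNReal) : ℝ≥0∞) = ENNReal.ofReal Real.pi := by
          rw [← ENNReal.ofReal_coe_nnreal, NNReal.coe_real_pi]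
        rw [Complex.volume_closedBall, h6, ← ENNReal.ofReal_pow hε0.le,
          ← ENNReal.ofReal_mul (by positivity), ENNReal.ofReal_mul (by positivity),
          ENNReal.ofReal_mul (by positivity), ENNReal.ofReal_mul (by positivity),
          ENNReal.ofReal_toReal hNt]
        ring
  choose F hF1 hF2 hF3 using hex
  obtain ⟨G, hG1, hG2, φ', -, hφ'⟩ := holo_limit hp (Ψ := fun m q => ph σ c m q.1)
    (fun m => (hΦ m).1.mono (by norm_num)) (fun m q _ => ph_anti hc m q.1) hF1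
    ENNReal.ofReal_ne_top (fun _ => le_rfl) tendsto_const_nhds hF2
  have hGd : DifferentiableOn ℂ (fun z => G (z, 0)) (eb (n + 1) ρ) := hG1 _ _ one_sec
  refine ⟨fun z => G (z, 0), hGd, fun z hz hz0 => ?_, ?_⟩
  · have h1 := hφ' _ (one_mem hz)
    simp only [fun j => hF3 (φ' j) _ (one_mem hz) hz0] at h1
    exact tendsto_nhds_unique h1 tendsto_const_nhds
  · have hae : ∀ m, AEMeasurable (fun q : (Fin (n + 1) → ℂ) × ℕ =>
        ENNReal.ofReal (‖G q‖ ^ 2 * Real.exp (-ph σ c m q.1))) S.μ := fun m =>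
      (((aestronglyMeasurable_of_CD (hG1.CD 0)).norm.aemeasurable.pow_const 2).mul
        (Real.measurable_exp.comp_aemeasurable
          (CD_real_nonneg_aux ((hΦ m).1.mono (by norm_num))).neg)).ennreal_ofReal
    have hlim : ∀ q : (Fin (n + 1) → ℂ) × ℕ, Tendsto (fun m =>
        ENNReal.ofReal (‖G q‖ ^ 2 * Real.exp (-ph σ c m q.1))) atTop
        (𝓝 (‖G q‖ₑ ^ 2 * wt σ c q.1)) := fun q => by
      simp only [ofReal_sq_mul]
      exact ENNReal.Tendsto.const_mul (tendsto_exp_ph hc q.1)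
        (Or.inr (ENNReal.pow_ne_top enorm_ne_top))
    have h1 := lintegral_liminf_le' (u := atTop) hae
    simp only [fun q => (hlim q).liminf_eq] at h1
    rw [one_lint (aemeasurable_of_tendsto_metrizable_ae' hae (Eventually.of_forall hlim))] at h1
    exact ne_top_of_le_ne_top ENNReal.ofReal_ne_top
      (h1.trans (liminf_le_of_frequently_le' (Frequently.of_forall hG2)))

end Vale.Agent.P277Z.Lift
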