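import Vale.Agent.P277Z.Lift.Lot2
import Vale.Agent.P272.GEO.Osgood

/-!
# P277Z, Lift: the substitution `z₀ = w ^ k` and the local extension theorem
-/

open MeasureTheory Filter Topology Metric Set Function
open scoped ENNReal NNReal ComplexConjugate

noncomputable section

namespace Vale.Agent.P277Z.Lift

variable {n k : ℕ}

/-- the mean value over the `k`-th roots of the first coordinate -/
def av (k : ℕ) (F : (Fin (n + 1) → ℂ) → ℂ) (z : Fin (n + 1) → ℂ) : ℂ :=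
  (k : ℂ)⁻¹ * ((Polynomial.nthRoots k (z 0)).map fun w => F (update z 0 w)).sum

theorem av_eq {ζ : ℂ} (hζ : IsPrimitiveRoot ζ k) (F : (Fin (n + 1) → ℂ) → ℂ)
    {z : Fin (n + 1) → ℂ} {α : ℂ} (h : α ^ k = z 0) :
    av k F z = (k : ℂ)⁻¹ * ∑ i ∈ Finset.range k, F (update z 0 (ζ ^ i * α)) := by
  rw [av, hζ.nthRoots_eq h, Multiset.map_map]
  rfl

theorem root_pow {ζ : ℂ} (hζ : IsPrimitiveRoot ζ k) (i : ℕ) (α : ℂ) : (ζ ^ i * α) ^ k = α ^ k := by
  rw [mul_pow, ← pow_mul, mul_comm i k, pow_mul, hζ.pow_eq_one, one_pow, one_mul]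

theorem upd_mem (hk : k ≠ 0) {a : ℝ} (ha : 0 < a) (ha1 : a ≤ 1) {z : Fin (n + 1) → ℂ}
    (hz : z ∈ ball 0 (a ^ k)) {w : ℂ} (hw : w ^ k = z 0) : update z 0 w ∈ ball 0 a := by
  rw [mem_ball_zero_iff, pi_norm_lt_iff (by positivity)] at hz
  rw [mem_ball_zero_iff, pi_norm_lt_iff ha]
  intro i
  by_cases hi : i = 0
  · subst hi
    rw [update_self]
    refine lt_of_pow_lt_pow_left₀ k ha.le ?_
    rw [← norm_pow, hw]
    exact hz 0
  · rw [update_of_ne hi]
    exact (hz i).trans_le (pow_le_of_le_one ha.le ha1 hk)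

theorem diffAt_upd {E : Type*} [NormedAddCommGroup E] [NormedSpace ℂ E]
    {f : E → Fin (n + 1) → ℂ} {g : E → ℂ} {x : E} (hf : DifferentiableAt ℂ f x)
    (hg : DifferentiableAt ℂ g x) : DifferentiableAt ℂ (fun y => update (f y) 0 (g y)) x := by
  refine differentiableAt_pi.2 fun i => ?_
  by_cases hi : i = 0
  · subst hi
    simpa only [update_self] using hg
  · simpa only [update_of_ne hi] using differentiableAt_pi.1 hf i

theorem cpow_inv_pow (hk : k ≠ 0) (t : ℂ) : (t ^ (((k : ℝ)⁻¹ : ℝ) : ℂ)) ^ k = t := by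
  have := Complex.cpow_nat_inv_pow t hk
  rwa [show (((k : ℝ)⁻¹ : ℝ) : ℂ) = (k : ℂ)⁻¹ by push_cast; rfl]

theorem av_diff (hk : k ≠ 0) {a : ℝ} (ha : 0 < a) (ha1 : a ≤ 1) {F : (Fin (n + 1) → ℂ) → ℂ}
    (hF : DifferentiableOn ℂ F (ball 0 a)) : DifferentiableOn ℂ (av k F) (ball 0 (a ^ k)) := by
  have hζ := Complex.isPrimitiveRoot_exp k hk
  generalize Complex.exp _ = ζ at hζ
  have hFa : ∀ z ∈ ball (0 : Fin (n + 1) → ℂ) (a ^ k), ∀ α, α ^ k = z 0 → ∀ i : ℕ,
      DifferentiableAt ℂ F (update z 0 (ζ ^ i * α)) := fun z hz α h i =>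
    hF.differentiableAt (isOpen_ball.mem_nhds (upd_mem hk ha ha1 hz ((root_pow hζ i α).trans h)))
  have h1 : ∀ z ∈ ball (0 : Fin (n + 1) → ℂ) (a ^ k), z 0 ≠ 0 →
      DifferentiableAt ℂ (av k F) z := by
    intro z hz h0
    set e : ℂ := (((k : ℝ)⁻¹ : ℝ) : ℂ) with he
    have h2 : ∀ y : Fin (n + 1) → ℂ, (z 0 ^ e * (y 0 / z 0) ^ e) ^ k = y 0 := fun y => by
      rw [mul_pow, cpow_inv_pow hk, cpow_inv_pow hk, mul_div_cancel₀ _ h0]
    rw [show av k F = _ from funext fun y => av_eq hζ F (h2 y)]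
    refine (DifferentiableAt.fun_sum fun i _ => ?_).const_mul _
    refine (hFa z hz _ (h2 z) i).comp z (diffAt_upd differentiableAt_id ?_)
    have h5 : DifferentiableAt ℂ (fun y : Fin (n + 1) → ℂ => y 0 / z 0) z := by fun_prop
    refine ((h5.cpow_const ?_).const_mul _).const_mul _
    rw [div_self h0]
    exact Complex.one_mem_slitPlane
  have h3 : ∀ z ∈ ball (0 : Fin (n + 1) → ℂ) (a ^ k), ContinuousAt (av k F) z := by
    intro z hz
    by_cases h0 : z 0 = 0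
    · rw [show av k F = _ from funext fun y => av_eq hζ F (cpow_inv_pow hk (y 0))]
      refine continuousAt_const.mul (tendsto_finsetSum _ fun i _ => ?_)
      refine (hFa z hz _ (cpow_inv_pow hk (z 0)) i).continuousAt.tendsto.comp ?_
      refine ContinuousAt.update continuousAt_id 0 (continuousAt_const.mul ?_)
      refine (Complex.continuousAt_cpow_const_of_re_pos (Or.inl ?_) ?_).comp
        (continuous_apply 0).continuousAt
      · rw [h0]; exact le_rfl
      · rw [Complex.ofReal_re]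
        exact inv_pos.2 (Nat.cast_pos.2 (Nat.pos_of_ne_zero hk))
    · exact (h1 z hz h0).continuousAt
  refine P272.GEO.osgood isOpen_ball (fun z hz => (h3 z hz).continuousWithinAt) fun x hx i => ?_
  have hu : ∀ τ : ℂ, DifferentiableAt ℂ (fun τ : ℂ => update x i τ) τ := fun τ =>
    (hasDerivAt_update x i τ).differentiableAt
  have hx' : update x i (x i) = x := update_eq_self i x
  by_cases h0 : x 0 = 0
  · by_cases hi : i = 0
    · subst hi
      refine (Complex.analyticAt_of_differentiable_on_punctured_nhds_of_continuousAt ?_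
        ?_).differentiableAt
      · have h4 : ∀ᶠ τ in 𝓝 (x 0), update x 0 τ ∈ ball (0 : Fin (n + 1) → ℂ) (a ^ k) :=
          (hu _).continuousAt.eventually (isOpen_ball.mem_nhds (by simpa only [hx'] using hx))
        filter_upwards [mem_nhdsWithin_of_mem_nhds h4, self_mem_nhdsWithin] with τ h5 h6
        refine (h1 _ h5 ?_).comp τ (hu τ)
        rw [update_self, ← h0]
        exact h6
      · exact ContinuousAt.comp (g := av k F) (by rw [hx']; exact h3 x hx) (hu _).continuousAt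
    · have h2 : ∀ τ : ℂ, (0 : ℂ) ^ k = update x i τ 0 := fun τ => by
        rw [update_of_ne (Ne.symm hi), h0, zero_pow hk]
      rw [show (fun τ => av k F (update x i τ)) = _ from funext fun τ => av_eq hζ F (h2 τ)]
      refine (DifferentiableAt.fun_sum fun l _ => ?_).const_mul _
      exact (hFa _ (by rwa [hx']) _ (h2 (x i)) l).comp (x i)
        (diffAt_upd (hu _) (differentiableAt_const _))
  · exact DifferentiableAt.comp (g := av k F) (x i) (by rw [hx']; exact h1 x hx h0) (hu _)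

theorem det_span (b : ℂ) :
    ((ContinuousLinearMap.toSpanSingleton ℂ b).restrictScalars ℝ).det = ‖b‖ ^ 2 := by
  rw [← Complex.normSq_eq_norm_sq, ← Algebra.norm_complex_apply, Algebra.norm_apply,
    ContinuousLinearMap.det]
  congr 1
  ext x
  simp [mul_comm]

/-- change of variables in the first coordinate -/
theorem lint_upd {s : Set (Fin (n + 1) → ℂ)} (hs : MeasurableSet s) {g g' : ℂ → ℂ}
    (hg : ∀ z ∈ s, HasDerivAt g (g' (z 0)) (z 0)) (hi : InjOn (fun z => update z 0 (g (z 0))) s)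
    (G : (Fin (n + 1) → ℂ) → ℝ≥0∞) :
    ∫⁻ z in s, ‖g' (z 0)‖ₑ ^ 2 * G (update z 0 (g (z 0))) =
      ∫⁻ w in (fun z => update z 0 (g (z 0))) '' s, G w := by
  set D : ℂ → Fin (n + 1) → ℂ →L[ℝ] ℂ := fun b j =>
    (ContinuousLinearMap.toSpanSingleton ℂ (if j = 0 then b else 1)).restrictScalars ℝ with hD
  rw [lintegral_image_eq_lintegral_abs_det_fderiv_mul volume hs
    (f' := fun z => ContinuousLinearMap.pi fun j =>
      (D (g' (z 0)) j).comp (ContinuousLinearMap.proj j)) (fun z hz => ?_) hi]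
  · refine lintegral_congr fun z => ?_
    rw [ContinuousLinearMap.det_pi, Finset.prod_eq_single 0, hD]
    · simp only [if_true, det_span]
      rw [abs_of_nonneg (sq_nonneg _), ENNReal.ofReal_pow (norm_nonneg _), ofReal_norm]
    · intro b _ hb
      simp only [hD, if_neg hb, det_span, norm_one, one_pow]
    · simp
  · refine (hasFDerivAt_pi.2 fun j => ?_).hasFDerivWithinAt
    by_cases hj : j = 0
    · subst hj
      simp only [update_self, hD, if_true]
      exact ((hg z hz).hasFDerivAt.restrictScalars ℝ).comp z (hasFDerivAt_apply 0 z)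
    · simp only [update_of_ne hj, hD, if_neg hj]
      exact HasFDerivAt.comp (g := id) z ((hasDerivAt_id (z j)).hasFDerivAt.restrictScalars ℝ)
        (hasFDerivAt_apply (𝕜 := ℝ) j z)

theorem ae_slit : ∀ᵐ z : Fin (n + 1) → ℂ, z 0 ∈ Complex.slitPlane := by
  set L : (Fin (n + 1) → ℂ) →ₗ[ℝ] ℝ := Complex.imLm.comp (LinearMap.proj 0) with hL
  have h : LinearMap.ker L ≠ ⊤ := by
    intro h
    have h1 : (fun _ => Complex.I : Fin (n + 1) → ℂ) ∈ LinearMap.ker L := h ▸ Submodule.mem_top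
    simp [hL] at h1
  refine measure_mono_null (fun z hz => ?_) (Measure.addHaar_submodule volume _ h)
  by_contra h1
  exact hz (Or.inr h1)

theorem aem_wt {Z J : Type*} [Fintype J] {r : J → ℕ} {σ : ∀ j, Fin (r j) → Z → ℂ} (c : J → ℝ)
    [MeasurableSpace Z] {μ : Measure Z} (h : ∀ j a, AEMeasurable (σ j a) μ) :
    AEMeasurable (wt σ c) μ :=
  Finset.aemeasurable_fun_prod _ fun j _ => (AEMeasurable.ennreal_ofReal
    (Finset.aemeasurable_fun_sum _ fun a _ => (h j a).norm.pow_const 2)).pow_const _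

theorem enorm_av_le (hk : k ≠ 0) (f : ℕ → ℂ) :
    ‖(k : ℂ)⁻¹ * ∑ i ∈ Finset.range k, f i‖ₑ ^ 2 ≤ ∑ i ∈ Finset.range k, ‖f i‖ₑ ^ 2 := by
  have h1 : (1 : ℝ) ≤ k := Nat.one_le_cast.2 (Nat.pos_of_ne_zero hk)
  have h2 := sq_sum_le_card_mul_sum_sq (s := Finset.range k) (f := fun i => ‖f i‖)
  rw [Finset.card_range] at h2
  have h3 : ‖(k : ℂ)⁻¹ * ∑ i ∈ Finset.range k, f i‖ ^ 2 ≤ ∑ i ∈ Finset.range k, ‖f i‖ ^ 2 := by
    rw [norm_mul, norm_inv, Complex.norm_natCast, mul_pow, inv_pow,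
      inv_mul_le_iff₀ (by positivity)]
    have h4 : 0 ≤ ∑ i ∈ Finset.range k, ‖f i‖ ^ 2 := by positivity
    refine ((pow_le_pow_left₀ (norm_nonneg _) (norm_sum_le _ _) 2).trans h2).trans ?_
    exact mul_le_mul_of_nonneg_right (by nlinarith) h4
  simp only [← ofReal_norm, ← ENNReal.ofReal_pow (norm_nonneg _)]
  rw [← ENNReal.ofReal_sum_of_nonneg fun _ _ => sq_nonneg _]
  exact ENNReal.ofReal_le_ofReal h3

variable {J : Type*} [Fintype J] {r : J → ℕ} {σ : ∀ j, Fin (r j) → (Fin (n + 1) → ℂ) → ℂ}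
  {c : J → ℝ}

theorem av_int (hk : k ≠ 0) {a : ℝ} (ha : 0 < a) (ha1 : a ≤ 1) {F : (Fin (n + 1) → ℂ) → ℂ}
    (hF : ContinuousOn F (ball 0 a)) (hσ : ∀ j b, ContinuousOn (σ j b) (ball 0 (a ^ k)))
    (hint : ∫⁻ w in ball 0 a, ‖F w‖ₑ ^ 2 * wt σ c (update w 0 (w 0 ^ k)) ≠ ⊤) :
    ∫⁻ z in ball 0 (a ^ k), ‖av k F z‖ₑ ^ 2 * ‖z 0‖ₑ ^ (-(2 * (1 - (k : ℝ)⁻¹))) * wt σ c z ≠ ⊤ := by
  have hζ := Complex.isPrimitiveRoot_exp k hk
  generalize Complex.exp _ = ζ at hζ
  set e : ℂ := (((k : ℝ)⁻¹ : ℝ) : ℂ) with he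
  set s : Set (Fin (n + 1) → ℂ) := ball 0 (a ^ k) ∩ {z | z 0 ∈ Complex.slitPlane} with hs
  have hso : IsOpen s := isOpen_ball.inter (Complex.isOpen_slitPlane.preimage (continuous_apply 0))
  have hsm := hso.measurableSet
  have hae : s =ᵐ[volume] ball (0 : Fin (n + 1) → ℂ) (a ^ k) :=
    inter_ae_eq_left_of_ae_eq_univ (ae_eq_univ.2 ae_slit)
  rw [← Measure.restrict_congr_set hae]
  have hpow : ∀ (i : ℕ) (t : ℂ), (ζ ^ i * t ^ e) ^ k = t := fun i t =>
    (root_pow hζ i _).trans (cpow_inv_pow hk t)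
  have hT : ∀ i : ℕ, ∀ z ∈ s, update z 0 (ζ ^ i * z 0 ^ e) ∈ ball (0 : Fin (n + 1) → ℂ) a :=
    fun i z hz => upd_mem hk ha ha1 hz.1 (hpow i _)
  have hd : ∀ i : ℕ, ∀ z ∈ s, HasDerivAt (fun t : ℂ => ζ ^ i * t ^ e)
      (ζ ^ i * (e * z 0 ^ (e - 1))) (z 0) := fun i z hz =>
    (Complex.hasStrictDerivAt_cpow_const hz.2).hasDerivAt.const_mul _
  have hback : ∀ (i : ℕ) (z : Fin (n + 1) → ℂ), update (update z 0 (ζ ^ i * z 0 ^ e)) 0
      (update z 0 (ζ ^ i * z 0 ^ e) 0 ^ k) = z := fun i z => by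
    rw [update_self, hpow, update_idem, update_eq_self]
  have hfin : ∀ i : ℕ, ∫⁻ z in s, ‖F (update z 0 (ζ ^ i * z 0 ^ e))‖ₑ ^ 2 *
      ‖z 0‖ₑ ^ (-(2 * (1 - (k : ℝ)⁻¹))) * wt σ c z ≠ ⊤ := by
    intro i
    have h1 := lint_upd hsm (g := fun t => ζ ^ i * t ^ e)
      (g' := fun t => ζ ^ i * (e * t ^ (e - 1))) (hd i)
      (fun z _ y _ h => (hback i z).symm.trans
        ((congrArg (fun w => update w 0 (w 0 ^ k)) h).trans (hback i y)))
      fun w => ‖F w‖ₑ ^ 2 * wt σ c (update w 0 (w 0 ^ k))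
    simp only [hback] at h1
    have h2 := ne_top_of_le_ne_top hint
      (h1.le.trans (lintegral_mono_set (image_subset_iff.2 (hT i))))
    have h3 : ‖e‖ₑ ^ 2 ≠ 0 := pow_ne_zero 2 (enorm_ne_zero.2
      (Complex.ofReal_ne_zero.2 (inv_ne_zero (Nat.cast_ne_zero.2 hk))))
    have h4 : ‖e‖ₑ ^ 2 ≠ ⊤ := ENNReal.pow_ne_top enorm_ne_top
    intro h5
    apply h2
    rw [← ENNReal.mul_top h3, ← h5, ← lintegral_const_mul' _ _ h4]
    refine setLIntegral_congr_fun hsm fun z hz => ?_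
    have h6 : z 0 ≠ 0 := Complex.slitPlane_ne_zero hz.2
    have h7 : ‖z 0 ^ (e - 1)‖ₑ ^ 2 = ‖z 0‖ₑ ^ (-(2 * (1 - (k : ℝ)⁻¹))) := by
      rw [show e - 1 = (((k : ℝ)⁻¹ - 1 : ℝ) : ℂ) by rw [he]; push_cast; rfl, ← ofReal_norm,
        Complex.norm_cpow_real, ← ENNReal.ofReal_rpow_of_pos (norm_pos_iff.2 h6), ofReal_norm,
        ← ENNReal.rpow_natCast, ← ENNReal.rpow_mul]
      congr 1
      push_cast
      ring
    have h8 : ‖ζ ^ i‖ₑ = 1 := by
      rw [← ofReal_norm, norm_pow, hζ.norm'_eq_one hk, one_pow, ENNReal.ofReal_one]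
    simp only [enorm_mul, h8, one_mul, mul_pow, h7]
    ring
  have hm : ∀ i : ℕ, AEMeasurable (fun z => ‖F (update z 0 (ζ ^ i * z 0 ^ e))‖ₑ ^ 2 *
      ‖z 0‖ₑ ^ (-(2 * (1 - (k : ℝ)⁻¹))) * wt σ c z) (volume.restrict s) := by
    intro i
    refine AEMeasurable.mul (AEMeasurable.mul (AEMeasurable.pow_const (AEMeasurable.enorm
      (ContinuousOn.aemeasurable (hF.comp (fun z hz => ?_) (hT i)) hsm)) _)
      ((measurable_pi_apply 0).enorm.pow_const _).aemeasurable)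
      (aem_wt c fun j b => ((hσ j b).mono inter_subset_left).aemeasurable hsm)
    exact (ContinuousAt.update continuousAt_id 0
      (ContinuousAt.comp (f := fun y : Fin (n + 1) → ℂ => y 0)
      (hd i z hz).continuousAt (continuous_apply 0).continuousAt)).continuousWithinAt
  refine ne_top_of_le_ne_top (ENNReal.sum_ne_top.2 fun i (_ : i ∈ Finset.range k) => hfin i) ?_
  rw [← lintegral_finsetSum' _ fun i _ => hm i]
  refine lintegral_mono fun z => ?_
  simp only [← Finset.sum_mul]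
  rw [av_eq hζ F (cpow_inv_pow hk (z 0))]
  gcongr
  exact enorm_av_le hk _

end Vale.Agent.P277Z.Lift
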