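import Vale.Agent.P277Z.Lift.AmpB
import Vale.Agent.P277Z.Lift.FDefs

/-!
# P277Z, lifting: ample classes have metrics of positive curvature
-/

open scoped Manifold ContDiff
open Filter Topology Set
open Vale.Agent.P272.K
open Vale.Agent.P285.H281.FD (Bd)

noncomputable section

namespace Vale.Agent.P277Z.Lift

theorem lim_gen {W : Type} [TopologicalSpace W] {a v : W → ℝ} {y : W} (hv : ContinuousAt v y)
    (h : ∀ᶠ z in gen {y}, a z = v z) : limUnder (gen {y}) a = v y :=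
  ((hv.tendsto.mono_left (gen_le_nhds y)).congr' (h.mono fun _ => Eq.symm)).limUnder_eq

theorem met (n : ℕ) : MET n := by
  intro N K _ _ M hL B D s m E D' s' c hB hE ⟨G, hG⟩
  refine ⟨fun i k z => limUnder (gen {z}) fun y => Real.log (‖s i y‖ ^ 2) -
    ∑ j, c j * Real.log (‖s' j (k j) y‖ ^ 2) - G y, eventually_nhdsSet_iff_forall.2 fun x hx => ?_⟩
  obtain ⟨φ, h1, h2⟩ := hG ⟨x, hx⟩
  obtain ⟨i₀, hi₀⟩ := hB.lb.cover x hx
  choose k₀ hk₀ using fun j => (hE j).lb.cover x hx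
  obtain ⟨u, u1, u2, u3⟩ := rep_log hL hB ⟨x, hx⟩ hi₀
  choose w w1 w2 w3 using fun j => rep_log hL (hE j) ⟨x, hx⟩ (hk₀ j)
  set v : M.W → ℝ := fun z => 1 * Real.log (‖u z‖ ^ 2) +
    (∑ j, -c j * Real.log (‖w j z‖ ^ 2) + φ z)
  have hv : ∀ᶠ y in 𝓝 x, Spsh n v y := by
    filter_upwards [h1, u1.near, u1.ne_near u2,
      eventually_all.2 fun j => (w1 j).near.and ((w1 j).ne_near (w2 j))] with y k1 k2 k3 k4
    exact spsh_add_log (spsh_add_logs _ k1 (fun j => (k4 j).1) (fun j => (k4 j).2) _) k2 k3 1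
  have hg : ∀ᶠ z in gen {x}, (s i₀ z ≠ 0 ∧ ∀ j, s' j (k₀ j) z ≠ 0) ∧ Real.log (‖s i₀ z‖ ^ 2) -
      ∑ j, c j * Real.log (‖s' j (k₀ j) z‖ ^ 2) - G z = v z := by
    filter_upwards [h2, u3, eventually_all.2 w3] with z k1 k2 k3
    refine ⟨⟨k2.1, fun j => (k3 j).1⟩, ?_⟩
    have e : M.lg ⟨x, hx⟩ (D - ∑ j, c j • D' j) z =
        M.lg ⟨x, hx⟩ D z - ∑ j, c j * M.lg ⟨x, hx⟩ (D' j) z := by
      rw [← lg_sum]
      exact Finsupp.sum_sub_index fun _ _ _ => sub_mul _ _ _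
    simp only [k1, e, k2.2, fun j => (k3 j).2, v, mul_add, neg_mul, Finset.sum_add_distrib,
      Finset.sum_neg_distrib]
    ring
  have hU := ((hB.lb.isOpen _).eventually_mem hi₀).and
    (eventually_all.2 fun j => ((hE j).lb.isOpen _).eventually_mem (hk₀ j))
  have key : ∀ᶠ z in 𝓝 x, ∀ (i : B.ι) (k : ∀ j, (E j).ι), z ∈ B.U i → (∀ j, z ∈ (E j).U (k j)) →
      (limUnder (gen {z}) fun y => Real.log (‖s i y‖ ^ 2) -
        ∑ j, c j * Real.log (‖s' j (k j) y‖ ^ 2) - G y) = v z + Real.log (‖B.g i i₀ z‖ ^ 2) -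
        ∑ j, c j * Real.log (‖(E j).g (k j) (k₀ j) z‖ ^ 2) := by
    filter_upwards [hv, gen_near hg, hU, hU.eventually_nhds] with z k1 k2 k3 k4 i k hi hk
    refine lim_gen (v := fun z => v z + Real.log (‖B.g i i₀ z‖ ^ 2) -
      ∑ j, c j * Real.log (‖(E j).g (k j) (k₀ j) z‖ ^ 2)) ((k1.cont.add
        ((hB.lb.holo _ _ z hi k3.1).cont_log (hB.lb.ne_zero _ _ z hi k3.1))).sub
        (tendsto_finsetSum _ fun j _ => continuousAt_const.mul
          (((hE j).lb.holo _ _ z (hk j) (k3.2 j)).cont_log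
            ((hE j).lb.ne_zero _ _ z (hk j) (k3.2 j))))) ?_
    filter_upwards [k2, gen_of_nhds k4, gen_of_nhds ((hB.lb.isOpen _).eventually_mem hi),
      gen_of_nhds (eventually_all.2 fun j => ((hE j).lb.isOpen _).eventually_mem (hk j))]
      with y e1 e2 e3 e4
    have e5 : ∀ j, Real.log (‖s' j (k j) y‖ ^ 2) = Real.log (‖(E j).g (k j) (k₀ j) y‖ ^ 2) +
        Real.log (‖s' j (k₀ j) y‖ ^ 2) := fun j => by
      rw [(hE j).chg _ _ y (e4 j) (e2.2 j),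
        Lb.log_mul_sq ((hE j).lb.ne_zero _ _ y (e4 j) (e2.2 j)) (e1.1.2 j)]
    rw [hB.chg _ _ y e3 e2.1, Lb.log_mul_sq (hB.lb.ne_zero _ _ y e3 e2.1) e1.1.1, ← e1.2]
    simp only [e5, mul_add, Finset.sum_add_distrib]
    ring
  have h0 : ∀ᶠ z in 𝓝 x, (limUnder (gen {z}) fun y => Real.log (‖s i₀ y‖ ^ 2) -
      ∑ j, c j * Real.log (‖s' j (k₀ j) y‖ ^ 2) - G y) = v z := by
    filter_upwards [hv, gen_near hg] with z k1 k2 using lim_gen k1.cont (k2.mono fun _ h => h.2)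
  filter_upwards [key, hU, hv.eventually_nhds, h0.eventually_nhds.eventually_nhds]
    with z k1 k2 k3 k4
  refine ⟨⟨i₀, k₀, k2.1, k2.2, ?_⟩, fun i i' k k' hi hi' hk hk' => ?_⟩
  · filter_upwards [k3, k4] with y e1 e2 using spsh_congr e1 e2
  · have e : ∀ j, Real.log (‖(E j).g (k j) (k₀ j) z‖ ^ 2) =
        Real.log (‖(E j).g (k j) (k' j) z‖ ^ 2) + Real.log (‖(E j).g (k' j) (k₀ j) z‖ ^ 2) :=
      fun j => by
        rw [← (hE j).lb.cocycle _ _ _ z (hk j) (hk' j) (k2.2 j), Lb.log_mul_sq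
          ((hE j).lb.ne_zero _ _ z (hk j) (hk' j)) ((hE j).lb.ne_zero _ _ z (hk' j) (k2.2 j))]
    rw [k1 i k hi hk, k1 i' k' hi' hk', ← hB.lb.cocycle _ _ _ z hi hi' k2.1,
      Lb.log_mul_sq (hB.lb.ne_zero _ _ z hi hi') (hB.lb.ne_zero _ _ z hi' k2.1)]
    simp only [e, mul_add, Finset.sum_add_distrib]
    ring

end Vale.Agent.P277Z.Lift
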