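import Vale.Agent.P277Z.Lift.Key

/-!
# P277Z, lifting: the tower of extensions
-/

open scoped ENNReal
open Filter

set_option linter.unusedSectionVars false

noncomputable section

namespace Vale.Agent.P277Z.Lift.Fr

variable {GX GS V R P Z I J : Type} [AddCommGroup GX] [AddCommGroup GS] [AddCommGroup V]
  [Module ℝ V] [CommMonoid R] [Fintype I] [Fintype J] [DecidableEq I]
  {F : Fr GX GS V R P Z I J}

theorem Ok.pos_nn (H : F.Ok) {v : V} (hv : F.Pos v) {t : ℝ} (ht : 0 ≤ t) :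
    F.Pos (v + t • F.cl F.α) := by
  rcases ht.eq_or_lt with rfl | h
  · simpa using hv
  · exact H.pos_add _ _ hv (H.pos_smul t _ h H.pos_α)

theorem Ok.amp_ev (H : F.Ok) (g : GX) :
    ∀ᶠ h : ℕ in atTop, ∀ t : ℝ, h / 2 ≤ t → F.Pos (F.cl g + t • F.cl F.α) := by
  obtain ⟨n, hn⟩ := H.amp g
  filter_upwards [eventually_ge_atTop (2 * n)] with h hh t ht
  have h1 : (2 * n : ℝ) ≤ h := by exact_mod_cast hh
  have := H.pos_nn hn (t := t - n) (by linarith)
  rwa [add_assoc, ← add_smul, add_sub_cancel] at this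

theorem Ok.sec_pow (H : F.Ok) {g : GS} {s : R} (h : F.Sec g s) (n : ℕ) : F.Sec (n • g) (s ^ n) := by
  induction n with
  | zero => simpa using H.sec_one
  | succ n ih => rw [succ_nsmul, pow_succ]; exact H.sec_mul _ _ _ _ ih h

theorem Ok.sec_ym (H : F.Ok) (a : J → ℕ) : F.Sec (∑ Y, a Y • F.η Y) (∏ Y, F.y Y ^ a Y) := by
  classical
  induction (Finset.univ : Finset J) using Finset.induction_on with
  | empty => simpa using H.sec_one
  | insert Y s hY ih =>
    rw [Finset.sum_insert hY, Finset.prod_insert hY]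
    exact H.sec_mul _ _ _ _ (H.sec_pow (H.sec_y Y) _) ih

theorem Ok.ext_pow (H : F.Ok) {g : GX} {s : R} (h : F.Ext g s) (n : ℕ) : F.Ext (n • g) (s ^ n) := by
  induction n with
  | zero => simpa using H.ext_one
  | succ n ih => rw [succ_nsmul, pow_succ]; exact H.ext_mul _ _ _ _ ih h

theorem Ok.ext_ym (H : F.Ok) (c : I → ℕ) :
    F.Ext (∑ i, c i • F.σ i) (∏ Y, F.y Y ^ c (F.par Y)) := by
  have h1 : ∏ Y, F.y Y ^ c (F.par Y) = ∏ i, (∏ Y with F.par Y = i, F.y Y) ^ c i := by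
    rw [← Finset.prod_fiberwise Finset.univ F.par]
    refine Finset.prod_congr rfl fun i _ => ?_
    rw [← Finset.prod_pow]
    exact Finset.prod_congr rfl fun Y hY => by rw [(Finset.mem_filter.1 hY).2]
  rw [h1]
  induction (Finset.univ : Finset I) using Finset.induction_on with
  | empty => simpa using H.ext_one
  | insert i s hi ih =>
    rw [Finset.sum_insert hi, Finset.prod_insert hi]
    exact H.ext_mul _ _ _ _ (H.ext_pow (H.ext_σ i) _) ih

theorem Ok.li_one (H : F.Ok) (x : P) {γ : J → ℝ} (h : ∀ Y, γ Y < 1) :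
    F.LI x fun z => F.nq x 1 z ^ (-(1 : ℝ)) * F.wt x γ z := by
  simpa [nq] using H.snc x γ h

theorem Ok.un_one (x : P) : F.Un x 1 := ⟨1, one_pos, by simp⟩

/-- the numerical data of the tower -/
structure Tw (R I J : Type) where
  /-- the section on `S` is raised to the power `q` at each level -/
  q : ℕ
  /-- the degree of a level is `q L + Q α` -/
  Q : ℕ
  /-- the initial degree is `h α` -/
  h : ℕ
  /-- the orders of the section -/
  e : J → ℕ
  /-- the section without its zeros along the components -/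
  t : R
  /-- the reduced divisors -/
  T : ℕ → Finset I
  /-- the components along which the order of `θ` is small -/
  N : Finset J

namespace Tw

variable [DecidableEq J] (D : Tw R I J) (F)

/-- the indicator of `T r` -/
def χ (r : ℕ) (i : I) : ℕ := if i ∈ D.T r then 1 else 0

/-- the number of `t < r` with `i ∈ T t` -/
def cnt (r : ℕ) (i : I) : ℕ := ∑ t ∈ Finset.range r, D.χ t i

/-- the forced zeros -/
def Rr (r : ℕ) (Y : J) : ℕ := if Y ∈ D.N then 0 else D.cnt r (F.par Y)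

/-- the degree that is added after `r` steps, without the ample part -/
def E (r : ℕ) : GX := r • F.κ + ∑ i, D.cnt r i • F.σ i

/-- the ample part -/
def a (r : ℕ) : ℕ := min r 1 * (D.q + D.Q) + D.h

/-- the degree on `X` -/
def dX (L : GX) (l r : ℕ) : GX := l • (D.q • L + D.Q • F.α) + D.E F r + D.a r • F.α

/-- the degree on `S` -/
def dS (r : ℕ) : GS := F.ρ (D.E F r) - ∑ Y, D.Rr F r Y • F.η Y

/-- the section on `S` -/
def mo (l r : ℕ) (w : R) : R := D.t ^ (D.q * l) * (∏ Y, F.y Y ^ (D.q * l * D.e Y + D.Rr F r Y)) * w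

/-- the claim -/
def Cl (L : GX) (l r : ℕ) : Prop :=
  ∀ w, F.Sec (D.dS F r + (l * D.Q + D.a r) • F.ρ F.α) w → F.Ext (D.dX F L l r) (D.mo F l r w)

variable {D F} {L : GX}

theorem sec_mo (H : F.Ok) (ht : F.Sec (F.ρ L - ∑ Y, D.e Y • F.η Y) D.t) {l r : ℕ} {w : R}
    (hw : F.Sec (D.dS F r + (l * D.Q + D.a r) • F.ρ F.α) w) :
    F.Sec (F.ρ (D.dX F L l r)) (D.mo F l r w) := by
  have h1 := H.sec_mul _ _ _ _ (H.sec_mul _ _ _ _ (H.sec_pow ht (D.q * l))
    (H.sec_ym fun Y => D.q * l * D.e Y + D.Rr F r Y)) hw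
  have h2 : ∑ Y, (D.q * l * D.e Y + D.Rr F r Y) • F.η Y =
      (D.q * l) • ∑ Y, D.e Y • F.η Y + ∑ Y, D.Rr F r Y • F.η Y := by
    simp only [add_smul, Finset.sum_add_distrib, Finset.smul_sum, smul_smul]
  refine Eq.mp (congrArg (fun g => F.Sec g _) ?_) h1
  simp only [h2, dX, dS, map_add, map_nsmul]
  module

theorem base (H : F.Ok) (ht : F.Sec (F.ρ L - ∑ Y, D.e Y • F.η Y) D.t)
    (hp : F.Pos (F.cl (-F.κ) + (D.h : ℝ) • F.cl F.α)) : D.Cl F L 0 0 := by
  intro w hw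
  refine H.ext _ 0 0 0 0 0 0 {D.t ^ 0 * (∏ Y, F.y Y ^ 0) * 1} (1 * ∏ Y, F.y Y ^ 0)
    (∏ Y, F.y Y ^ 0) _ le_rfl le_rfl le_rfl (by simpa using H.ext_one) (by simpa using H.ext_one)
    (by simpa using H.ext_one) ?_ (sec_mo H ht hw) fun x => ?_
  · refine Eq.mp (congrArg F.Pos ?_) hp
    simp only [dX, E, a, cnt, map_add, map_nsmul, map_neg, ← Nat.cast_smul_eq_nsmul ℝ]
    simp [add_comm, sub_eq_add_neg]
  · exact H.key x (γ := fun _ => 1 / 2) ht hw H.sec_one (Ok.un_one x) (Finset.mem_singleton_self _)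
      le_rfl one_pos zero_le_one (fun _ => by norm_num) (by simp) (fun _ => rfl)
      (fun Y _ => by simp [Rr, cnt]) (H.li_one x fun _ => by norm_num)

theorem level (H : F.Ok) {m : ℕ} {b : I → ℕ} (hm : 1 ≤ D.q * m)
    (ht : F.Sec (F.ρ (F.deg m b) - ∑ Y, D.e Y • F.η Y) D.t)
    (hc : ∀ i, D.cnt (D.q * m) i = D.q * b i) (he : ∀ Y ∉ D.N, b (F.par Y) ≤ D.e Y) {l : ℕ}
    (h : D.Cl F (F.deg m b) l (D.q * m)) : D.Cl F (F.deg m b) (l + 1) 0 := by
  intro w hw
  have h1 : ∀ Y, D.Rr F (D.q * m) Y ≤ D.q * D.e Y := fun Y => by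
    rw [Rr]
    split_ifs with h
    · exact Nat.zero_le _
    · rw [hc]; exact Nat.mul_le_mul_left _ (he Y h)
  choose c hc' using fun Y => Nat.exists_eq_add_of_le (h1 Y)
  have h2 := H.sec_mul _ _ _ _ (H.sec_mul _ _ _ _ (H.sec_pow ht D.q) (H.sec_ym c)) hw
  have h3 : ∑ Y, c Y • F.η Y = D.q • ∑ Y, D.e Y • F.η Y - ∑ Y, D.Rr F (D.q * m) Y • F.η Y := by
    simp only [Finset.smul_sum, smul_smul, hc', add_smul, Finset.sum_add_distrib]
    abel
  have h4 : D.E F (D.q * m) = (D.q * m) • F.κ + D.q • ∑ i, b i • F.σ i := by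
    simp only [E, hc, Finset.smul_sum, smul_smul]
  have h5 : D.E F 0 = 0 := by simp [E, cnt]
  have h6 := h (D.t ^ D.q * (∏ Y, F.y Y ^ c Y) * w)
    (Eq.mp (congrArg (fun g => F.Sec g _) (by
      simp only [h3, dS, h4, h5, a, min_eq_right hm, deg, map_add, map_nsmul, map_zero]
      simp only [Rr, cnt, Finset.range_zero, Finset.sum_empty, ite_self, zero_smul,
        Finset.sum_const_zero, Nat.zero_min]
      module)) h2)
  refine Eq.mp (congrArg₂ F.Ext ?_ ?_) h6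
  · simp only [dX, h4, h5, a, min_eq_right hm, deg, Nat.zero_min]
    module
  · have h7 : ∀ Y, D.q * (l + 1) * D.e Y + D.Rr F 0 Y =
        D.q * l * D.e Y + D.Rr F (D.q * m) Y + c Y := fun Y => by
      have : D.Rr F 0 Y = 0 := by simp [Rr, cnt]
      rw [this, add_assoc, ← hc']
      ring
    simp only [mo, h7]
    simp only [pow_add, Finset.prod_mul_distrib, mul_add, mul_one]
    ac_rfl

theorem step (H : F.Ok) (ht : F.Sec (F.ρ L - ∑ Y, D.e Y • F.η Y) D.t) {k : ℕ} {D₀ : GX}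
    (hD : k • D₀ = D.q • L + D.Q • F.α) {τ : R} {g : GS} {v : J → ℕ} (hτ : F.Sec g τ)
    (hG : F.Good τ) (hθ : F.Ext D₀ (τ * ∏ Y, F.y Y ^ v Y)) {ζ δ : ℝ} {l r : ℕ}
    (hv : ∀ Y ∈ D.N, (k * v Y : ℝ) ≤ D.q * (D.e Y + ζ)) (hδ : 0 < δ) (hl : l * D.q * ζ < δ)
    (hd : ∀ x, {Y | F.par Y ∈ D.T r ∧ F.On x Y}.Subsingleton)
    (hp : F.Pos (F.cl (D.E F r) + δ • F.cl (∑ i, D.χ r i • F.σ i) + (D.h : ℝ) • F.cl F.α))
    (hg : F.Gen (D.dS F r + (l * D.Q + D.a r) • F.ρ F.α)) (h : D.Cl F L l r) :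
    D.Cl F L l (r + 1) := by
  classical
  intro w hw
  obtain ⟨W, w1, w2⟩ := hg
  obtain ⟨ε₀, e0, hG⟩ := hG
  obtain ⟨ε₁, e1, e2, e3⟩ : ∃ ε₁ : ℝ, 0 < ε₁ ∧ ε₁ ≤ ε₀ ∧ ε₁ ≤ 1 / 2 :=
    ⟨min ε₀ (1 / 2), lt_min e0 (by norm_num), min_le_left _ _, min_le_right _ _⟩
  have s0 : (0 : ℝ) ≤ ∑ Y, (v Y : ℝ) := Finset.sum_nonneg fun _ _ => Nat.cast_nonneg _
  have s1 : (0 : ℝ) ≤ l * k := by positivity
  obtain ⟨ε, e4, e5⟩ : ∃ ε : ℝ, 0 < ε ∧ ε * (1 + δ + l * k * (1 + ∑ Y, (v Y : ℝ))) = ε₁ :=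
    ⟨ε₁ / (1 + δ + l * k * (1 + ∑ Y, (v Y : ℝ))), by positivity, by field_simp⟩
  have s2 := mul_nonneg e4.le s1
  have s3 := mul_nonneg s2 s0
  have s4 := mul_pos e4 hδ
  refine H.ext _ (D.dX F L l r) D₀ (∑ i, D.χ r i • F.σ i) (1 - ε) (ε * (l * k)) (1 - ε * δ)
    (W.image (D.mo F l r)) _ _ _ (by nlinarith) s2 (by nlinarith) (fun s hs => ?_) hθ
    (H.ext_ym _) ?_ (sec_mo H ht hw) fun x => ?_
  · obtain ⟨w', h1, rfl⟩ := Finset.mem_image.1 hs
    exact h w' (w1 w' h1)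
  · have h1 : (0 : ℝ) ≤ D.a (r + 1) - D.a r + ε * (D.a r - D.h) := by
      have h2 : D.a r ≤ D.a (r + 1) :=
        Nat.add_le_add_right (Nat.mul_le_mul_right _ (min_le_min_right _ r.le_succ)) _
      have h3 : D.h ≤ D.a r := Nat.le_add_left _ _
      exact add_nonneg (sub_nonneg.2 (by exact_mod_cast h2))
        (mul_nonneg e4.le (sub_nonneg.2 (by exact_mod_cast h3)))
    refine Eq.mp (congrArg F.Pos ?_) (H.pos_nn (H.pos_smul ε _ e4 hp) h1)
    have h2 : D.E F (r + 1) = D.E F r + F.κ + ∑ i, D.χ r i • F.σ i := by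
      simp only [E, cnt, Finset.sum_range_succ, add_smul, Finset.sum_add_distrib, one_smul]
      abel
    simp only [dX, ← hD, h2, map_add, map_nsmul, ← Nat.cast_smul_eq_nsmul ℝ]
    module
  · obtain ⟨w₀, h1, h2⟩ := w2 x
    have s5 := mul_pos e4 (sub_pos.2 hl)
    refine H.key x (γ := fun Y => if F.On x Y ∧ Y ∈ D.N ∧ F.par Y ∈ D.T r then
      max (1 - ε * (δ - l * D.q * ζ)) ε₁ else ε₁) ht hw hτ h2 (Finset.mem_image_of_mem _ h1)
      (by nlinarith) e0 (by nlinarith) (fun Y => ?_) ?_ id (fun Y hY => ?_) (hG x _ (fun Y => ?_) ?_)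
    · split_ifs
      · exact e1.trans_le (le_max_right _ _)
      · exact e1
    · have : (0 : ℝ) ≤ (D.q * l : ℕ) := Nat.cast_nonneg _
      nlinarith
    · have h3 : (v Y : ℝ) ≤ ∑ Y, (v Y : ℝ) :=
        Finset.single_le_sum (f := fun Y => (v Y : ℝ)) (fun _ _ => Nat.cast_nonneg _)
          (Finset.mem_univ Y)
      have h4 : ε * (l * k) * v Y ≤ ε₁ := by nlinarith [mul_le_mul_of_nonneg_left h3 s2]
      have h5 : 0 ≤ ε * (D.q * l * D.e Y) := by positivity
      have h6 : 0 ≤ ε * D.cnt r (F.par Y) := by positivity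
      by_cases hN : Y ∈ D.N
      · by_cases hT : F.par Y ∈ D.T r
        · rw [if_pos ⟨hY, hN, hT⟩]
          refine le_trans ?_ (le_max_left _ _)
          have h7 := mul_le_mul_of_nonneg_left (hv Y hN) (mul_nonneg e4.le (Nat.cast_nonneg l))
          simp only [Rr, χ, if_pos hN, if_pos hT]
          push_cast
          nlinarith
        · rw [if_neg fun h => hT h.2.2]
          simp only [Rr, χ, if_pos hN, if_neg hT]
          push_cast
          nlinarith
      · rw [if_neg fun h => hN h.2.1]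
        have h7 : 0 ≤ ε * δ * D.χ r (F.par Y) := by positivity
        have h8 : D.cnt (r + 1) (F.par Y) = D.cnt r (F.par Y) + D.χ r (F.par Y) :=
          Finset.sum_range_succ _ _
        simp only [Rr, if_neg hN, h8]
        push_cast
        nlinarith
    · split_ifs
      · exact max_lt (by linarith) (by linarith)
      · linarith
    · refine (hd x).anti fun Y hY => ?_
      by_contra h3
      rw [Set.mem_ofPred_eq, if_neg fun h => h3 ⟨h.2.2, h.1⟩] at hY
      linarith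

end Tw

end Vale.Agent.P277Z.Lift.Fr
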